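import Crest.Agent.X212.Qab60.Props

/-!
# Row 212, QA-PST and QA-TRN (helper24): pasting of reductions, change of the metric
-/

set_option autoImplicit false
set_option linter.unusedSectionVars false
noncomputable section
open scoped Manifold ContDiff Topology InnerProductSpace
open MeasureTheory Set Function Filter
open Crest.Agent.R208.F (Ext)

namespace Crest.Agent.X212.Cay24
open An Wz78 Pj41 Num57 Met55 Qab60
open Abel74 (fm fF RedOn)
open Loc8 (Rd)
open Eqv71 (cj opL_cj)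
open Sob92 (dv)

variable {E : Type} [NormedAddCommGroup E] [NormedSpace ℝ E] [FiniteDimensional ℝ E]
  [MeasurableSpace E] [BorelSpace E]
  {HM : Type} [TopologicalSpace HM] {I : ModelWithCorners ℝ E HM} [I.Boundaryless]
  {M : Type} [TopologicalSpace M] [ChartedSpace HM M] [IsManifold I ∞ M] [T2Space M]
  [MeasurableSpace M] [BorelSpace M] [SecondCountableTopology M]
  {ι : Type} [Fintype ι] {lam : Type} [Fintype lam] {B : Base M ι lam} {G G' : Geo I M ι lam}
  {m m' : Md M ι lam} {O : Set M} {u : M → CL m.V m'.V} {x : M} {W : m.Cn} {W' : m'.Cn}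
  {ξ : M → m.A}

theorem iso_pp (h : Iso0 I m m' O u) (hx : x ∈ O) : m'.pp B x ∘L u x = u x ∘L m.pp B x := by
  have h1 : ∀ a v, m'.ρ a x (u x v) = u x (m.ρ a x v) := fun a v =>
    congrArg (fun T : CL m.V m'.V => T v) (h.ρ x hx a)
  have h2 : ∀ v, m'.p x (u x v) = u x (m.p x v) := fun v =>
    congrArg (fun T : CL m.V m'.V => T v) ((h.iso x hx).left.trans (h.iso x hx).idem.symm)
  ext1 v
  simp only [Md.pp, Md.om, ContinuousLinearMap.comp_apply, smul_apply, sub_apply,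
    _root_.sum_apply, mul_apply_eq_comp, map_smul, map_sub, map_sum, h1, h2]

theorem redOn_iso (h : Iso0 I m m' O u) (hm : OKOn I B m O) (hm' : OKOn I B m' O)
    (hW : ConnOn B G m W O) (hW' : ConnOn B G m' W' O) (hp : Par0 G.F W W' O u)
    (R : RedOn G.F m W O ξ) : RedOn G.F m' W' O fun x => cj (u x) (ξ x) := by
  refine ⟨fun x hx => SA.app (Eqv71.sa_cj (h.su x hx)) (R.sm x hx),
    fun x hx => Loc66.cj_mem h hm hm' hx (R.mem x hx), fun x hx => ?_, fun x hx a => ?_⟩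
  · have k := h.iso x hx
    have e : ∀ v, ad (u x) (u x (opL (ξ x) v)) = opL (ξ x) v := fun v =>
      congrArg (fun T : En _ => T v) ((congrArg (· ∘L opL (ξ x)) k.src).trans (g_p (R.mem x hx)))
    have e1 : ∀ v, opL (ξ x) (opL (ξ x) v) = -m.p x v := fun v =>
      congrArg (fun T : En _ => T v) (R.sq x hx)
    have e2 : ∀ v, u x (m.p x (ad (u x) v)) = m'.p x v := fun v =>
      congrArg (fun T : En _ => T v) ((congrArg (· ∘L ad (u x)) k.idem).trans k.tgt)
    ext1 v
    simp only [opL_cj, ← ad_trn, mul_apply_eq_comp, ContinuousLinearMap.comp_apply, e, e1, map_neg,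
      e2, neg_apply]
  · have i : Eqv71.Itw I G.F.e W W' u x := fun a => sub_eq_zero.1 (hp x hx a)
    have := (i.cj (h.su x hx) (hW.sk · x hx) (hW'.sk · x hx)).nab (a := a)
      (Eqv71.sa_cj (h.su x hx)).md (R.sm x hx).md
    exact this.trans ((congrArg _ (R.par x hx a)).trans (map_zero _))

theorem pstStmt : PstStmt I M ι lam := fun r B G Ω m W ξ c' hB hG hΩ hm hW R hc => by
  classical
  have := Sob92.scs (I := I) (M := M)
  have o1 := hΩ.isOpen
  have o2 := hΩ.compl.isOpen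
  obtain ⟨n, a, a', X, h1, h2, h3, h4, h5, h6, -⟩ := Loc66.glue2 (u := 0) o1 o2
    (fun x => em (x ∈ Ω)) hm hc.ok hG.P hW hc.conn
    ⟨fun _ h => (h.2 h.1).elim, fun _ h => (h.2 h.1).elim, fun _ h => (h.2 h.1).elim,
      fun _ h => (h.2 h.1).elim, fun _ h => (h.2 h.1).elim⟩ fun _ h => (h.2 h.1).elim
  have k := redOn_iso h3 hm (OK.on h1 _) hW (IsConn.on h2 _) h5 R
  have e : ∀ x ∈ Ω, Ω.indicator (fun x => cj (a x) (ξ x)) =ᶠ[𝓝 x] fun x => cj (a x) (ξ x) :=
    fun x hx => mem_of_superset (o1.mem_nhds hx) fun _ hy => indicator_of_mem hy _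
  obtain ⟨Φ, f1, f2⟩ : ∃ Φ : M → n.V, (∀ x ∈ Ω, Φ x = 0) ∧ ∀ x ∈ Ωᶜ, Φ x = a' x (c'.Φ x) :=
    ⟨Ωᶜ.indicator fun x => a' x (c'.Φ x), fun x hx => indicator_of_notMem (not_not.2 hx) _,
      fun x hx => indicator_of_mem hx _⟩
  refine ⟨⟨n, X, Φ, c'.z⟩, Ω.indicator fun x => cj (a x) (ξ x),
    a, a', ⟨⟨h1, h2, fun x => ?_, fun x => ?_, hc.z⟩, ⟨⟨fun x hx =>
      (k.sm x hx).congr_of_eventuallyEq (e x hx), fun x hx => (e x hx).eq_of_nhds ▸ k.mem x hx,
      fun x hx => (e x hx).eq_of_nhds ▸ k.sq x hx, fun x hx b =>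
        (nab_congr b (e x hx)).trans (k.par x hx b)⟩, o1, fun x hx => indicator_of_notMem hx _⟩, f1⟩,
    ⟨h4, h6, f2, rfl⟩, ⟨h3, h5⟩, fun x hx => indicator_of_mem hx _, fun x hx => ?_⟩
  · by_cases hx : x ∈ Ω
    · exact (contMDiffAt_const (c := 0)).congr_of_eventuallyEq (mem_of_superset (o1.mem_nhds hx) f1)
    · exact ((h4.su x hx).clm_apply (hc.sm x hx)).congr_of_eventuallyEq
        (mem_of_superset (o2.mem_nhds hx) f2)
  · change n.pp B x (Φ x) = Φ x
    by_cases hx : x ∈ Ω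
    · rw [f1 x hx, map_zero]
    · rw [f2 x hx, ← ContinuousLinearMap.comp_apply, iso_pp h4 hx, ContinuousLinearMap.comp_apply,
        hc.pos x hx]
  · simp only [Abel74.fm, fm2_apply, fF, indicator_of_mem hx, Loc66.Fg_loc h3 o1 hm (OK.on h1 _)
      (hW.sm · x hx) (h2.cc.sm · x) h5 hx, Loc66.inner_cj_g h3 hx _ (R.mem x hx)]

theorem fm_at (hG : G.OK B) (C : m.IsConn B G W) (h : ξ x ∈ m.gS x) : fm G.F m W ξ x =
    ((-(1 / 16) : ℝ) • Num57.c1 I (cn G.F W) (f0 E fun x => opL (ξ x))) x := by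
  refine (cf G.F x).ext2' (Abel74.dg_fm x trivial) ((deg_c1 G.F _ _ x).smul _) fun a b => ?_
  change k2 G.F _ a b x = k2 G.F _ a b x
  rw [Abel74.k2_fm hG C, k2_smul, k2_c1 G.F (fun a => C.cc.sm a x)
    (.of_forall fun y a => by rw [hG.P]; exact C.cc.proj a y), Abel74.fF_tr h]

section cn
variable {V : Type} [NormedAddCommGroup V] [NormedSpace ℝ V] [FiniteDimensional ℝ V]
  {F F' : Fr I M ι} {A A' : ι → M → V →L[ℝ] V}

theorem cn_chg (h : ∀ a x, ∑ b, F.P a b x • A b x = A a x) :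
    cn F A = cn F' fun a x => ∑ b, trS F F' x a b • A b x := by
  ext i j x
  refine (cf F' x).ext1' (cn_deg _ _ _ _ _) (cn_deg _ _ _ _ _) fun a => ?_
  have e : ee F' x a = ∑ b, trS F F' x a b • ee F x b := trS_mix F F' a x
  refine Eq.trans ?_ (k1_cn F' (fun a => ?_) i j a).symm
  · rw [e, e1_vsum, ← en_apply, map_sum]
    exact Finset.sum_congr rfl fun b _ => by
      rw [map_smul, en_apply, ← k1_cn F (h · x)]; rfl
  · simp only [Finset.smul_sum, smul_smul]
    rw [Finset.sum_comm]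
    simp only [← Finset.sum_smul, P_trS]

theorem tg1_cn (T : M → V →L[ℝ] V) (h : ∀ a, Num57.tr (T x * (A' a x - A a x)) = 0) :
    tg1 (cn F A) (cn F A') (f0 E T) x = 0 := by
  simp only [tr_mx, Num57.mx_mul, Num57.mx_sub, Matrix.trace, Matrix.diag_apply, Matrix.mul_apply,
    Matrix.sub_apply] at h
  simp only [tg1, Matrix.trace, Matrix.diag_apply, Matrix.mul_apply, Matrix.sub_apply,
    Finset.sum_apply, Pi.mul_apply, Pi.sub_apply, cn, Matrix.of_apply, fm1_apply, f0, fz, Dr59.fn,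
    ← Algebra.smul_def, ← Finset.sum_sub_distrib, ← sub_smul, Finset.smul_sum, smul_smul]
  rw [Finset.sum_congr rfl fun _ _ => Finset.sum_comm, Finset.sum_comm]
  simp only [← Finset.sum_smul, h, zero_smul, Finset.sum_const_zero]

end cn

theorem trnStmt : TrnStmt I M ι lam := fun r B G G' Ω c ξ hB hG hG' h => by
  have H := h.adm.ok
  have C := h.adm.conn
  have R := h.rd
  have C' := isConn_chg hB hG hG' H C
  have hD : ∀ a (f : M → ℝ) x, dv I (G'.F.e a) f x =
      ∑ l, trS G.F G'.F x a l * dv I (G.F.e l) f x :=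
    fun a f x => congrFun ((trS_mix G.F G'.F).D a f) x
  obtain ⟨Θ, hΘ⟩ : ∃ Θ : c.m.Cn, Θ = fun a x => ∑ b, ∑ k, cfS G.F G'.F x a b k •
    (c.m.ρ b x * c.m.ρ k x) + laS B G G' x a • (c.m.J * c.m.p x) := ⟨_, rfl⟩
  simp only [add_assoc, ← congrFun₂ hΘ] at C'
  have h1 : ∀ a, ∀ x ∈ Ω, Commute (opL (ξ x)) (Θ a x) := fun a x hx => by
    have g := R.mem x hx
    rw [hΘ]
    exact (Commute.sum_right _ _ _ fun b _ => Commute.sum_right _ _ _ fun k _ =>
      (Commute.mul_right (g_ρ g b).symm (g_ρ g k).symm).smul_right _).add_right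
      ((Commute.mul_right (g_J g).symm ((g_p' H g).trans (g_p g).symm)).smul_right _)
  have h2 : ∀ a, ∀ x ∈ Ω, Num57.tr (opL (ξ x) * Θ a x) = 0 := fun a x hx => by
    have g := R.mem x hx
    have : c.m.pg x (hsL (Θ a x)) = 0 := by
      simp only [hΘ, cfS_spin, map_add, map_smul, pg_Jp hB H, smul_zero, add_zero]
      exact pg_spin fun b k => Spn45.dG_skew (glc hG) (glc hG') hD a b k x
    rw [Num57.tr, ← trE_eq, ← neg_eq_zero, ← inner_skw (g_skw g), ← pg_of_mem g, inner_pg, this,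
      inner_zero_right]
  have R' : Rd G'.F c.m (fun a x => ∑ b, trS G.F G'.F x a b • c.W b x + Θ a x) Ω ξ :=
    ⟨⟨R.sm, R.mem, R.sq, fun x hx a => by
      have e : dv I (G'.F.e a) ξ x = ∑ l, trS G.F G'.F x a l • dv I (G.F.e l) ξ x :=
        congrFun ((trS_mix G.F G'.F).D a ξ) x
      have z : adc (Θ a x) (ξ x) = 0 := by rw [adc_apply, (h1 a x hx).eq, sub_self, map_zero]
      have p := R.par x hx
      simp only [nab, Md.adW] at p ⊢
      rw [e, ← adcL_apply, map_add, map_sum, add_apply, adcL_apply, z, add_zero, _root_.sum_apply,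
        ← Finset.sum_add_distrib]
      simp only [map_smul, smul_apply, adcL_apply, ← smul_add, p, smul_zero,
        Finset.sum_const_zero]⟩, R.op, R.off⟩
  refine ⟨fun a x => ∑ b, trS G.F G'.F x a b • c.W b x + Θ a x, ⟨⟨H, C', h.adm.sm, h.adm.pos,
    h.adm.z⟩, R', h.z⟩, funext fun x => ?_, fun O hO e a x hx => ?_⟩
  · by_cases hx : x ∈ Ω
    · have pa : ∀ {G : Geo I M ι lam} {W : c.m.Cn}, G.OK B → c.m.IsConn B G W → Rd G.F c.m W Ω ξ →
          Pa I Ω (cn G.F W) (f0 E fun x => opL (ξ x)) := fun hG C R =>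
        pa_cn _ (fun x _ a => by rw [hG.P]; exact C.cc.proj a x) (fun x => R.sm_opL) fun x => R.nE
      rw [fm_at hG' C' (R.mem x hx), fm_at hG C (R.mem x hx), Pi.smul_apply, Pi.smul_apply,
        c1_sub R.op ((Abel74.Red.co C).mono (subset_univ Ω)) ((Abel74.Red.co C').mono (subset_univ Ω))
          (pa hG C R) (pa hG' C' R') hx, Dr59.dM_congr (b := 0), Dr59.dM_zero, Pi.zero_apply, add_zero]
      refine mem_of_superset (R.op.mem_nhds hx) fun y hy => ?_
      rw [cn_chg (F' := G'.F) fun a x => by rw [hG.P]; exact C.cc.proj a x]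
      exact tg1_cn _ fun a => by rw [add_sub_cancel_left]; exact h2 a y hy
    · rw [R.fm_off hx, R'.fm_off hx]
  · have s : ∀ a b, trS G.F G'.F x a b = B.P a b x := fun a b => by
      rw [(trS_congr G.F G.F x a b fun a => (e a x hx).1).1, trS_self, hG.P]
    have fr : FRel G'.F G.F id O := ⟨hO, fun x _ => (Diffeomorph.refl I M ∞).isLocalDiffeomorph x,
      fun a x hx => by rw [mfderiv_id]; exact (e a x hx).1⟩
    simp only [hΘ, cfS, Spn45.dG, laS, Met55.dA, s, C.cc.proj, hG.con.proj, (e a x hx).2, sub_self,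
      fr.Gam hx, id, (glc hG).proj1 (gfrm hG) (gsep hG), mul_zero, zero_mul, map_zero, zero_smul,
      Finset.sum_const_zero, add_zero]

end Crest.Agent.X212.Cay24
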