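import Crest.Agent.X212.Loc45.Defs
import Crest.Agent.X212.Gnk23.Main
import Crest.Agent.X212.Sw21.Gz

/-!
# Row 212, GL-LOCS (helper24): the leaves GM-E, NK-E, TM-E, CUT-E of the side `Loc45.E`
-/

set_option autoImplicit false
set_option linter.unusedSectionVars false
noncomputable section
open scoped Manifold ContDiff Topology
open MeasureTheory Set Function Filter Metric

namespace Crest.Agent.X212.Cay24
open An An.Job M Nd18 Mod61 Prm93 Gj67 Gla92 Loc45 Gb50 Cht98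
open Gl67 (Sid)
open Cnt93 (It)
open Csm97 (S0 Ci c2 c2_apply)

section gen
variable {E : Type} [NormedAddCommGroup E] [NormedSpace ℝ E] [FiniteDimensional ℝ E]
  [MeasurableSpace E] [BorelSpace E]
  {HM : Type} [TopologicalSpace HM] {I : ModelWithCorners ℝ E HM} [I.Boundaryless]
  {M : Type} [TopologicalSpace M] [ChartedSpace HM M] [IsManifold I ∞ M]
  [MeasurableSpace M] [T2Space M] [BorelSpace M] [SecondCountableTopology M]
  {ι lam : Type} [Fintype ι] [Fintype lam] {T N : Type} [NormedAddCommGroup T] [NormedSpace ℝ T]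
  [NormedAddCommGroup N] [NormedSpace ℝ N] {k : Cut M lam}

/-- the degeneration of a cut does not depend on the module -/
theorem q0_any {B : Base M ι lam} {F : Fr I M ι} {m m' : Md M ι lam} {x : M} (hB : B.OK I)
    (H : m.OK I B) (H' : m'.OK I B) (h : k.q0 B F m' x ≠ 0) : k.q0 B F m x ≠ 0 := fun e => by
  obtain ⟨A, i, -, uu⟩ := Std94.exists_itx hB (Std94.pmx H x) (Std94.pmx H' x)
  have ρ : ∀ a, It A (m.ρ a x) (m'.ρ a x) := fun a => .of fun y => (i.ρ a y).symm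
  have c : ∀ w, It A (m.c2 x w) (m'.c2 x w) := fun w => .sum _ fun s => ((ρ _).mul (ρ _)).smul _
  have p : It A (k.pi B F m x) (k.pi B F m' x) :=
    ((((It.of fun y => (i.pl y).trans (i.pr y).symm).sub ((It.sum _ fun _ => .sum _ fun _ =>
      .sum _ fun _ => .sum _ fun _ => ((((ρ _).mul (ρ _)).mul (ρ _)).mul (ρ _)).smul _).smul
        _)).smul _).sub (((It.of fun y => (i.J y).symm).mul (c _)).smul _)).smul _
  have q : It A (k.q0 B F m x) (k.q0 B F m' x) :=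
    (p.mul (It.lsum (R := Eq) (List.forall₂_refl _) fun _ _ _ _ e => e ▸ (c _).mul
      (.of fun y => (i.j _ y).symm))).mul p
  exact h (by rw [q.eq_conj uu (Cnt93.q0_p k H'), e]; simp)

theorem s0_lb {O : Set T} {t₀ : T} (hO : O ∈ 𝓝 t₀) (h : Csm97.Dat I k) {f : T → M → N}
    (s : S0 O fun t θ u => f t (k.γ θ u)) (h0 : ∀ θ u, f t₀ (k.γ θ u) ≠ 0) :
    ∃ c > 0, ∀ᶠ t in 𝓝 t₀, ∀ θ u, c ≤ ‖f t (k.γ θ u)‖ := by
  obtain ⟨z, -, hz⟩ := isCompact_univ.exists_isMinOn univ_nonempty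
    (c2 fun θ u => f t₀ (k.γ θ u)).continuous.norm.continuousOn
  have e := fun t ht => c2_apply (s.ct t ht)
  have p : 0 < ‖(c2 fun θ u => f t₀ (k.γ θ u)) z‖ / 2 := by
    rw [e _ (mem_of_mem_nhds hO)]; exact half_pos (norm_pos_iff.2 (h0 _ _))
  refine ⟨_, p, ?_⟩
  filter_upwards [hO, (s.sm.continuousOn.continuousAt hO).eventually (ball_mem_nhds _ p)]
    with t ht k1 θ u
  obtain ⟨y, hy⟩ : k.γ θ u ∈ range fun z : Csm97.II × Ci => k.γ z.2 z.1 :=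
    h.supp_eq ▸ ⟨(θ, u), rfl⟩
  have h1 := (ContinuousMap.norm_coe_le_norm _ y).trans_lt (mem_ball_iff_norm.1 k1)
  have h2 := norm_sub_norm_le ((c2 fun θ u => f t₀ (k.γ θ u)) y) ((c2 fun θ u => f t (k.γ θ u)) y)
  have h3 := isMinOn_univ_iff.1 hz y
  rw [ContinuousMap.sub_apply, norm_sub_rev] at h1
  rw [← hy, ← e t ht y]
  linarith

/-- **cuts do not degenerate nearby** -/
theorem cut_ev {𝔉 : Mod61.Fam I M ι lam T} (H : 𝔉.OK) {t₀ : T} (ht : t₀ ∈ 𝔉.Q) {m : Md M ι lam}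
    (hm : m.OK I 𝔉.B) (hk : k.OK 𝔉.B (𝔉.G t₀).F) {Ω : Set M} (hc : CutIn I Ω k) :
    ∃ c > 0, ∀ᶠ t in 𝓝 t₀, k.OK 𝔉.B (𝔉.G t).F ∧ ∀ θ u,
      c ≤ ‖k.om 𝔉.B (𝔉.G t).F (k.γ θ u)‖ ∧ c ≤ ‖hsL (k.q0 𝔉.B (𝔉.G t).F m (k.γ θ u))‖ := by
  have h := Csm97.dat hk
  have F := Csm97.ff H h
  have o := H.opn.mem_nhds ht
  obtain ⟨c₁, p₁, h₁⟩ := s0_lb o h (f := fun t => k.om 𝔉.B (𝔉.G t).F)
    (Csm97.om_s1 H.B h F).s0 hk.om
  have n := h₁.mono fun t k θ u => norm_pos_iff.1 (p₁.trans_le (k θ u))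
  obtain ⟨c₂, p₂, h₂⟩ := s0_lb (inter_mem o n) h (f := fun t x => hsL (k.q0 𝔉.B (𝔉.G t).F m x))
    ((Csm97.q0_s1 H.B hm h (F.reparam contDiffOn_id fun _ k => k.1) fun _ k => k.2).clm hsL).s0
    fun θ u e => hk.q0 m hm θ u (by rw [← Wz78.opL_hsL (k.q0 _ _ _ _), e, map_zero])
  refine ⟨min c₁ c₂, lt_min p₁ p₂, ?_⟩
  filter_upwards [h₁, n, h₂] with t k1 k2 k3
  exact ⟨⟨hk.sm, hk.h0, hk.h1, fun d e => ⟨(hc.w d e).1.cb _, (hc.w d e).2.1.cd _, (hc.w d e).2.2.cd _⟩,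
    fun d e => ⟨Sob92.Cb_of_hcs (hc.e d e).1.sm (hc.e d e).1.hcs, (hc.e d e).2.1.cd _,
      (hc.e d e).2.2.cd _⟩, k2, fun m' hm' θ u => q0_any H.B hm' hm fun e => by
        simpa [e, p₂.not_ge] using k3 θ u⟩,
    fun θ u => ⟨(min_le_left _ _).trans (k1 θ u), (min_le_right _ _).trans (k3 θ u)⟩⟩

section mono
open Wrd81
variable {Ω Ω' : Set M} (e : Ω ⊆ Ω') {r n : ℕ}
include e

theorem tf_m {f : M → ℝ} (h : Tf I Ω f) : Tf I Ω' f := ⟨h.sm, h.hcs, h.sub.trans e⟩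

theorem tv_m {f : M → Eu lam} (h : Tv I Ω f) : Tv I Ω' f := ⟨h.sm, h.hcs, h.sub.trans e⟩

theorem sw_m {u : SW M} (h : SwIn I Ω u) : SwIn I Ω' u := fun t ht => by
  have := h t ht
  cases t
  exacts [tf_m e this, tf_m e this, trivial, trivial]

theorem ll_m {u : List (La M)} (h : LlIn I Ω u) : LlIn I Ω' u := fun t ht => by
  have := h t ht
  cases t
  exacts [tf_m e this, trivial]

theorem aw_m {ξ : AW M} (h : AwIn I Ω ξ) : AwIn I Ω' ξ := by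
  obtain ⟨s, l⟩ := ξ
  refine ⟨?_, ll_m e h.2⟩
  cases s
  exacts [⟨sw_m e h.1.1, sw_m e h.1.2⟩, ⟨tf_m e h.1.1, tf_m e h.1.2.1, tf_m e h.1.2.2⟩]

theorem sg_m {g : Sg M lam} (h : SgIn I Ω g) : SgIn I Ω' g :=
  ⟨tv_m e h.1, sw_m e h.2.1, sw_m e h.2.2⟩

theorem co_m {c : An.Co M lam r} (h : CoIn I Ω c) : CoIn I Ω' c := by
  cases c
  exacts [trivial, ⟨sg_m e h.1, fun g k => sg_m e (h.2 g k)⟩]

theorem tm_m {τ : Tm M lam r n} (h : TmIn I Ω τ) : TmIn I Ω' τ := by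
  cases τ
  exacts [⟨sw_m e h.1, h.2⟩, ⟨co_m e h.1, tv_m e h.2.1, sw_m e h.2.2⟩,
    ⟨tf_m e h.1, tf_m e h.2.1, aw_m e h.2.2⟩, ⟨co_m e h.1, tv_m e h.2.1, tf_m e h.2.2.1,
      tf_m e h.2.2.2.1, sw_m e h.2.2.2.2.1, sw_m e h.2.2.2.2.2.1, ll_m e h.2.2.2.2.2.2⟩,
    ⟨tf_m e h.1, tf_m e h.2.1, tf_m e h.2.2.1, h.2.2.2.1, h.2.2.2.2.1,
      fun ξ k => aw_m e (h.2.2.2.2.2 ξ k)⟩, sg_m e h, trivial]

theorem xi_m {ξ : Xi M lam r} (h : XiIn I Ω ξ) : XiIn I Ω' ξ := by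
  cases ξ
  exacts [trivial, aw_m e h,
    ⟨co_m e h.1, tv_m e h.2.1, sw_m e h.2.2.1, sw_m e h.2.2.2.1, ll_m e h.2.2.2.2⟩]

end mono
end gen

variable {Wi : Type} {X : Mf 4} {A κ lam : Type} [Fintype A] [Fintype κ] [Fintype lam]
  [DecidableEq lam] {M : Mark X A κ} {W : World M} {L : ML M lam} {Λ : Lns W L}
  {A' h : Type} [Fintype A'] [DecidableEq A'] [Fintype h] {r n : ℕ}
  {J : Job Wi Λ A' h r n} {σ : Cel A'} {a : A'}
  {U Up R : Type} [NormedAddCommGroup U] [NormedSpace ℝ U] [NormedAddCommGroup Up]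
  [NormedSpace ℝ Up] [NormedAddCommGroup R] [NormedSpace ℝ R] (d : Dat J σ a U Up R)

omit d in
theorem jbOK (hJ : J.OK) (x : A) : (jb J x).OK := by
  have e : ∀ Ω : Set X.M, Ω ⊆ (M.sys.cores ((jb J x).hw \ ∅))ᶜ := fun _ _ _ => by
    simp [Job.hw, Sys.cores]
  refine { hJ with
    down := fun _ k => k.elim, soft := fun _ k => k.elim, inj := fun _ _ _ k => nomatch k
    sm := (cd_brk x).comp hJ.sm, par := fun _ k => k.elim, inf := fun _ k => k.elim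
    lin := ⟨0, one_pos, fun _ _ k => nomatch k⟩, mem := fun _ _ k => nomatch k
    tw := fun w => ⟨∅, tm_m (e _) (hJ.tw w).choose_spec.1, 0, one_pos, fun _ k => k.elim⟩
    ct := fun _ k => k.elim
    tc := fun i w => ⟨∅, xi_m (e _) (hJ.tc i w).choose_spec.1, 0, one_pos, fun _ k => k.elim⟩
    ν0 := fun y s k => ⟨(hJ.ν0 y s k).1, ?_⟩ }
  by_cases e : y = x
  · exact e ▸ (brk_x _ _).ge.trans' (by norm_num)
  · exact (hJ.ν0 y s k).2.trans_eq (brk_ne _ e).symm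

/-- small parameters -/
abbrev QEr (ρ : ℝ) : Set (ℝ × Tc σ a) := QE d ∩ ball 0 ρ

/-- the side over small parameters -/
abbrev sEr (ρ : ℝ) (_ : Unit) :
    Sid (jF (jb J d.x) (J.cf a) (J.G _ d.y.s) (θE d) (QEr d ρ)) d.N d.Jc U Up R :=
  rs (E d) (ball 0 ρ)

/-- LEAF GM-E -/
def GmE : Prop := Gm (fun _ : Unit => E d) univ

/-- LEAF NK-E -/
def NkE : Prop := ∀ x b, EvS fun ρ => NkA (sEr d ρ) univ x b

/-- LEAF TM-E -/
def TmE : Prop := ∀ w, EvS fun ρ =>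
  TmA (c := J.cf a) (jb J d.x) (fun _ : Unit => θE d) (fun _ => QEr d ρ) univ w

/-- LEAF CUT-E -/
def CtE : Prop := ∀ j, EvS fun ρ => CtU (sEr d ρ) univ (J.cut _ j)

variable {d} {q₀ : Wi →₀ ℝ} {δ : ℝ}

theorem evE {P : ℝ × Tc σ a → Prop} (hP : ∀ᶠ v in 𝓝 0, P v) {Z : ℝ → Prop}
    (k : ∀ ρ, (∀ v ∈ QEr d ρ, P v) → Z ρ) : EvS Z := by
  obtain ⟨r, r0, h1⟩ := Metric.eventually_nhds_iff_ball.1 hP
  exact ⟨r, r0, fun ρ h3 => k ρ fun v hv => h1 _ (ball_subset_ball h3.2 hv.2)⟩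

theorem cd_sq : ContDiff ℝ ∞ fun v : ℝ × Tc σ a => (1 - v.1 ^ 2, v.2) := by fun_prop

theorem tend_sq : Tendsto (fun v : ℝ × Tc σ a => (1 - v.1 ^ 2, v.2)) (𝓝 0) (𝓝 (1, 0)) :=
  cd_sq.continuous.tendsto' _ _ (by simp)

variable (H : d.OK q₀ δ)
include H

theorem θE_zero : θE d 0 = d.y.s := by simpa [θE] using s_one H

theorem FE_ok : (FE d).OK :=
  have c := (cd_brk d.x).comp ((cd_th H).comp cd_sq)
  wFam_ok Λ (d.hb true).2.2.1 (isOpen_pre c.continuous) c.contDiffOn (fun _ k => k)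
    isClopen_univ isClopen_univ subset_rfl

theorem ev_br : ∀ᶠ v in 𝓝 0, (jb J d.x).Θ (θE d v) ∈ M.Br (J.cf a).1 := by
  filter_upwards [tend_sq.eventually (ev_gp H)] with v k
  obtain ⟨k1, k2, -⟩ := k (sub_le_self _ (sq_nonneg _))
  refine ⟨⟨fun x => ?_, k2.2.mono fun x hx => ?_⟩, fun x e => (mem_cf H).1 e ▸ brk_x _ _⟩ <;>
    by_cases e : x = d.x
  · rw [e, brk_x]; exact ⟨zero_le_one, le_rfl⟩
  · rw [brk_ne _ e]; exact k2.1 x
  · exact e ▸ (one_half_pos.trans_le k1.half).ne'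
  · rwa [mem_support, brk_ne _ e] at hx

theorem ht_E {v : ℝ × Tc σ a} (ht : v ∈ QE d) : Sw21.Ht d.D (J.B _) ((FE d).G v) d.hS := fun x => by
  obtain ⟨b, hb⟩ := ex_side (hc d x)
  have ag := agr_end Λ (m := J.m) (c := J.cf a) (a := d.x) ⟨H.hd, (d.hb true).1⟩ (d.hb true).2.2.1 ht
  refine ⟨nkA (d.KS b) (fun z hz i => have k := ((S_tgt H b).1 hz).1; ⟨ag.e z k i, ag.a z k i⟩)
    (H.ok.xs _).1.vol (Λ.G_ok _ ht).vol, _,
    Sw21.cv_aff (ε := -pm b) (by cases b <;> simp [pm]) d.R0, fun k => ?_, ?_⟩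
  · have := not_lt.1 fun e => k ((d.KS b).tgt ▸ (S_J H b).2 e)
    exact sub_neg.2 (this.trans_lt (one_pos.trans_le H.R1))
  · refine ((continuous_const.mul (sm_hZ W.toCaps (c := J.cf a)
      (.inl ⟨H.hd, (d.hb true).1⟩)).continuous).tendsto x).eventually
        (Ioi_mem_nhds (hb ▸ abs_pos.2 (hc_ne H x))) |>.mono fun y k => ?_
    exact (hS_side H b (le_of_lt k)).trans (Sw21.gh_eq H.R1)

/-- **LEAF GM-E** -/
theorem gmE : GmE d :=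
  ⟨⟨_, isCompact_thk W.toCaps _ _ one_pos (by norm_num), subset_univ _,
      fun _ _ ht => agr_thk Λ (d.hb true).2.2.1 ht⟩, fun _ _ ht => (ht_E H ht).gr,
    fun _ _ ht _ => (ht_E H ht).lop (H.ok.xs _).1.vol (Λ.G_ok _ ht).vol,
    Sw21.bv0 H.okS.bp, Sw21.bv0 H.okS.mo, Sw21.bv0 H.okS.lo, 0,
    fun _ x hx => by simp [Dat.S] at hx⟩

/-- **LEAF NK-E** -/
theorem nkE : NkE d := fun x b => by
  cases b with
  | none =>
    obtain ⟨O, o1, o2⟩ := Gnk23.fin (U := U) (Up := Up) (R := R) (jbOK H.ok d.x) (J.cf a) x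
      (s₀ := d.y.s)
      fun k => (congrFun (congrArg Prod.snd (brk_eq (px d))) x).trans_lt ((d.hb true).2.2.1 x k)
    exact evE ((tend_sq.eventually (Gnk23.ev_s H o1)).and (ev_br H)) fun ρ k => o2 _ _
      (fun i t ht => ⟨(k t ht).1, (k t ht).2, ht.1⟩) fun _ => subset_univ _
  | some b =>
  by_cases e : x = d.x
  swap
  · exact ⟨1, one_pos, fun _ _ => .inl fun _ _ _ k => (e ((mem_cf H).1 k.2.2.2)).elim⟩
  subst e
  refine evE ((tend_sq.eventually (Gnk23.ev_ν H)).and (ev_br H)) fun ρ k => .inr ⟨fun i t ht =>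
    ⟨(d.hb b).1, (k t ht).2, ht.1, H.hd⟩, .inr ⟨⟨fun _ => d.KS b, 3, fun i t ht =>
      Gnk23.same H.ok _ (d.hb b) ((brk_x _ _).trans (px d).symm) rfl rfl rfl,
      fun i z hz z' hz' => ?_⟩, fun i t ht => (k t ht).1⟩⟩
  have b1 := (d.KS b).dp_sub one_half_pos hz
  have b2 := (d.KS b).dp_sub one_half_pos hz'
  show |d.hS z - d.hS z'| ≤ 3 + |(d.KS b).tm z - (d.KS b).tm z'|
  rw [hS_side H b ((S_tgt H b).1 b1).2.le, hS_side H b ((S_tgt H b).1 b2).2.le]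
  rw [(d.KS b).tgt] at b1 b2
  refine (Gnk23.gh_lip ((S_J H b).1 b1).le ((S_J H b).1 b2).le).trans_eq ?_
  rw [← mul_sub, abs_mul]
  cases b <;> simp [pm]

theorem ev_dom : ∀ᶠ v in 𝓝 0, θE d v ∈ J.dom σ := by
  have : ∀ᶠ v : ℝ × Tc σ a in 𝓝 0, ∀ i, d.y.s i.1 + v.2 i < 1 := eventually_all.2 fun i =>
    (continuous_const.add ((continuous_apply i).comp continuous_snd)).continuousAt.eventually_lt_const
      (by simpa using (H.int i.1 i.2.1 i.2.2).2)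
  filter_upwards [this] with v hv
  refine ⟨fun a' b e => ?_, fun a' _ => ?_⟩
  · have : a' ≠ a := fun k => by simp [k, H.fr] at e
    simp [ee, e, this, H.sol.cell.1 a' b e]
  · simp only [ee]
    split_ifs with k
    exacts [(hv ⟨_, k⟩).le, sub_le_self _ (sq_nonneg _), (H.sol.cell.2 a').2]

theorem tp_S {Ω : Set X.M} (hΩ : Ω ⊆ (M.sys.cores (J.cf a).1)ᶜ) :
    (J.tp (J.cf a)).In X.I (W.Z (J.cf a)).I Ω univ :=
  have k := H.ok.tp_in H.mem ⟨J.cl_dom H.sol.cell, H.sol.inf⟩ hΩ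
  ⟨mapsTo_univ _ _, fun g e => ⟨(k.f g e).sm, (k.f g e).hcs, subset_univ _⟩,
    fun g e => ⟨(k.s g e).sm, (k.s g e).hcs, subset_univ _⟩⟩

theorem ev_off {V : Set A} {f : (A' → ℝ) → ℝ} (hV : ∃ s₀ < (1 : ℝ), ∀ σ ∈ J.𝒦, ∀ s ∈ J.dom σ,
    ∀ a x, J.hd a = some x → x ∈ V → s₀ ≤ s a → f s = 0) : ∀ᶠ v in 𝓝 0, d.x ∈ V → f (θE d v) = 0 := by
  obtain ⟨s₀, k1, k2⟩ := hV
  filter_upwards [ev_dom H, tend_sq.eventually (continuous_fst.continuousAt.eventually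
    (Ici_mem_nhds k1))] with v h1 h2 e
  exact k2 σ H.mem _ h1 a _ H.hd e (le_of_le_of_eq h2 (ee_a _ _ _).symm)

theorem tp_V {V : Set A} (e : d.x ∉ V) :
    (J.tp (J.cf a)).In X.I (W.Z (J.cf a)).I (M.sys.cores (J.hw \ V))ᶜ univ :=
  tp_S H (compl_subset_compl.2 (biUnion_subset_biUnion_left fun _ k =>
    ⟨⟨a, k⟩, (mem_cf H).1 k ▸ e⟩))

/-- **LEAF TM-E** -/
theorem tmE : TmE d := fun w => by
  obtain ⟨V, h1, h2⟩ := H.ok.tw w
  choose V' h3 h4 using fun j => H.ok.tc j w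
  exact evE ((ev_off H h2).and (eventually_all.2 fun j => ev_off H (h4 j))) fun ρ k =>
    ⟨(em (d.x ∈ V)).imp (fun e _ v hv => (k v hv).1 e) fun e => (tp_V H e).tm h1,
      fun j => (em (d.x ∈ V' j)).imp (fun e _ v hv => (k v hv).2 j e) fun e => (tp_V H e).xi (h3 j)⟩

/-- **LEAF CUT-E** -/
theorem ctE : CtE d := fun j => by
  have u : j ∈ J.unc (J.cf a) := H.unc ▸ trivial
  have hc := (tp_S H (Disjoint.subset_compl_right u)).cut (H.ok.nb j).2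
  have z : (jb J d.x).Θ (θE d 0) = J.Θ d.y.s := by rw [θE_zero H]; exact brk_eq (px d)
  obtain ⟨c, c0, k⟩ := cut_ev (FE_ok H) (t₀ := 0) (show _ ∈ M.O _ from z ▸ (d.hb true).2.2.1)
    H.okS.ok (show (J.cut _ j).OK _ (Λ.G J.m _ ((jb J d.x).Θ (θE d 0))).F from
      z ▸ H.ok.ct σ H.mem _ (J.cl_dom H.sol.cell) _ H.sol.inf j u) hc
  exact evE k fun ρ k => ⟨hc, fun _ v hv => (k v hv).1, c, c0, fun _ v hv => (k v hv).2⟩

end Crest.Agent.X212.Cay24
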