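import Crest.Agent.X212.Ub44.Main
import Crest.Agent.X212.Gb50.Pfn
import Crest.Agent.X212.Lpe67.Main

/-! # Row 212, GL-LOCS (helper24): `PertS` from the estimate along families `Ix` -/

set_option autoImplicit false
set_option linter.unusedSectionVars false
noncomputable section
open scoped Manifold ContDiff Topology NNReal ENNReal
open MeasureTheory Set Function Filter Real Metric

namespace Crest.Agent.X212.Cay24.Px
open An An.Job M Nd18 Gj67 Gb50 Sob92 Cht98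
open Loc45 (HB Ix FE up θE jb)
open Gl67 (PP g0 q2 ka ka_lin)
open Map77 (Cf)

section gen
variable {E : Type} [NormedAddCommGroup E] [NormedSpace ℝ E] [FiniteDimensional ℝ E]
  [MeasurableSpace E] [BorelSpace E]
  {HM : Type} [TopologicalSpace HM] {I : ModelWithCorners ℝ E HM} [I.Boundaryless]
  {M : Type} [TopologicalSpace M] [ChartedSpace HM M] [IsManifold I ∞ M]
  [MeasurableSpace M] [T2Space M] [BorelSpace M] [SecondCountableTopology M]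
  {ι lam : Type} [Fintype ι] [Fintype lam] {C C' : ℕ → ℝ} {n : ℕ}

theorem hb_mono {V : Type} [NormedAddCommGroup V] [NormedSpace ℝ V] {F : Pre I M ι} {f : M → V}
    (h : HB F n C f) (e : ∀ k, C k ≤ C' k) : HB F n C' f :=
  h.imp fun _ k => ⟨CBs_mono k.1 e, k.2.1, k.2.2.1, k.2.2.2.trans (e 0)⟩

theorem ub_mono {B : Base M ι lam} {F₀ : Pre I M ι} {G : Geo I M ι lam} {c : Cfg M ι lam 0}
    {ht : M → ℝ} (h : Loc45.UB B F₀ G c ht n C) (e : ∀ k, C k ≤ C' k) : Loc45.UB B F₀ G c ht n C' :=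
  ⟨h.gd, Tame_mono h.tame e, h.vol, CBs_mono h.p e, fun a => CBs_mono (h.ρ a) e, CBs_mono h.j e,
    CBs_mono h.pg e, fun a b x y => CBs_mono (h.o a b x y) e, fun a b => CBs_mono (h.P a b) e,
    fun a => CBs_mono (h.ht a) e, fun a => hb_mono (h.W a) e, hb_mono h.Φ e,
    fun s => (h.μ s).trans (mul_le_mul_left (ENNReal.ofReal_le_ofReal (e 0)) _),
    fun V _ _ k f g A O a1 a2 a3 a4 => (h.rev V k f g A O a1 a2 a3 a4).trans
      (mul_le_mul_left (ENNReal.ofReal_le_ofReal (e k)) _)⟩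

end gen

variable {Wi : Type} {X : Mf 4} {A κ lam : Type} [Fintype A] [Fintype κ] [Fintype lam]
  [DecidableEq lam] {M : Mark X A κ} {W : World M} {L : ML M lam} {Λ : Lns W L}
  {A' h : Type} [Fintype A'] [DecidableEq A'] [Fintype h] {r n : ℕ}
  {J : Job Wi Λ A' h r n} {σ : Cel A'} {a : A'}
  {U Up R : Type} [NormedAddCommGroup U] [NormedSpace ℝ U] [NormedAddCommGroup Up]
  [NormedSpace ℝ Up] [NormedAddCommGroup R] [NormedSpace ℝ R]
  {d : Dat J σ a U Up R} {q₀ : Wi →₀ ℝ} {δ : ℝ} {k : ℕ}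

theorem ex_slab (b : Bool) (x y : ℝ) : ∃ u v, v - u = y - x ∧
    ∀ s, s ∈ Icc u v ↔ -pm b * s ∈ Icc x y := by
  cases b
  · exact ⟨x, y, rfl, by simp [pm]⟩
  · exact ⟨-y, -x, by ring, fun s => by simp [pm, neg_le, le_neg, and_comm]⟩

/-- the windows of the height of the face -/
theorem win (H : d.OK q₀ δ) : ∃ V : ℝ → ℝ≥0∞, ∀ ρ, V ρ ≠ ⊤ ∧ ∀ t,
    IsCompact {x | |d.hS x - t| ≤ ρ} ∧ d.FS.F0.μ {x | |d.hS x - t| ≤ ρ} ≤ V ρ := by
  obtain ⟨τ, h1, h2, h3⟩ := ((tendsto_dp.eventually_ge_atTop (d.R0 + 1)).and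
    (((eventually_ge_nhds zero_lt_one).filter_mono nhdsWithin_le_nhds).and
      eventually_mem_nhdsWithin)).exists
  have e0 : 0 < (1 - τ) / 2 := by linarith [show τ < 1 from h3]
  have K := isCompact_thk W.toCaps (J.cf a) (J.Θ d.y.s) e0 (by linarith)
  have fK := d.FS.F0.fin
  refine ⟨fun ρ => d.FS.F0.μ (thk W.toCaps (J.cf a) (J.Θ d.y.s) ((1 - τ) / 2)) +
    ∑ _b : Bool, d.D.F.μ univ * ENNReal.ofReal (2 * ρ), fun ρ => ⟨ENNReal.add_ne_top.2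
      ⟨K.measure_lt_top.ne, ENNReal.sum_ne_top.2 fun _ _ =>
        ENNReal.mul_ne_top (measure_ne_top _ _) ENNReal.ofReal_ne_top⟩, fun t => ?_⟩⟩
  choose u v e uv using fun b => ex_slab b (max 1 (t + d.R0 + 1 - ka 1 - ρ)) (t + d.R0 + 1 - ka 1 + ρ)
  have j : ∀ b, Icc (u b) (v b) ⊆ (d.KS b).J := fun b s hs =>
    (S_J H b).2 (one_pos.trans_le ((le_max_left _ _).trans ((uv b s).1 hs).1))
  have s : {x | |d.hS x - t| ≤ ρ} ⊆ thk W.toCaps (J.cf a) (J.Θ d.y.s) ((1 - τ) / 2) ∪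
      ⋃ b, (d.KS b).tm ⁻¹' Icc (u b) (v b) := fun z hz => (em _).imp_right fun c => by
    have c1 : |hc d z| < (1 - τ) / 2 := by_contra fun i => c fun x hx => by
      obtain rfl := (mem_cf H).1 (hx.elim And.left fun j =>
        (((d.hb true).2.2.1 x j.1).not_ge j.2).elim)
      exact not_lt.1 i
    obtain ⟨b, hb⟩ := ex_side (hc d z)
    have c2 := abs_pos.2 (hc_ne H z)
    have c3 := dp_anti c2 c1.le
    have c4 := hS_side H b (hb ▸ c2.le)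
    rw [← hb, ← dp_eq, ← S_tm H b ((S_tgt H b).2 ⟨by linarith, hb ▸ c2⟩)] at c3
    rw [gh_one (by linarith [H.R1])] at c4
    have c5 := ka_lin le_rfl (show 1 ≤ -pm b * (d.KS b).tm z - d.R0 by linarith)
    have c6 := abs_le.1 (show |d.hS z - t| ≤ ρ from hz)
    exact mem_iUnion.2 ⟨b, (uv b _).2 ⟨max_le (by linarith [H.R1]) (by linarith), by linarith⟩⟩
  refine ⟨(K.union (isCompact_iUnion fun b => Nka63.isCompact_slab _ (j b))).of_isClosed_subset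
    (isClosed_le (d.sm_hS.continuous.sub continuous_const).abs continuous_const) s,
    (measure_mono s).trans ((measure_union_le _ _).trans (add_le_add le_rfl
      ((measure_iUnion_fintype_le _ _).trans (Finset.sum_le_sum fun b _ => ?_))))⟩
  refine (Nka63.measure_slab _ measurableSet_Icc (j b)).trans_le (mul_le_mul_right ?_ _)
  rw [Real.volume_Icc, e]
  exact ENNReal.ofReal_le_ofReal (by linarith [le_max_right 1 (t + d.R0 + 1 - ka 1 - ρ)])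

variable (d k) in
/-- small configurations on a long neck -/
structure Gd (ρ : ℝ) (C : ℕ → ℝ) (τ : d.Ta) (w : (W.Z M.c0).M → Cf (Option κ) (Fin d.N))
    (p : PP (Tc σ a) U r h d.N) : Prop where
  lit : Lit d τ p.1
  np : ‖p‖ ≤ 1
  dom : d.s τ p.1 ∈ J.dom σ
  ubS : Loc45.UB (J.B (J.cf a)) d.FS.F0.toPre (GS d τ p.1) (noz (cS d τ w p)) d.hS (k + 1) C
  ubX : Loc45.UB (J.B M.c0) (d.FX τ).F0.toPre (GX d τ p.1) (noz (cX d τ w p)) (d.hX τ) (k + 1) C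
  up : ‖(up d τ p).1‖ ≤ ρ

theorem ev_gd (H : d.OK q₀ δ) (hS : Gb50.Sd Λ) : ∃ ρ : ℝ≥0, 0 < ρ ∧ ∃ r₁ C₁ C, FU (FE d) r₁ C₁ ∧
    ∀ t, ∀ᶠ τ in d.lg, ∀ q, ∀ w ∈ Sec (W.Z M.c0).I (d.Xs τ).bd.pC, tsupport w ⊆ d.hX τ ⁻¹' Iic t →
      ∀ p, ‖p‖ ≤ ρ → (d.sX τ q).Q (g0 δ) univ (k + 1) w ≤ ρ → Gd d k r₁ C τ w p := by
  obtain ⟨oE, r₁, p1, C₁, fE, sE⟩ := geoE H
  obtain ⟨r₂, p2, C₂, -, fX⟩ := (geo H).fam
  obtain ⟨C₃, hb⟩ := base H
  obtain ⟨r₃, p3, lit⟩ := ev_lit H hS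
  obtain ⟨r₄, p4, dom⟩ := nhds_basis_closedBall.eventually_iff.1 (Cay24.ev_dom H)
  obtain ⟨D₁, u1⟩ := Ub44.ub (I := (W.Z (J.cf a)).I) (M := (W.Z (J.cf a)).M) (ι := Option κ)
    (lam := lam ⊕ lam) (h := h) (T := ℝ × Tc σ a) (U := U) (Up := Up) (R := R) (Jc := d.Jc) (r := r)
    r₁ C₁ (k + 1)
  obtain ⟨D₂, u2⟩ := Ub44.ub (I := (W.Z M.c0).I) (M := (W.Z M.c0).M) (ι := Option κ)
    (lam := lam ⊕ lam) (h := h) (T := Tc σ a) (U := U) (Up := Up) (R := R) (Jc := d.Jc) (r := r)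
    r₂ (fun k => max (C₂ k) (C₃ k)) (k + 1)
  obtain ⟨ρ, p0, e⟩ : ∃ ρ : ℝ, 0 < ρ ∧ ρ ≤ min (min (min 1 r₁) (min r₂ r₃)) r₄ :=
    ⟨_, by positivity, le_rfl⟩
  lift ρ to ℝ≥0 using p0.le
  simp only [le_min_iff] at e
  obtain ⟨⟨⟨e0, e1⟩, e2, e3⟩, e4⟩ := e
  refine ⟨ρ, p0, r₁, C₁, fun k => max (D₁ k) (D₂ k), fE, fun t => ?_⟩
  have t0 : Tendsto (fun τ : d.Ta => |√(1 - (τ : ℝ))|) d.lg (𝓝 0) := by
    simpa using ((tendsto_const_nhds (x := (1 : ℝ))).sub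
      (show Tendsto Subtype.val d.lg (𝓝 1) from tendsto_comap)).sqrt.abs
  filter_upwards [(geo H).φ, hb, fX, lit, (geo H).la.eventually_gt_atTop t,
    t0.eventually_le_const p0] with τ a2 a3 a4 a5 a6 a7 q w hw sw p hp hQ
  have mt : (d.sS q₀).Mt (d.sX τ q) (d.φ τ) := ⟨a2.1, fun z hz => (a2.2.2.2 z hz).1, a3.2.2.1⟩
  have cv : (d.sS q₀).Cov (d.sX τ q) (d.φ τ) (Iic t) :=
    ⟨(preimage_mono (Iic_subset_Iio.2 a6)).trans a2.2.1.ge,
      (preimage_mono (Iic_subset_Iio.2 a6)).trans a2.2.2.1.ge⟩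
  have q1 := hQ.trans (ENNReal.coe_le_one_iff.2 e0)
  have q2 := (Gl67.Sd.Q_pull (k := k + 1) d.sm_hS (d.sm_hX _) mt cv measurableSet_Iic
    Gl67.cd_pr.continuous hw sw).trans_le q1
  have g : ∀ s, 0 ≤ g0 δ s := fun s => Gl67.g0_eq δ s ▸ mul_nonneg H.δ0.le (Gl67.ka_nonneg s)
  have n1 := (norm_fst_le p).trans hp
  have n2 := (norm_fst_le _).trans ((norm_snd_le p).trans (hp.trans e0))
  have n3 : ‖(up d τ p).1‖ ≤ ρ := max_le a7 n1
  have T := a5 _ (n1.trans e3)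
  have S := u1 (FE d) (Loc45.E d) d.cm _ (Gl67.Sd.pull_sec mt cv hw sw).1 (up d τ p) oE fE sE (n3.trans e1) n2
    ((Gl67.N_wt' .univ fun _ _ => g _).trans q2)
  rw [show (FE d).G (up d τ p).1 = GS d τ p.1 from
    congrArg ((jb J d.x).G (J.cf a)) (θE_up T.lg p.1)] at S
  exact ⟨T, hp.trans e0, θE_up T.lg p.1 ▸ dom (x := (√(1 - τ), p.1))
    (mem_closedBall_zero_iff.2 (n3.trans e4)), ub_mono S fun _ => le_max_left _ _,
    ub_mono (u2 (d.FX τ) (d.Xs τ) d.cm _ hw p a3.1 (Lpe67.fu_mono a4.2.1 fun _ => le_max_left _ _)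
      (Lpe67.su_mono a3.2.1 fun _ => le_max_right _ _) (n1.trans e2) n2
      ((Gl67.N_wt' .univ fun _ _ => g _).trans q1)) fun _ => le_max_right _ _, n3.trans e1⟩

/-- **LEAF PERT-S** from the estimate along families -/
theorem pertS_of (H : d.OK q₀ δ) (hS : Gb50.Sd Λ) (hk : 7 ≤ k)
    (fin : ∀ I : Ix d q₀ δ k, Fw I → I.Fin) : PertS d q₀ δ k := fun α l τ q hτ ⟨S, hS1, hS2⟩ => by
  obtain ⟨ρ, p0, r₁, C₁, C, fE, gd⟩ := ev_gd (k := k) H hS
  obtain ⟨V, hV⟩ := win H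
  obtain ⟨γ, γ0, γ1, γ2⟩ := ((eventually_mem_nhdsWithin (s := Ioi (0 : ℝ))).and
    (((eventually_le_nhds H.δ0).and ((show ContinuousAt
      (fun γ : ℝ => 4 * γ ^ 2 * ∑ _i : Option κ, C 0 ^ 2) 0 by fun_prop).tendsto.eventually_le_const
        (show _ < (1 : ℝ) by simp))).filter_mono nhdsWithin_le_nhds)).exists
  refine ⟨ρ, p0, fun t η hη => ?_⟩
  have key := fun P : Set A => eventually_comap.1 (fin
    { 𝒟 := {z : α × _ × _ // Gd d k r₁ C (τ z.1) z.2.1 z.2.2 ∧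
        P = {x | J.Ac M.c0 (d.s (τ z.1) z.2.2.1) (x, none)}}
      l := comap (·.1.1) l
      τ e := τ e.1.1
      q e := q e.1.1
      w e := e.1.2.1
      p e := e.1.2.2
      C := C
      v ρ := (ENNReal.ofReal (C 0) * V ρ).toReal
      γ := γ
      S := S
      ok := H
      hk := hk
      tτ := hτ.comp tendsto_comap
      qS e := hS1 _
      tq w := (hS2 w).comp tendsto_comap
      lit e := e.2.1.lit
      np e := e.2.1.np
      dom e := e.2.1.dom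
      ubS e := e.2.1.ubS
      ubX e := e.2.1.ubX
      vol e t ρ := ⟨((hV ρ).2 t).1, ENNReal.toReal_mono (ENNReal.mul_ne_top ENNReal.ofReal_ne_top
        (hV ρ).1) ((e.2.1.ubS.μ _).trans (mul_le_mul_right ((hV ρ).2 t).2 _))⟩
      γ0 := γ0
      wg e x := (mul_le_mul_of_nonneg_left (Finset.sum_le_sum fun i _ => sq_le_sq'
        (abs_le.1 (CB_bound ((e.2.1.ubS.ht i).2 0) x)).1
        (abs_le.1 (CB_bound ((e.2.1.ubS.ht i).2 0) x)).2) (by positivity)).trans γ2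
      γN x := by linarith [H.δ1.2 x, H.δ0, show γ ≤ δ from γ1]
      act x := (em (x ∈ P)).imp (fun k e => e.2.2.le k) fun k e i => k (e.2.2.ge i) }
    (fw_of _ fE fun e => e.2.1.up) t η hη)
  filter_upwards [eventually_all.2 key, hτ.eventually (gd t)] with i a1 a2 w hw sw p hp hQ
  exact a1 _ ⟨(i, w, p), a2 _ w hw sw p hp hQ, rfl⟩ rfl

/-- **LEAF PERT-S** from `CgS` and `NkS` -/
theorem pertS (H : d.OK q₀ δ) (hS : Gb50.Sd Λ) (hk : 7 ≤ k)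
    (hC : ∀ I : Ix d q₀ δ k, Fw I → I.CgS) (hN : ∀ I : Ix d q₀ δ k, Fw I → I.CgS → I.NkS) :
    PertS d q₀ δ k := pertS_of H hS hk fun I f => fin_of f (hC I f) (hN I f (hC I f))

end Crest.Agent.X212.Cay24.Px
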