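import Crest.Agent.X212.Gla92.Lz0

/-! # Row 212, GL-LOCZ (helper24): the peak row and the last step -/

set_option autoImplicit false
set_option linter.unusedSectionVars false
noncomputable section
open scoped Manifold ContDiff Topology NNReal
open MeasureTheory Set Function Filter Real

namespace Crest.Agent.X212.Cay24.Lz
open An An.Job M Nd18 Gj67 Gb50 Sob92 Lz92
open Gl67 (g0 ka ka_lip ka_zero)

variable {Wi : Type} {X : M.Mf 4} {A κ lam : Type} [Fintype A] [Fintype κ] [Fintype lam]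
  [DecidableEq lam] {M : Mark X A κ} {W : World M} {L : ML M lam} {Λ : Lns W L}
  {A' h : Type} [Fintype A'] [DecidableEq A'] [Fintype h] {r n : ℕ}
  {J : Job Wi Λ A' h r n} {σ : Cel A'} {a : A'}
  {U Up R : Type} [NormedAddCommGroup U] [NormedSpace ℝ U] [NormedAddCommGroup Up]
  [NormedSpace ℝ Up] [NormedAddCommGroup R] [NormedSpace ℝ R]
  {d : Dat J σ a U Up R} {q₀ : Wi →₀ ℝ} {δ : ℝ} {k : ℕ} (F : Fz d q₀ δ k)

theorem ka_le {s : ℝ} (h : 0 ≤ s) : ka s ≤ s := by linarith [ka_lip h, ka_zero le_rfl]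

theorem hZ_le (e : F.𝒟) {z : d.Y × ℝ} (h : |z.2| ≤ F.al e) : d.hZ (F.τ e) z ≤ F.al e - |z.2| :=
  (Gl67.ka_mono (sub_le_sub_left (rho_spec z.2).1 _)).trans (ka_le (sub_nonneg.2 h))

/-- **LEAF FIN** -/
theorem fin (H : F.HkZ) : F.FinZ := fun η hη => by
  obtain ⟨t, ht⟩ := Lcz33.small (X := F.P.cx) (a := F.al) (fun _ => ⟨rfl, rfl⟩) F.ok.δ0.le F.δθ H
    (g := fun e z => g0 δ (d.hZ (F.τ e) z)) (.of_forall fun e z hz => by
      rw [Gl67.g0_eq]
      exact mul_le_mul_of_nonneg_left ((ka_le (Gl67.ka_nonneg _)).trans (hZ_le F e hz)) F.ok.δ0.le) hη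
  refine ⟨max t 1, ht.mono fun e k => (Gl67.N_mono fun z hz => ?_).trans k⟩
  have h1 : max t 1 ≤ d.hZ (F.τ e) z := hz
  have h2 := ka_pos (one_pos.trans_le ((le_max_right _ _).trans h1))
  have h3 := hZ_le F e (z := z) (by rw [Fz.al]; linarith [(rho_spec z.2).1])
  show |z.2| ≤ F.al e - t
  linarith [le_max_left t 1]

theorem pk_eq (e : F.𝒟) (hb : F.b < d.la (F.τ e)) :
    (d.Xs (F.τ e)).pk (F.w e) = (d.Z (F.τ e)).pk (pull (d.ψ (F.τ e)) (F.w' e)) := by
  have G := F.ta e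
  have k := Nka63.integral_pull' (iso_symm G.ψ.1) fun z => d.mo z (F.w e (d.ψ (F.τ e) z))
  rw [← integral_indicator (d.ψ _).symm.open_target.measurableSet] at k
  refine (integral_congr_ae (.of_forall fun x => ?_)).trans (k.trans
    (integral_congr_ae (.of_forall fun z => ?_)))
  · show d.mix _ 0 d.mo x _ = _
    rw [mix_Z F.ok (F.lg e) G fun z hz => (F.ok.bp z hz).2]
    by_cases hx : x ∈ (d.ψ (F.τ e)).target
    · rw [pull_of_mem (φ := (d.ψ _).symm) hx, pull_of_mem (φ := (d.ψ _).symm) hx, (d.ψ _).right_inv hx]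
    · rw [pull_of_notMem (φ := (d.ψ _).symm) hx, pull_of_notMem (φ := (d.ψ _).symm) hx]; rfl
  · show (d.ψ (F.τ e)).source.indicator _ z = d.mo z _
    by_cases hz : z ∈ (d.ψ (F.τ e)).source
    · rw [indicator_of_mem hz, pull_of_mem hz]
      rcases le_total 1 |z.2| with c | c
      · rw [(F.ok.bp z c).2]; rfl
      · rw [F.eq e _ (hb.trans_le ((hZ_mid F.ok (F.lg e) c).1.trans_eq (G.ψ.2.2.2 z hz).1.symm))]
    · rw [indicator_of_notMem hz, pull_of_notMem hz, map_zero]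

/-- **the peak row** -/
theorem pk : F.P.cx.Ev fun e z => (F.df e z).2.2.2 = 0 :=
  ⟨2, zero_le_two, (((geo F.ok).la.comp F.tτ).eventually_gt_atTop F.b).mono fun e hb z hz => by
    have h1 : -F.al e + 2 ≤ z.2 := hz.1 _ rfl
    have h2 : z.2 ≤ F.al e - 2 := hz.2 _ rfl
    have s : z ∈ (d.ψ (F.τ e)).source := by
      rw [(F.ta e).ψ.2.1]
      have h3 : F.al e = nl (F.τ e) / 2 - d.R0 := rfl
      have h4 := (rho_spec z.2).2.1.trans (max_le (c := F.al e - 2)
        (abs_le.2 ⟨by linarith, h2⟩) (by linarith [nl_ge' F.ok (F.lg e)]))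
      have := Gl67.ka_lin le_rfl (show 1 ≤ nl (F.τ e) / 2 - d.R0 - rho z.2 by linarith)
      show 0 < ka _
      linarith [Gl67.ka_nonneg 1]
    show d.bp z • _ - d.mix _ 0 d.bp (d.ψ _ z) • _ = 0
    rw [pk_eq F e hb, mix_Z F.ok (F.lg e) (F.ta e) fun z hz => (F.ok.bp z hz).1,
      pull_of_mem (φ := (d.ψ _).symm) ((d.ψ _).map_source s), (d.ψ _).left_inv s, sub_self]⟩

end Crest.Agent.X212.Cay24.Lz
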