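import Crest.Agent.X212.Cay24.GlL

/-!
# Row 212, GL-SOLX (helper24): small zeros of the Banach model are top solutions
-/

set_option autoImplicit false
set_option linter.unusedSectionVars false
noncomputable section
open scoped Manifold ContDiff Topology InnerProductSpace
open MeasureTheory Set Function Filter Real

namespace Crest.Agent.X212.Cay24
open An An.Job M Nd18 Mod61 Prm93 Gj67 Sob92 Wz78
open Gl67 (Sid Cm Eqn PP crow pr_nonneg)
open Map77 (Cf fa fp)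

section gen
variable {E : Type} [NormedAddCommGroup E] [NormedSpace ℝ E] [FiniteDimensional ℝ E]
  [MeasurableSpace E] [BorelSpace E]
  {HM : Type} [TopologicalSpace HM] {I : ModelWithCorners ℝ E HM} [I.Boundaryless]
  {M : Type} [TopologicalSpace M] [ChartedSpace HM M] [IsManifold I ∞ M]
  [MeasurableSpace M] [T2Space M] [BorelSpace M] [SecondCountableTopology M]
  {ι lam h : Type} [Fintype ι] [Fintype lam] [Fintype h]
  {T U Up R : Type} [NormedAddCommGroup T] [NormedSpace ℝ T] [NormedAddCommGroup U]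
  [NormedSpace ℝ U] [NormedAddCommGroup Up] [NormedSpace ℝ Up] [NormedAddCommGroup R]
  [NormedSpace ℝ R] {N r : ℕ} {Jc : En (Fin N)} {𝔉 : Mod61.Fam I M ι lam T}

/-- the uniform bound for smooth points -/
theorem sup_sp (s : Sid 𝔉 N Jc U Up R) {C : ℕ → ℝ} (hF : 𝔉.F0.Tame C) {δ : ℝ} (hδ : 0 ≤ δ)
    {k : ℕ} (hk : 3 ≤ k) {ct : h → Cut M lam} (w : Sec I s.bd.pC) (q : s.PH r ct) (x : M) :
    ‖w.1 x‖ ≤ √|C 0| * ‖s.sp δ k w q‖ := by
  have hS : Sup (s.Fw δ).toPre |C 0| :=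
    (Nk89.wt_wt 𝔉.F0 (s.sm_pr δ 0 0 0)).toWtP.sup (fun _ => pr_nonneg hδ le_rfl) (Sup.of_tame hF)
  have := norm_val_le hS (Nat.succ_le_succ hk) (s.sp δ k w q).1 x
  rw [abs_abs] at this
  exact (congrArg (fun f => ‖f x‖) (val_toH hS (Nat.succ_le_succ hk) w)).ge.trans
    (this.trans (mul_le_mul_of_nonneg_left (norm_fst_le _) (sqrt_nonneg _)))

theorem crow_sol {k : Cut M lam} {B : Base M ι lam} {F : Fr I M ι} {σ : Pc r B k}
    {c : Cfg M ι lam r} {ψ : L2c (Fin c.m.N)} (h0 : ψ ∈ Hd c.m.J (c.m.pp B k.x0)) (p : k.H B c.m)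
    (h1 : crow k B F σ c (ψ + p) = 0) (h2 : ‖ψ + p‖ ^ 2 - 1 = 0) :
    k.Sol B F σ c ((Hd _ _).orthogonalProjectionOnto ψ + p) := by
  have e : ((Hd c.m.J (c.m.pp B k.x0)).orthogonalProjectionOnto ψ + p).1 = ψ + p :=
    congrArg (fun u => u.1 + p.1) (Submodule.orthogonalProjectionOnto_mem_subspace_eq_self ⟨ψ, h0⟩)
  rw [← e] at h1 h2
  rw [crow, Submodule.orthogonalProjectionOnto_mem_subspace_eq_self, sub_self, add_zero] at h1
  exact ⟨(pow_eq_one_iff_of_nonneg (norm_nonneg _) two_ne_zero).1 (sub_eq_zero.1 h2),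
    sub_eq_zero.1 (Subtype.ext h1)⟩

theorem val_zero' {n m : ℕ} {s : Sid 𝔉 N Jc U Up R} {c : Cm N r h R} {ct : h → Cut M lam}
    {ε : Eqn 𝔉 r n m ct} {δ : ℝ} {k : ℕ} {w : M → Cf ι (Fin N)} {q : PP T U r h N}
    {y : s.Y1 n m ct δ k × s.Y2 h δ k} (v : s.Val c ε δ k w q y) (y0 : y.1 = 0) :
    (∀ x, (ε.e q.1).D (s.cfg c w q) x = 0) ∧ (∀ x, (ε.e q.1).C (s.cfg c w q) x = 0) ∧
    (∀ i, (ε.e q.1).S (s.cfg c w q) i = 0) ∧ (∀ i, (ε.e q.1).R (s.cfg c w q) i = 0) ∧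
    (∀ i, crow (ct i) 𝔉.B (𝔉.G q.1).F (ε.σ q.1 i) (s.cfg c w q) (c.ψ0 i + q.2.2.2 i) = 0) ∧
    ∀ i, ‖c.ψ0 i + q.2.2.2 i‖ ^ 2 - 1 = 0 := by
  obtain ⟨y, y'⟩ := y
  obtain rfl : y = 0 := y0
  have e := v.e.symm
  simp only [Sid.eR, Prod.mk.injEq] at e
  exact ⟨fun x => (congrFun v.D x).symm.trans (map_zero _),
    fun x => (congrFun v.C x).symm.trans (map_zero _),
    congrFun (congrArg Prod.fst e.1), congrFun (congrArg Prod.snd e.1),
    congrFun e.2.1, congrFun e.2.2.1⟩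

theorem int_kd [CompactSpace M] (h4 : Module.finrank ℝ E = 4) {B : Base M ι lam}
    {G : Geo I M ι lam} (hB : B.OK I) (hG : G.OK B) {c : Cfg M ι lam r} (H : Eqv71.Ad0 c B G) :
    Integrable (c.m.kd B G.F c.W) G.F.μ := by
  have := ((Top36.ct_cwd (Num57.OK.of_base h4 hB hG) (Std94.sm_pg hB H.ok)
    (con_adW H.conn).sm).integrable_of_hasCompactSupport (μ := G.F.μ)
      (HasCompactSupport.of_compactSpace _)).const_mul (128 * π ^ 2)⁻¹
  simpa only [cwd_pg hB hG H.ok H.conn,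
    inv_mul_cancel_left₀ (show (128 * π ^ 2 : ℝ) ≠ 0 by positivity)] using this

end gen

variable {Wi : Type} {X : Mf 4} {A κ lam : Type} [Fintype A] [Fintype κ] [Fintype lam]
  [DecidableEq lam] {M : Mark X A κ} {W : World M} {L : ML M lam} {Λ : Lns W L}
  {A' h : Type} [Fintype A'] [DecidableEq A'] [Fintype h] {r n : ℕ}
  {J : Job Wi Λ A' h r n} {σ : Cel A'} {a : A'}
  {U Up R : Type} [NormedAddCommGroup U] [NormedSpace ℝ U] [NormedAddCommGroup Up]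
  [NormedSpace ℝ Up] [NormedAddCommGroup R] [NormedSpace ℝ R] {d : Dat J σ a U Up R}
  {q₀ : Wi →₀ ℝ} {δ : ℝ}

variable (H : d.OK q₀ δ)
include H

/-- small parameters stay in the cell -/
theorem s_cl : ∃ ρ > 0, ∀ τ ∈ Icc (0 : ℝ) 1, ∀ t : Tc σ a, ‖t‖ ≤ ρ → d.s τ t ∈ cl σ := by
  have : ∀ᶠ t : Tc σ a in 𝓝 0, ∀ i, d.y.s i.1 + t i ∈ Ioo (0 : ℝ) 1 := eventually_all.2 fun i =>
    (continuous_const.add (continuous_apply i)).continuousAt.eventually_mem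
      (isOpen_Ioo.mem_nhds (by simpa using H.int i.1 i.2.1 i.2.2))
  obtain ⟨ρ, h0, h1⟩ := Metric.nhds_basis_closedBall.eventually_iff.1 this
  refine ⟨ρ, h0, fun τ hτ t ht => ⟨fun a' b e => ?_, fun a' => ?_⟩⟩
  · rw [Dat.s, ee, dif_neg (by simp [e]), if_neg (by rintro rfl; simp [H.fr] at e)]
    exact H.sol.cell.1 a' b e
  · rw [Dat.s, ee]
    split_ifs with k k'
    · exact Ioo_subset_Icc_self (h1 (mem_closedBall_zero_iff.2 ht) ⟨a', k⟩)
    · exact hτ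
    · exact H.sol.cell.2 a'

/-- **GL-SOLX** -/
theorem solX {k : ℕ} (hk : 3 ≤ k) (g : d.Geo) (b : d.Base) : d.SolX δ k := by
  have l := lev H g b
  obtain ⟨z, hz⟩ := H.top
  obtain ⟨ρ, ρ0, hρ⟩ := s_cl H
  obtain ⟨r', r0, C, -, hC⟩ := g.fam
  obtain ⟨C', b⟩ := b
  have z0 := norm_pos_iff.2 hz
  have c0 : 0 < √|C 0| + 1 := by positivity
  refine ⟨min (min ρ r') (‖d.y.x.Φ z‖ / (√|C 0| + 1)), by positivity, ?_⟩
  filter_upwards [l, ev_at g, hC, b, g.len, g.la.eventually_ge_atTop (d.hS z + 2),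
    (tendsto_comap : Tendsto _ d.lg _).eventually_const_le zero_lt_one]
    with τ l G ⟨_, hC, _⟩ ⟨k, _, _, _, b⟩ ⟨t1, _⟩ hl t0 w p hp
  have p1 : ‖p.1‖ ≤ min ρ r' :=
    (norm_fst_le p).trans ((norm_snd_le ((d.Xs τ).sp δ _ w p)).trans (hp.trans (min_le_left _ _)))
  have pQ := hC.sub (mem_closedBall_zero_iff.2 (p1.trans (min_le_right _ _)))
  have pc := hρ τ ⟨t0, t1.le⟩ _ (p1.trans (min_le_left _ _))
  have ad : Eqv71.Ad0 (d.ob τ w p).x (J.B M.c0) (J.G M.c0 (d.ob τ w p).s) :=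
    sd_ad0 k d.cm w.2.1 w.2.2.2 (q := (d.Xs τ).emb p) pQ
  have : CompactSpace (W.Z M.c0).M := Cyl58.caps_compact W.toCaps fun _ h => h.elim
  refine ⟨⟨ad, pQ⟩, ⟨rfl, d.φ τ z, fun e => ?_⟩, fun q y v y0 => ?_⟩
  · have h1 : z ∈ (d.φ τ).source := by
      rw [G.φ.2.1]; show d.hS z < d.la τ; linarith
    have h2 := mix_φ H G d.y.x.Φ d.ΦZ h1
    rw [show st d τ z = 0 from smoothTransition.zero_of_nonpos (by linarith), zero_smul,
      sub_zero] at h2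
    have h3 : d.y.x.Φ z = -fp (w.1 (d.φ τ z)) := h2.symm.trans (eq_neg_of_add_eq_zero_left e)
    have h4 := (WithLp.norm_snd_le _ (w.1 (d.φ τ z))).trans
      (sup_sp (d.Xs τ) hC.t0 H.δ0.le hk w p (d.φ τ z))
    have h5 := (le_div_iff₀ c0).1 (hp.trans (min_le_right _ _))
    have h6 := (congrArg norm h3).trans (norm_neg _)
    have h7 := (h6.trans_le h4).trans (mul_le_mul_of_nonneg_left
      (show _ ≤ (0 : ℝ) by linarith [h6.trans_le h4]) (sqrt_nonneg _))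
    linarith
  obtain ⟨e1, e2, e3, e4, e5, e6⟩ := val_zero' v y0
  have cy : cylW M.c0 = ∅ := eq_empty_of_forall_notMem fun _ h => h.1
  refine ⟨pc, eq_empty_of_forall_notMem fun x hx => (pQ x ⟨id, fun _ h => h.elim⟩).ne hx,
    ⟨⟨ad.ok, ad.conn, ad.sm, ad.pos, (Nat.eq_zero_or_pos r).imp_right fun r1 =>
      (pow_eq_one_iff_of_nonneg (norm_nonneg _) two_ne_zero).1 (sub_eq_zero.1
        (e4 ⟨0, lt_min r1 one_pos⟩))⟩, e1, e2, e3⟩,
    fun i _ => by simp [unc, Mark.c0, Sys.cores], fun i _ => ?_,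
    ?_, fun _ _ h => h.2.2.2.elim, fun _ h => h.1.elim, fun _ h => h.1.elim,
    int_kd (W.Z _).dim (Λ.B_ok _ _) (Λ.G_ok _ pQ) ad, ?_⟩
  · exact crow_sol (c := (d.ob τ w p).x) (b i) (p.2.2.2 i) (e5 i) (e6 i)
  · show (J.unc M.c0 \ univ).ncard ≤ 0
    simp
  · simp only [cy, indicator_empty, Finset.sum_const_zero, add_zero]
    exact (add_eq_left.2 Nat.cast_zero).trans (l w w.2 p pQ)

end Crest.Agent.X212.Cay24
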