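import Crest.Agent.X212.Cay24.GlB
import Crest.Agent.X212.Gb50.Geo
import Crest.Agent.X212.Gla92.Lf

/-!
# Row 212, GL (helper24): the leaves LO-X and GM-X
-/

set_option autoImplicit false
set_option linter.unusedSectionVars false
noncomputable section
open scoped Manifold ContDiff Topology NNReal
open MeasureTheory Set Function Filter Real

namespace Crest.Agent.X212.Cay24
open An An.Job M Nd18 Mod61 Prm93 Gj67 Sob92 Gla92
open Gl67 (ka ka_deriv ka_zero ka_nonneg ka_mono ka_lip cd_ka)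
open Cyf70 (IC cyl)
open Cht98 (Agr NkOK)
open Gb50 (Lg h0 th)

/-! ### the tent -/

section real
variable (R τ u : ℝ)

theorem tent_deriv : HasDerivAt (tent R τ) (smoothTransition (nl τ / 2 - R - rho u) *
    -(smoothTransition u - smoothTransition (-u))) u :=
  (ka_deriv _).comp u ((((ka_deriv u).add ((ka_deriv (-u)).comp u (hasDerivAt_neg u))).add_const
    (1 - ka 1)).const_sub _ |>.congr_deriv (by ring))

theorem tent_sq : deriv (tent R τ) u ^ 2 ≤ 1 := by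
  rw [(tent_deriv R τ u).deriv, sq_le_one_iff_abs_le_one, abs_mul, abs_neg]
  refine mul_le_one₀ (abs_le.2 ⟨?_, smoothTransition.le_one _⟩) (abs_nonneg _) (abs_le.2 ⟨?_, ?_⟩)
  all_goals linarith [smoothTransition.nonneg (nl τ / 2 - R - rho u), smoothTransition.nonneg u,
    smoothTransition.nonneg (-u), smoothTransition.le_one u, smoothTransition.le_one (-u)]

variable {R τ u} in
theorem tent_cc (h : 1 ≤ tent R τ u) : deriv (deriv (tent R τ)) u ≤ 0 := by
  have d : ∀ s, HasDerivAt smoothTransition (deriv smoothTransition s) s := fun s =>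
    ((smoothTransition.contDiff (n := 1)).differentiable one_ne_zero s).hasDerivAt
  have p : ∀ s, 0 ≤ deriv smoothTransition s := fun s => smoothTransition.monotone.deriv_nonneg
  have h1 : 1 ≤ nl τ / 2 - R - rho u := le_of_not_gt fun k => by
    have := ka_lip (show (0 : ℝ) ≤ max (nl τ / 2 - R - rho u) 0 from le_max_right _ _)
    have := ka_mono (le_max_left (nl τ / 2 - R - rho u) 0)
    have := max_lt k one_pos
    linarith [ka_zero (le_refl (0 : ℝ)), show tent R τ u = ka (nl τ / 2 - R - rho u) from rfl]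
  have h2 : deriv smoothTransition (nl τ / 2 - R - rho u) = 0 := IsLocalMax.deriv_eq_zero
    (.of_forall fun y => (smoothTransition.le_one y).trans_eq (smoothTransition.one_of_one_le h1).symm)
  have h3 := ((d _).comp u (((cd_rho.differentiable (by simp)) u).hasDerivAt.const_sub
    (nl τ / 2 - R))).mul ((d u).sub ((d (-u)).comp u (hasDerivAt_neg u))).neg
  rw [funext fun u => (tent_deriv R τ u).deriv]
  refine h3.deriv.trans_le ?_
  simp only [h2, zero_mul, zero_add, comp_apply, smoothTransition.one_of_one_le h1, one_mul]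
  linarith [p u, p (-u)]

end real

section gen
variable {E : Type} [NormedAddCommGroup E] [NormedSpace ℝ E] [FiniteDimensional ℝ E]
  [MeasurableSpace E] [BorelSpace E]
  {HM : Type} [TopologicalSpace HM] {I : ModelWithCorners ℝ E HM} [I.Boundaryless]
  {M : Type} [TopologicalSpace M] [ChartedSpace HM M] [IsManifold I ∞ M]
  [MeasurableSpace M] [T2Space M] [BorelSpace M] [SecondCountableTopology M]
  {E' : Type} [NormedAddCommGroup E'] [NormedSpace ℝ E'] [FiniteDimensional ℝ E']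
  [MeasurableSpace E'] [BorelSpace E']
  {HM' : Type} [TopologicalSpace HM'] {I' : ModelWithCorners ℝ E' HM'} [I'.Boundaryless]
  {M' : Type} [TopologicalSpace M'] [ChartedSpace HM' M'] [IsManifold I' ∞ M']
  [MeasurableSpace M'] [T2Space M'] [BorelSpace M'] [SecondCountableTopology M']
  {ι lam J : Type} [Fintype ι] [Fintype lam] {T A : Type} [NormedAddCommGroup T] [NormedSpace ℝ T]
  [NormedAddCommGroup A] [NormedSpace ℝ A]

/-- pushing one bump into all members of a family -/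
theorem bv_push {𝔉 : J → Mod61.Fam I M ι lam T} {F : Pre I' M' ι}
    {φ : J → OpenPartialHomeomorph M' M} (h : ∀ i, An.Iso F (𝔉 i).F0.toPre (φ i)) {u : M' → A}
    (hu : Sm I' u ∧ HasCompactSupport u) (hs : ∀ i, tsupport u ⊆ (φ i).source) :
    Bv0 𝔉 fun i => pull (φ i).symm u := by
  have a := fun i => Adm.of_isCompact (φ := (φ i).symm) hu.2 (hs i)
  obtain ⟨C, hC⟩ := Cb_of_hcs (F := F) hu.1 hu.2
  refine ⟨⟨fun k => |C k|, fun i => ⟨sm_pull (iso_symm (h i)) hu.1 (a i), fun k =>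
    CB_pull (iso_symm (h i)) k hu.1 (a i) (hC.2 k)⟩⟩, fun i => hcs_pull hu.2 (hs i),
    (F.μ (tsupport u)).toNNReal, fun i => ?_⟩
  rw [ENNReal.coe_toNNReal hu.2.measure_lt_top.ne]
  refine (measure_mono (a i).tsupport_pull).trans ?_
  have m := (φ i).symm.open_source.measurableSet
  rw [inter_comm, ← Measure.restrict_apply' m]
  exact (Measure.le_map_apply ((φ i).continuousOn_symm.aemeasurable m) _).trans
    ((congrArg (fun ν : Measure M' => ν _) (iso_symm (h i)).μ).trans_le (Measure.restrict_apply_le _ _))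

variable [CompactSpace M'] {κ : Type} [Fintype κ] {F : Fr I M (Option κ)} {F' : Fr I' M' κ} {ψ : M' × ℝ → M}
  {O : Set (M' × ℝ)} (h : Pj41.FRel (cyl F') F ψ O) {f : ℝ → ℝ} (hf : ContDiff ℝ ∞ f) {g : M → ℝ}
  (e : ∀ z ∈ O, f z.2 = g (ψ z)) {z : M' × ℝ} (hz : z ∈ O)
include h hf e hz

theorem D_ψ (a : Option κ) :
    ∀ᶠ y in 𝓝 z, (a.elim (deriv f) fun _ => 0) y.2 = F.D a g (ψ y) := by
  filter_upwards [h.D_ev hz a (u := fun y => f y.2) ((h.op.eventually_mem hz).mono e)] with y k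
  cases a
  · exact (congrFun (Cyf70.D_none_snd F'.toPre hf) y).symm.trans k
  · exact (congrFun (Cyf70.D_some_snd F'.toPre hf _) y).symm.trans k

theorem gr_ψ : ∑ a, F.D a g (ψ z) ^ 2 = deriv f z.2 ^ 2 := by
  simp [← (D_ψ h hf e hz _).self_of_nhds]

theorem lop_ψ (v : F.IsVol) (v' : F'.IsVol) :
    Mp86.Lop I F.e F.dv g (ψ z) = deriv (deriv f) z.2 := by
  have h1 : F.dv none (ψ z) = 0 := by
    rw [Met55.dv_vol v, ← show _ = (0 : ℝ) from (Met55.dv_vol (Int54.isVol_cyl v') none z).symm]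
    simp only [h.c hz, h.P hz]
  have h2 := (h.D hz none (D_ψ h hf e hz none)).symm.trans
    (congrFun (Cyf70.D_none_snd F'.toPre (contDiff_infty_iff_deriv.1 hf).2) z)
  have h3 := fun a => (h.D hz (some a) (D_ψ h hf e hz (some a))).symm.trans
    (congrFun (Cyf70.D_some_snd F'.toPre (f := 0) contDiff_const a) z)
  have h4 := fun a => (D_ψ h hf e hz (some a)).self_of_nhds.symm
  simp only [Pre.D_def] at h2 h3 h4
  simp [Mp86.Lop, h1, h2, h3, h4]

end gen

variable {Wi : Type} {X : Mf 4} {A κ lam : Type} [Fintype A] [Fintype κ] [Fintype lam]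
  [DecidableEq lam] {M : Mark X A κ} {W : World M} {L : ML M lam} {Λ : Lns W L}
  {A' h : Type} [Fintype A'] [DecidableEq A'] [Fintype h] {r n : ℕ}
  {J : Job Wi Λ A' h r n} {σ : Cel A'} {a : A'}
  {U Up R : Type} [NormedAddCommGroup U] [NormedSpace ℝ U] [NormedAddCommGroup Up]
  [NormedSpace ℝ Up] [NormedAddCommGroup R] [NormedSpace ℝ R] {d : Dat J σ a U Up R}
  {q₀ : Wi →₀ ℝ} {δ : ℝ} {V : Type} [NormedAddCommGroup V] [NormedSpace ℝ V]

variable (H : d.OK q₀ δ)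
include H

theorem mem_Om {t : ℝ} {x} : x ∈ Om d t ↔ ∃ z, d.hS z < t ∧ W.up M.c0 (J.cf a) z = x := by
  have e : ∀ z, z ∈ (ph0 J a).source ∧ ph0 J a z = W.up M.c0 (J.cf a) z := fun z => by
    refine ⟨?_, congrFun (Gb50.φ_eq H 0) z⟩
    obtain ⟨x, hx, rfl⟩ := Gb50.ex_φ H z
    exact ⟨(W.φ (J.cf a)).map_source ((W.mem_src _).2 hx),
      (W.mem_src _).2 (by simp [Mark.c0, Sys.cores])⟩
  exact ⟨fun ⟨z, k, k'⟩ => ⟨z, k.2, (e z).2.symm.trans k'⟩,
    fun ⟨z, k, k'⟩ => ⟨z, ⟨(e z).1, k⟩, (e z).2.trans k'⟩⟩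

/-- **LEAF LO-X** -/
theorem loX : LoX d := fun t => by
  refine ⟨_, (Gb50.ev_lg H).and ((Gb50.geo H).la.eventually_ge_atTop t), 1, one_pos,
    fun ι τ hτ _ _ => ?_⟩
  have o : IsOpen (Om d t) :=
    (ph0 J a).isOpen_image_source_inter (isOpen_lt d.sm_hS.continuous continuous_const)
  have k : ∀ i z, d.hS z < t → z ∈ (d.φ (τ i)).source := fun i z hz => by
    rw [Gb50.φ_src H]; exact hz.trans_le (hτ i).2
  have e : ∀ i j, ∀ x ∈ Om d t, ∀ b, (d.Gh (τ i)).F.e b x = (d.Gh (τ j)).F.e b x :=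
    fun i j x hx b => by
      obtain ⟨z, hz, rfl⟩ := (mem_Om H).1 hx
      have h1 := (Gb50.φ_rel H (hτ i).1).e b z (k i z hz)
      have h2 := (Gb50.φ_rel H (hτ j).1).e b z (k j z hz)
      rw [Gb50.φ_eq H] at h1 h2
      exact h1.symm.trans h2
  refine ⟨o, e, fun i j => ?_, fun i j x hx => ?_⟩
  · exact Agr.μ (lam := lam) (G := ⟨(d.Gh (τ j)).F, 0⟩) (G' := ⟨(d.Gh (τ i)).F, 0⟩)
      ⟨o, e i j, fun _ _ _ => rfl⟩
      (Gb50.Gh_ok H _).vol (Gb50.Gh_ok H _).vol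
  · obtain ⟨z, hz, rfl⟩ := (mem_Om H).1 hx
    have h1 := Gb50.hX_φ H (hτ i).1 (k i z hz)
    have h2 := Gb50.hX_φ H (hτ j).1 (k j z hz)
    rw [Gb50.φ_eq H] at h1 h2
    exact h1.trans h2.symm

variable {τ : d.Ta} (T : Lg d τ)
include T

/-- the long neck is literal for all parameters -/
theorem act_t {t : Tc σ a} (ht : t ∈ (d.FX τ).Q) : Act J.m M.c0 d.x none (th d (τ, t)) := by
  obtain ⟨s₀, k1, k2⟩ := H.ok.lin
  refine ⟨τ.2.1, Mark.mem_Br_c0 (H.ok.par σ H.mem _ ⟨fun a' b e => ?_, fun a' e => ?_⟩), ht,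
    τ.2.2.2.2.1, Gb50.fr0 _, T.half.trans_eq (T.x t).symm⟩
  · have : a' ≠ a := fun k => by simp [k, H.fr] at e
    simp [Dat.s, ee, e, this, H.sol.cell.1 a' b e]
  · obtain ⟨x, e⟩ := Option.isSome_iff_exists.1 e
    by_contra! k
    exact ((k2 a' x e _ (k1.le.trans k.le)).1.symm.trans_lt (ht x (Gb50.fr0 x))).not_gt k

theorem agr_t {t : Tc σ a} (ht : t ∈ (d.FX τ).Q) :
    Agr (d.Gh τ) (J.G M.c0 (d.s τ t)) {z | |h0 W d.x z| < 1} :=
  Gb50.agr_trans (Gb50.agr_symm (Gb50.agr_X H τ)) ((Gb50.nk_τ τ).agr Λ (Cht98.act_ok (act_t H T ht))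
    (by rw [Mark.tv_fr (Gb50.fr0 _), Mark.tv_fr (Gb50.fr0 _), T.x, T.x]))

theorem ψ_rel_t {t : Tc σ a} (ht : t ∈ (d.FX τ).Q) :
    Pj41.FRel d.D.Z (J.G M.c0 (d.s τ t)).F (d.ψ τ) (d.ψ τ).source :=
  ⟨(Gb50.ψ_rel H).op, (Gb50.ψ_rel H).ld, fun b z hz => ((Gb50.ψ_rel H).e b z hz).trans
    ((agr_t H T ht).e _ ((Gb50.X_tgt H T).1 ((d.KX τ).ψ.map_source hz.1.2)) b).symm⟩

theorem ex_ψ {x} (hx : 0 < d.hX τ x) : ∃ z ∈ (d.ψ τ).source, d.ψ τ z = x :=
  have k : x ∈ (d.ψ τ).target := Gb50.ψ_tgt H T ▸ hx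
  ⟨_, (d.ψ τ).map_target k, (d.ψ τ).right_inv k⟩

theorem hZ_mid {z : d.Y × ℝ} (hz : |z.2| ≤ 1) : d.la τ ≤ d.hZ τ z ∧
    ka (nl τ / 2 - d.R0 - 1) ≤ d.hZ τ z ∧ d.hZ τ z ≤ ka (nl τ / 2 - d.R0 - 1) + 1 := by
  have h1 := (Gb50.rho_spec z.2).2.1.trans (max_le hz le_rfl)
  have h2 := (abs_nonneg _).trans (Gb50.rho_spec z.2).1
  have h3 : nl τ / 2 - d.R0 - 1 ≤ nl τ / 2 - d.R0 - rho z.2 := by linarith
  have h4 := Gb50.dp_le T.half T.lt
  exact ⟨ka_mono (by rw [Gb50.dp] at h4; linarith), ka_mono h3, by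
    linarith [ka_lip h3, show d.hZ τ z = ka (nl τ / 2 - d.R0 - rho z.2) from rfl]⟩

variable (G : At d τ)
include G

theorem mix_Z {g : d.Y × ℝ → V} (hg : ∀ z, 1 ≤ |z.2| → g z = 0) :
    d.mix τ 0 g = pull (d.ψ τ).symm g := funext fun x => by
  by_cases hx : x ∈ (d.ψ τ).target
  · rw [pull_of_mem (φ := (d.ψ τ).symm) hx]
    by_cases k : 1 ≤ |((d.ψ τ).symm x).2|
    · simp [Dat.mix, hg _ k]
    · conv_lhs => rw [← (d.ψ τ).right_inv hx]
      exact mix_hi _ _ ((d.ψ τ).map_target hx) (by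
        linarith [(G.ψ.2.2.2 _ ((d.ψ τ).map_target hx)).1, (hZ_mid H T (not_le.1 k).le).1])
  · rw [pull_of_notMem (φ := (d.ψ τ).symm) hx, Dat.mix, Dat.χ, smoothTransition.zero_of_nonpos]
    · simp
    · rw [G.ψ.2.2.1] at hx
      linarith [G.la, not_lt.1 (show ¬0 < d.hX τ x from hx)]

theorem mix_S {f : (W.Z (J.cf a)).M → V} (l : d.Lit f 0) :
    d.mix τ f 0 = pull (d.φ τ).symm f := funext fun x => by
  by_cases hx : x ∈ (d.φ τ).target
  · rw [pull_of_mem (φ := (d.φ τ).symm) hx]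
    conv_lhs => rw [← (d.φ τ).right_inv hx]
    exact mix_lit H G (g := 0) l ((d.φ τ).map_target hx)
  · rw [pull_of_notMem (φ := (d.φ τ).symm) hx, Dat.mix, Dat.χ, smoothTransition.one_of_one_le]
    · simp
    · rw [G.φ.2.2.1] at hx
      linarith [not_lt.1 (show ¬d.hX τ x < d.la τ from hx)]

omit T G in
/-- **LEAF GM-X** -/
theorem gmX : GmX d := by
  obtain ⟨τ₀, h1, T₀⟩ :=
    ((Gb50.act H).and (nhdsWithin_le_nhds (eventually_comap.1 (Gb50.ev_lg H)))).exists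
  replace T₀ := T₀ ⟨τ₀, h1⟩ rfl
  obtain ⟨B, hB⟩ := isCompact_univ.bddAbove_image (d.sm_hX ⟨τ₀, h1⟩).continuous.continuousOn
  filter_upwards [eventually_gt_atTop B] with t ht
  refine ⟨_, (Gb50.ev_lg H).and (ev_at (Gb50.geo H)), 1, one_pos, fun ι τ hτ _ _ => ?_⟩
  have T := fun i => (hτ i).1
  have G := fun i => (hτ i).2
  have cl : IsClosed {z : d.Y × ℝ | |z.2| ≤ 1} := isClosed_le (by fun_prop) continuous_const
  have s1 : tsupport d.bp ⊆ {z | |z.2| ≤ 1} :=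
    closure_minimal (fun z hz => le_of_not_ge fun k => hz (H.bp z k).1) cl
  have s2 : tsupport d.mo ⊆ {z | |z.2| ≤ 1} :=
    closure_minimal (fun z hz => le_of_not_ge fun k => hz (H.bp z k).2) cl
  have s3 : ∀ i, {z | |z.2| ≤ 1} ⊆ (d.ψ (τ i)).source := fun i z hz => by
    rw [(G i).ψ.2.1]
    exact (two_pos.trans (G i).la).trans_le (hZ_mid H (T i) hz).1
  have e1 : (fun i => (d.Xs (τ i)).bp) = fun i => pull (d.ψ (τ i)).symm d.bp :=
    funext fun i => mix_Z H (T i) (G i) fun z k => (H.bp z k).1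
  have e2 : (fun i => (d.Xs (τ i)).mo) = fun i => pull (d.ψ (τ i)).symm d.mo :=
    funext fun i => mix_Z H (T i) (G i) fun z k => (H.bp z k).2
  have e3 : (fun i => (d.Xs (τ i)).lo) = fun i => pull (d.φ (τ i)).symm d.lo :=
    funext fun i => mix_S H (T i) (G i) H.ll
  refine ⟨⟨{z | 1 / 2 ≤ |h0 W d.x z|}, (isClosed_le continuous_const Gb50.cont_h0).isCompact,
      fun z (hz : 1 / 2 ≤ |h0 W d.x z|) => ?_, fun i t ht => (agr_t H (T i) ht).mono
        (isClosed_le continuous_const Gb50.cont_h0).isOpen_compl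
        fun z (hz : ¬1 / 2 ≤ |h0 W d.x z|) => (lt_of_not_ge hz).trans one_half_lt_one⟩,
    fun i t ht x => ?_, fun i t ht x hx => ?_,
    e1 ▸ bv_push (fun i => (G i).ψ.1) (H.okZ 0).bp fun i => s1.trans (s3 i),
    e2 ▸ bv_push (fun i => (G i).ψ.1) (H.okZ 0).mo fun i => s2.trans (s3 i),
    e3 ▸ bv_push (fun i => (G i).φ.1) H.okS.lo fun i => ?_, 1, fun i x hx z hz => ?_⟩
  · obtain ⟨w, rfl⟩ := Gb50.ex_up H (z := z) fun e => by rw [e] at hz; norm_num at hz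
    refine (mem_Om H).2 ⟨w, (Gb50.hX_up H T₀ ?_).ge.trans_lt ((hB ⟨_, trivial, rfl⟩).trans_lt ht), rfl⟩
    rw [Gb50.h0_up H] at hz
    linarith [T₀.half]
  · by_cases k : 0 < d.hX (τ i) x
    · obtain ⟨z, hz, rfl⟩ := ex_ψ H (T i) k
      exact (gr_ψ (ψ_rel_t H (T i) ht) (cd_tent d.R0 (τ i))
        (fun y hy => (Gb50.hX_ψ H (T i) hy).symm) hz).trans_le (tent_sq _ _ _)
    · refine (Finset.sum_eq_zero fun b _ => ?_).trans_le zero_le_one
      have := Gl67.D_comp (F := (J.G M.c0 (d.s (τ i) t)).F.toPre) (contMDiff_const.sub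
        (cd_rho.contMDiff.comp ((d.KX (τ i)).sm_τ.sub contMDiff_const))) cd_ka b x
        (h := fun x => nl (τ i) / 2 - d.R0 - rho ((d.KX (τ i)).τ x - nl (τ i) / 2))
      rw [IsLocalMin.deriv_eq_zero (f := ka) (.of_forall fun y =>
        le_trans (not_lt.1 k : tent _ _ _ ≤ 0) (ka_nonneg y)), zero_mul] at this
      exact pow_eq_zero_iff two_ne_zero |>.2 this
  · obtain ⟨z, hz, rfl⟩ := ex_ψ H (T i) (one_pos.trans_le hx)
    exact (lop_ψ (ψ_rel_t H (T i) ht) (cd_tent d.R0 (τ i))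
      (fun y hy => (Gb50.hX_ψ H (T i) hy).symm) hz (Λ.G_ok _ ht).vol (H.ok.xs _).1.vol).trans_le
        (tent_cc (hx.trans_eq (Gb50.hX_ψ H (T i) hz)))
  · refine (closure_minimal (s := support d.lo) (fun z hz => le_of_not_gt fun k =>
      hz (lit_pY H (g := 0) H.ll k)) (isClosed_le d.sm_hS.continuous continuous_const)).trans
        fun z (hz : d.hS z ≤ 0) => ?_
    rw [(G i).φ.2.1]
    exact hz.trans_lt (two_pos.trans (G i).la)
  · have key : ∀ {x}, x ∈ (d.ψ (τ i)).target ∩ (d.ψ (τ i)).symm ⁻¹' {z | |z.2| ≤ 1} →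
        ka (nl (τ i) / 2 - d.R0 - 1) ≤ d.hX (τ i) x ∧
          d.hX (τ i) x ≤ ka (nl (τ i) / 2 - d.R0 - 1) + 1 := fun {x} hx => by
      rw [← (d.ψ (τ i)).right_inv hx.1, Gb50.hX_ψ H (T i) ((d.ψ (τ i)).map_target hx.1)]
      exact (hZ_mid H (T i) hx.2).2
    rw [congrFun e1 i] at hx
    rw [congrFun e2 i] at hz
    have h2 := key (inter_subset_inter_right _ (preimage_mono s1) ((Adm.of_isCompact
      (φ := (d.ψ (τ i)).symm) (H.okZ 0).bp.2 (s1.trans (s3 i))).tsupport_pull hx))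
    have h3 := key (inter_subset_inter_right _ (preimage_mono s2) ((Adm.of_isCompact
      (φ := (d.ψ (τ i)).symm) (H.okZ 0).mo.2 (s2.trans (s3 i))).tsupport_pull hz))
    show |d.hX (τ i) x - d.hX (τ i) z| ≤ 1
    exact abs_le.2 ⟨by linarith [h2.1, h3.2], by linarith [h2.2, h3.1]⟩

end Crest.Agent.X212.Cay24
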