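import Crest.Agent.X212.Cay24.Out
import Crest.Agent.X212.Dec35.Cyl
import Crest.Agent.X212.Dgr80.Lf

/-!
# Row 212, EN-TMP (helper24): exponentially converging configurations in temporal gauge
-/

set_option autoImplicit false
set_option linter.unusedSectionVars false
noncomputable section
open scoped Manifold ContDiff Topology InnerProductSpace
open MeasureTheory Set Function Filter Real

namespace Crest.Agent.X212.Cay24
open An Sob92 Cyf70 Neck67 Cmp73 Pj41 Eqv71 Tmp64 Nd18 Bki64 Dgr80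

section gen
variable {E : Type} [NormedAddCommGroup E] [NormedSpace ℝ E] [FiniteDimensional ℝ E]
  [MeasurableSpace E] [BorelSpace E]
  {HM : Type} [TopologicalSpace HM] {I : ModelWithCorners ℝ E HM} [I.Boundaryless]
  {M : Type} [TopologicalSpace M] [ChartedSpace HM M] [IsManifold I ∞ M]
  [MeasurableSpace M] [T2Space M] [BorelSpace M] [SecondCountableTopology M]
  {ι : Type} [Fintype ι] {lam : Type} [Fintype lam] {r : ℕ} {B : Base M ι lam} {G : Geo I M ι lam}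

theorem OB.sum {N α η : Type} [NormedAddCommGroup N] [NormedSpace ℝ N] {F : Pre I M ι}
    {l : Filter α} {S : α → Set M} {k : ℕ} {e : α → ℝ} (hS : ∀ᶠ n in l, IsOpen (S n))
    {f : η → α → M → N} (h : ∀ i, OB F l S k e (f i)) (s : Finset η) :
    OB F l S k e fun n x => ∑ i ∈ s, f i n x := by
  induction s using Finset.cons_induction with
  | empty => exact OB.zero hS
  | cons a s ha ih => simpa only [Finset.sum_cons] using (h a).add ih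

theorem OB.pi {N α η : Type} [NormedAddCommGroup N] [InnerProductSpace ℝ N] [Fintype η]
    {F : Pre I M ι} {l : Filter α} {S : α → Set M} {k : ℕ} {e : α → ℝ}
    (hS : ∀ᶠ n in l, IsOpen (S n)) {f : α → M → Fm η N}
    (h : ∀ i, OB F l S k e fun n x => f n x i) : OB F l S k e f := by
  classical
  refine (OB.sum hS (fun i => (h i).clm ((PiLp.continuousLinearEquiv 2 ℝ
    fun _ : η => N).symm.toContinuousLinearMap ∘L ContinuousLinearMap.single ℝ (fun _ : η => N) i))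
    Finset.univ).congr (Eventually.of_forall fun _ x _ => ?_)
  ext1 i
  simp [Pi.single_apply, Finset.sum_apply]

theorem addC_dif {m : Md M ι lam} {W W' : m.Cn} (H : m.OK I B) (C : m.IsConn B G W)
    (C' : m.IsConn B G W') {a : ι} {x : M} (h : (1 - m.p x) * W a x * (1 - m.p x) = 0)
    (h' : (1 - m.p x) * W' a x * (1 - m.p x) = 0) : m.addC W (Spn45.dif m W W') a x = W' a x := by
  have e : (1 - m.p x) * (W' a x - W a x) * (1 - m.p x) = 0 := by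
    rw [mul_sub (1 - m.p x), sub_mul, h, h', sub_self]
  rw [sub_mul, one_mul, mul_sub, mul_one, sub_mul, mul_assoc, Spn45.sub_p C C', ← mul_assoc,
    H.pidem, sub_self, sub_zero, sub_eq_zero] at e
  rw [Md.addC, Spn45.dif_apply, opL_hsL, ← e, add_sub_cancel]

variable (F : Fr I M ι) (c c' : Cfg M ι lam r) (g : M → CL c.m.V c'.m.V)

/-- the transported connection of `c'` minus the connection of `c` -/
def tA (x : M) : Fm ι c.m.A := WithLp.toLp 2 fun i => hsL (ad (g x) ∘L dA F c c' g i x ∘L g x)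

/-- the transported spinor of `c'` minus the spinor of `c` -/
def tP (ζ : Circle) (x : M) : c.m.V := ad (g x) (csB c'.m.J (ζ⁻¹ : Circle) (c'.Φ x)) - c.Φ x

variable {F c c' g} {α : M → Fm ι c.m.A} {φ : M → c.m.V}

theorem cov_vr (a : ι) (x : M) :
    Bki64.cov F (vr c α φ) c' g a x = Bki64.cov F c c' g a x - g x ∘L opL (α x a) := by
  change F.D a g x + c'.W a x ∘L g x - g x ∘L (c.W a x + opL (α x a)) =
    F.D a g x + c'.W a x ∘L g x - g x ∘L c.W a x - g x ∘L opL (α x a)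
  rw [ContinuousLinearMap.comp_add, sub_sub]

theorem gd_vr (h : Dec35.Bs B G c) (hα : G.F.Cb α) (hφ : G.F.Cb φ) (k : (vr c α φ).Adm B G) :
    Gd B G (vr c α φ) :=
  ⟨⟨h.hB, h.hG, k.ok, k.conn, h.tame, fun a => Cb_add (h.cW a)
    (Cb_clm opL (Cb_clm (Map77.pj _ a) hα)), h.dat.pg h.hB (Std94.pmx h.adm.ok)⟩, k, Cb_add h.cΦ hφ, h.dat.p,
    h.dat.ρ, h.dat.j⟩

theorem gd_bs (h : Dec35.Bs B G c) : Gd B G c :=
  ⟨⟨h.hB, h.hG, h.adm.ok, h.adm.conn, h.tame, h.cW, h.dat.pg h.hB (Std94.pmx h.adm.ok)⟩, h.adm, h.cΦ, h.dat.p,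
    h.dat.ρ, h.dat.j⟩

variable (hc : c.Adm B G) (hc' : c'.Adm B G) (hg : Iso0 I c.m c'.m univ g)
include hc hc' hg

theorem tA_vr (h : ∀ x a, α x a ∈ c.m.gS x) (x : M) :
    α x - tA F c c' g x = -tA F (vr c α φ) c' g x := by
  have k := hg.iso x trivial
  ext1 a
  have e : ad (g x) ∘L ((g x ∘L opL (α x a)) ∘L trn (g x)) ∘L g x = opL (α x a) := by
    rw [← ad_trn, ContinuousLinearMap.comp_assoc, k.src, ContinuousLinearMap.comp_assoc,
      ← ContinuousLinearMap.comp_assoc, k.src]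
    exact (congrArg _ (Wz78.g_p' hc.ok (h x a))).trans (Wz78.g_p (h x a))
  refine Eq.trans ?_ (congrArg (fun T : CL c.m.V c'.m.V =>
    -hsL (ad (g x) ∘L (T ∘L trn (g x)) ∘L g x)) (cov_vr (φ := φ) a x)).symm
  change α x a - hsL (ad (g x) ∘L (Bki64.cov F c c' g a x ∘L trn (g x)) ∘L g x) = _
  rw [ContinuousLinearMap.sub_comp, ContinuousLinearMap.sub_comp,
    ContinuousLinearMap.comp_sub, e, map_sub, hsL_opL, neg_sub]

omit hc in
theorem tP_vr (hc : (vr c α φ).Adm B G) (ζ : Circle) (x : M) : φ x - tP c c' g ζ x =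
    ad (g x) (csB c'.m.J (ζ⁻¹ : Circle) (dP (vr c α φ) c' g ζ x)) := by
  have e : c.m.p x (c.Φ x + φ x) = c.Φ x + φ x := (admOn_univ.2 hc).pΦ (mem_univ x)
  change _ = ad (g x) (csB c'.m.J (ζ⁻¹ : Circle) (cs c'.m.J ζ (g x (c.Φ x + φ x)) - c'.Φ x))
  rw [map_sub, csB_apply, cs_mul hc'.ok.Jsq, ← Circle.coe_mul, inv_mul_cancel, Circle.coe_one,
    cs_one, map_sub, ← ContinuousLinearMap.comp_apply, (hg.iso x trivial).src, e, tP]
  abel

/-- `c'` transported to the module of `c` -/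
theorem t_spec (hB : B.OK I) (hG : G.OK B) (ζ : Circle) :
    (vr c (tA G.F c c' g) (tP c c' g ζ)).Adm B G ∧ Sm I (tA G.F c c' g) ∧ Sm I (tP c c' g ζ) ∧
      (∀ x a, tA G.F c c' g x a ∈ c.m.gS x) ∧
      (∀ a x, Bki64.cov G.F (vr c (tA G.F c c' g) (tP c c' g ζ)) c' g a x = 0) ∧
      ∀ x, cs c'.m.J ζ (g x (c.Φ x + tP c c' g ζ x)) = c'.Φ x := by
  have h1 : (⟨c'.m, c'.W, fun x => csB c'.m.J (ζ⁻¹ : Circle) (c'.Φ x), c'.z⟩ : Cfg M ι lam r).Adm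
      B G := ⟨hc'.ok, hc'.conn, Dec35.sm_clm _ hc'.sm, fun x =>
        (map_cs (Wz78.J_pp hc'.ok x).symm _ _).trans (congrArg _ (hc'.pos x)), hc'.z⟩
  obtain ⟨h2, h3⟩ := psh_spec (m' := c.m) hB hG.P h1 hc.ok
    (hg.symm (OK.on hc.ok _) (OK.on hc'.ok _))
  obtain ⟨W, hW⟩ : ∃ W : c.m.Cn, W = pshC G.F (fun x => ad (g x)) c'.W := ⟨_, rfl⟩
  have k1 : c.m.IsConn B G W := hW ▸ h2.conn
  have k2 : Par0 G.F c'.W W univ fun x => ad (g x) := hW ▸ h3.par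
  have k3 : ∀ a x, Bki64.cov G.F c c' g a x = g x ∘L (W a x - c.W a x) := fun a x => by
    have := k2.symm (fun x _ => (hg.su x trivial).ad) (fun a x _ => hc'.conn.sk a x)
      (fun a x _ => k1.sk a x) x trivial a
    simp only [ad_ad] at this
    rw [Bki64.cov, sub_eq_zero.1 this, ContinuousLinearMap.comp_sub]
  have k4 : tA G.F c c' g = Spn45.dif c.m c.W W := funext fun x => by
    ext1 a
    refine congrArg hsL ?_
    rw [dA_u hg isOpen_univ (admOn_univ.2 hc) trivial, k3, ← ContinuousLinearMap.comp_assoc,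
      (hg.iso x trivial).src]
    rfl
  have k5 : ∀ x, c.Φ x + tP c c' g ζ x = ad (g x) (csB c'.m.J (ζ⁻¹ : Circle) (c'.Φ x)) := fun x =>
    add_sub_cancel _ _
  rw [k4]
  have s1 := Spn45.sm_dif hc.ok hc.conn k1
  refine ⟨⟨hc.ok, Spn45.isConn_addC hc.ok hc.conn s1 (Spn45.p1_dif hc.conn k1 hc.ok),
    h2.sm.congr k5, fun x => (congrArg (c.m.pp B x) (k5 x)).trans ((h2.pos x).trans (k5 x).symm),
    hc.z⟩, s1, h2.sm.sub hc.sm,
    Spn45.dif_mem hc.conn k1 hc.ok, fun a x => ?_, fun x => ?_⟩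
  · refine (cov_vr a x).trans ?_
    rw [k3, Spn45.dif_apply, opL_hsL, ContinuousLinearMap.mul_def,
      ← ContinuousLinearMap.comp_assoc, (hg.iso x trivial).idem]
    exact sub_self _
  · have e : c'.m.p x (csB c'.m.J (ζ⁻¹ : Circle) (c'.Φ x)) = cs c'.m.J (ζ⁻¹ : Circle) (c'.Φ x) :=
      (admOn_univ.2 h1).pΦ (mem_univ x)
    rw [k5, ← ContinuousLinearMap.comp_apply, (hg.iso x trivial).tgt, e, cs_mul hc'.ok.Jsq,
      ← Circle.coe_mul, mul_inv_cancel, Circle.coe_one, cs_one]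

end gen

variable {E3 : Type} [NormedAddCommGroup E3] [NormedSpace ℝ E3] [FiniteDimensional ℝ E3]
  [MeasurableSpace E3] [BorelSpace E3]
  {H3 : Type} [TopologicalSpace H3] {I3 : ModelWithCorners ℝ E3 H3} [I3.Boundaryless]
  {Y : Type} [TopologicalSpace Y] [ChartedSpace H3 Y] [IsManifold I3 ∞ Y] [T2Space Y]
  [MeasurableSpace Y] [BorelSpace Y] [SecondCountableTopology Y] [CompactSpace Y]
  {κ : Type} [Fintype κ] {lam : Type} [Fintype lam] {D : YD I3 Y κ lam} {β γ : YC Y κ lam}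
  {c : Cfg (Y × ℝ) (Option κ) lam 0} {σ d : ℝ} {ζ : Circle}

/-- a configuration on the module of `cy β` -/
abbrev mc (β : YC Y κ lam) (W : (cy β).m.Cn) (Φ : Y × ℝ → β.m.V) : Cfg (Y × ℝ) (Option κ) lam 0 :=
  ⟨(cy β).m, W, Φ, β.z⟩

theorem exists_mc (hD : D.OK) (hc : c.Adm D.B D.G) : ∃ (β : YC Y κ lam) (W : (cy β).m.Cn)
    (Φ : Y × ℝ → β.m.V) (u : Y × ℝ → CL c.m.V β.m.V), D.Adm β ∧ Tmp64.Red (cy β) ∧
      (mc β W Φ).Adm D.B D.G ∧ Tmp (mc β W Φ) ∧ Tmp64.Red (mc β W Φ) ∧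
      Eq0 D.Z c (mc β W Φ) univ u := by
  obtain ⟨u, k1, k2, k3, k4, -⟩ := (cyD D).exists_tmp hD.B hc 0
  have h := (cyD D).adm_sq (θ := fun _ => 0) contDiff_const k1
  have e : (frz 0 (Cy.tmpC D.G c 0 u)).W = fun a x => (Cy.tmpC D.G c 0 u).W a (x.1, 0) :=
    funext₂ fun a x => by
      cases a
      exacts [(frz_none _ _).trans (k3.W _).symm, frz_some _ _ _]
  exact ⟨pb (fun y => (y, 0)) (Cy.tmpC D.G c 0 u), _, _, u, ⟨⟨h.ok, (e ▸ h.conn :), h.sm, h.pos, h.z⟩,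
    fun y => k3.W _⟩, fun a x => k4 a (x.1, 0), k1, k3, k4, k2⟩

/-- a configuration in temporal gauge as a variation of its slice -/
theorem exists_vr (hD : D.OK) (hc : c.Adm D.B D.G) : ∃ (β : YC Y κ lam)
    (α : Y × ℝ → Fm (Option κ) β.m.A) (φ : Y × ℝ → β.m.V) (u : Y × ℝ → CL c.m.V β.m.V),
    D.Adm β ∧ (vr (cy β) α φ).Adm D.B D.G ∧ Tmp (vr (cy β) α φ) ∧ Tmp64.Red (vr (cy β) α φ) ∧
      Eq0 D.Z c (vr (cy β) α φ) univ u ∧ Sm (IC I3) α ∧ Sm (IC I3) φ ∧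
      (∀ x i, α x i ∈ β.m.gS x.1) ∧ ∀ x, α x none = 0 := by
  obtain ⟨β, W, Φ, u, hβ, k0, k1, k3, k4, k2⟩ := exists_mc hD hc
  have key : ∀ W' Φ', W' = W → Φ' = Φ → (mc β W' Φ').Adm D.B D.G ∧ Tmp (mc β W' Φ') ∧
      Tmp64.Red (mc β W' Φ') ∧ Eq0 D.Z c (mc β W' Φ') univ u := by
    rintro _ _ rfl rfl
    exact ⟨k1, k3, k4, k2⟩
  have C : (cy β).m.IsConn D.B D.G W := k1.conn
  have s1 : Sm (IC I3) Φ := k1.sm
  have s2 : Sm (IC I3) fun x : Y × ℝ => β.Φ x.1 := hβ.adm.sm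
  obtain ⟨h1, h2, h3, h4⟩ := key ((cy β).m.addC (cy β).W (Spn45.dif (cy β).m (cy β).W W))
    (fun x => β.Φ x.1 + (Φ x - β.Φ x.1)) (funext₂ fun a x =>
      addC_dif hβ.adm.ok hβ.adm.conn C (k0 a x) (k4 a x)) (funext fun x => add_sub_cancel _ _)
  refine ⟨β, Spn45.dif (cy β).m (cy β).W W, fun x => Φ x - β.Φ x.1, u, hβ, h1, h2, h3, h4,
    (Spn45.sm_dif hβ.adm.ok hβ.adm.conn C :), (s1.sub s2 :),
    fun x i => (Spn45.dif_mem hβ.adm.conn C hβ.adm.ok x i :), fun x => ?_⟩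
  change hsL ((cy β).m.p x * (W none x - (cy β).W none x)) = 0
  rw [show W none x = 0 from k3.W x, show (cy β).W none x = 0 from hβ.tmp _, sub_self, mul_zero,
    map_zero]

/-- convergence along the end `σ` in a `t`-invariant gauge -/
theorem end_g (hγ : D.Adm γ) (hc : c.Adm D.B D.G) (ht : Tmp c) (hr : Tmp64.Red c)
    (hσ : σ = 1 ∨ σ = -1) (hd : 0 < d) {u : Y × ℝ → CL c.m.V (cy γ).m.V} {T : ℝ}
    (H : ∀ k, ∃ C, ∀ s, T ≤ σ * s →
      Cl D.Z c (cy γ) u (fun _ => ζ) (win Y s 1) k (C * exp (-d * |s|))) :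
    ∃ g : Y → CL c.m.V (cy γ).m.V, Iso0 (IC I3) c.m (cy γ).m univ (fun x => g x.1) ∧
      ∀ k, ∃ C, ∀ s, 0 ≤ σ * s → Cl D.Z c (cy γ) (fun x => g x.1) (fun _ => ζ) (win Y s 1) k
        (C * exp (-d * |s|)) := by
  replace H : ∀ k, ∃ C, ∀ᶠ s in atTop,
      Cl D.Z c (cy γ) u (fun _ => ζ) (wn Y σ s) k (C * exp (-d * |s|)) := fun k =>
    (H k).imp fun C h => (eventually_ge_atTop T).mono fun s hs =>
      abs_σ hσ s ▸ h (σ * s) (by rwa [σ_σ hσ])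
  refine out_tmp hγ hc ht hr hσ hd (h := u) (fun k => ?_) (fun k ε hε => ?_) 0
  · obtain ⟨C, h⟩ := H k
    obtain ⟨B, -, h1, h2⟩ := lb_cy hγ k
    exact ⟨B, C, h.mono fun s hs => ⟨γ.W, γ.Φ, u, ζ, hγ, h1, h2, hs⟩⟩
  · obtain ⟨C, h⟩ := H k
    have := (tendsto_exp_atBot.comp (tendsto_abs_atTop_atTop.const_mul_atTop_of_neg
      (neg_lt_zero.2 hd))).const_mul C
    rw [mul_zero] at this
    exact (h.and (this.eventually_le_const hε)).mono fun s hs =>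
      hs.1.mono (win_op _ _) Subset.rfl le_rfl hs.2

theorem elim_cl (hγ : D.Adm γ) (hc : c.Adm D.B D.G) (hσ : σ = 1 ∨ σ = -1) {l : Filter ℝ}
    (hl : ∀ S ∈ l, ∃ T, ∀ s, T ≤ σ * s → s ∈ S) (H : D.nk.ELim d c γ ζ l) :
    ∃ u T, ∀ k, ∃ C, ∀ s, T ≤ σ * s →
      Cl D.Z c (cy γ) u (fun _ => ζ) (win Y s 1) k (C * exp (-d * |s|)) := by
  obtain ⟨u, S, hS, -, -, H⟩ := H
  obtain ⟨T, hT⟩ := hl S hS
  refine ⟨u, T + 1, fun k => (H k).imp fun C h s hs => cl_of_cls hγ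
    ((admOn_univ.2 hc).mono (subset_univ _)) (h s fun t ht => hT t ?_)⟩
  rcases hσ with rfl | rfl <;> linarith [ht.1, ht.2]

variable (D) in
/-- exponential decay on a half cylinder -/
abbrev OE {N : Type} [NormedAddCommGroup N] [NormedSpace ℝ N] (σ d : ℝ) (k : ℕ) (f : Y × ℝ → N) :
    Prop := OB D.Z.toPre ⊤ (fun s : {s : ℝ // 0 ≤ σ * s} => win Y s 1) k (fun s => -d * |s.1|)
      fun _ => f

variable {α : Y × ℝ → Fm (Option κ) β.m.A} {φ : Y × ℝ → β.m.V}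

theorem tA_fst (hβ : D.Adm β) (hγ : D.Adm γ) {g : Y → CL β.m.V γ.m.V} (sg : Sm I3 g) :
    ∃ a : Y → Fm (Option κ) β.m.A, tA D.G.F (cy β) (cy γ) (fun x => g x.1) = (fun x => a x.1) ∧
      ∀ y, a y none = 0 := by
  have d0 : D.Z.D none (fun x => g x.1) = 0 := D_none_fst D.F.toPre sg
  refine ⟨fun y => tA D.G.F (cy β) (cy γ) (fun x => g x.1) (y, 0), funext fun x => ?_, fun y => ?_⟩
  · have : ∀ i, D.Z.D i (fun x => g x.1) x = D.Z.D i (fun x => g x.1) (x.1, 0) := fun i => by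
      cases i
      · rw [d0]; rfl
      · exact (congrFun (D_some_fst D.F.toPre sg _) _).trans
          (congrFun (D_some_fst D.F.toPre sg _) (x.1, 0)).symm
    ext1 i
    exact congrArg (fun T : CL β.m.V γ.m.V => hsL (ad (g x.1) ∘L ((T + γ.W i x.1 ∘L g x.1 -
      g x.1 ∘L β.W i x.1) ∘L trn (g x.1)) ∘L g x.1)) (this i)
  · change hsL (ad (g y) ∘L ((D.Z.D none (fun x => g x.1) (y, 0) + γ.W none y ∘L g y -
      g y ∘L β.W none y) ∘L trn (g y)) ∘L g y) = 0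
    rw [hβ.tmp, hγ.tmp, d0]
    simp

/-- the limit along one end -/
theorem end_lim (hD : D.OK) (hβ : D.Adm β) (hγ : D.Adm γ) (hc : (vr (cy β) α φ).Adm D.B D.G)
    (hα : ∀ x i, α x i ∈ β.m.gS x.1) {g : Y → CL β.m.V γ.m.V}
    (hg : Iso0 (IC I3) (cy β).m (cy γ).m univ fun x => g x.1)
    (H : ∀ k, ∃ C, ∀ s, 0 ≤ σ * s → Cl D.Z (vr (cy β) α φ) (cy γ) (fun x => g x.1) (fun _ => ζ)
      (win Y s 1) k (C * exp (-d * |s|))) :
    ∃ (a : Y → Fm (Option κ) β.m.A) (b : Y → β.m.V), Sm I3 a ∧ Sm I3 b ∧ (∀ y i, a y i ∈ β.m.gS y) ∧ D.Adm (vr β a b) ∧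
      D.Eqv (vr β a b) γ ∧ ∀ k, OE D σ d k (fun x => α x - a x.1) ∧
        OE D σ d k fun x => φ x - b x.1 := by
  have sg : Sm I3 g := fun y => sm_slice (t := 0) (hg.su (y, 0) trivial)
  obtain ⟨k1, k2, k3, k4, k5, k6⟩ := t_spec hβ.adm hγ.adm hg hD.B hD.G ζ
  obtain ⟨a, ea, z⟩ := tA_fst hβ hγ sg
  obtain ⟨b, eb⟩ : ∃ b : Y → β.m.V, tP (cy β) (cy γ) (fun x => g x.1) ζ = fun x => b x.1 :=
    ⟨fun y => tP (cy β) (cy γ) (fun x => g x.1) ζ (y, 0), rfl⟩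
  have e1 := tA_vr (F := D.G.F) (φ := φ) hβ.adm hγ.adm hg hα
  have e2 := tP_vr (c := cy β) hγ.adm hg hc ζ
  rw [ea] at k1 k2 k4 k5 e1
  rw [eb] at k1 k3 k5 k6 e2
  have h : D.Adm (vr β a b) := ⟨k1, fun y => by
    change β.W none y + opL (a y none) = 0
    rw [z, hβ.tmp, map_zero, add_zero]⟩
  refine ⟨a, b, sm_slice_fst k2 0, sm_slice_fst k3 0, fun y => k4 (y, 0), h,
    Stb.eqv (g := g) (ξ := ζ) ⟨hg, k5, fun y => k6 (y, 0)⟩ hD h hγ, fun k => ?_⟩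
  obtain ⟨C, H⟩ := H k
  have op : ∀ᶠ s : {s : ℝ // 0 ≤ σ * s} in ⊤, IsOpen (win Y s 1) :=
    Eventually.of_forall fun _ => win_op _ _
  have bg := BB.fst (F := D.F.toPre) op k sg
  have hA : ∀ i, OE (N := En (Fin γ.m.N)) D σ d k
      (dA D.Z (vr (cy β) α φ) (cy γ) (fun x => g x.1) i) := fun i =>
    ⟨|C|, abs_nonneg _, Eventually.of_forall fun s => ⟨win_op _ _,
      ((H s s.2).A i).mono (by gcongr; exact le_abs_self _)⟩⟩
  have hP : OE (N := γ.m.V) D σ d k (dP (vr (cy β) α φ) (cy γ) (fun x => g x.1) ζ) :=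
    ⟨|C|, abs_nonneg _, Eventually.of_forall fun s => ⟨win_op _ _,
      (H s s.2).P.mono (by gcongr; exact le_abs_self _)⟩⟩
  exact ⟨OB.pi op fun i => ((((hA i).comp bg).comp' bg.ad).clm (-hsL)).congr
      (Eventually.of_forall fun _ x _ => congrArg (· i) (e1 x)),
    ((hP.clm (csB γ.m.J (ζ⁻¹ : Circle))).app' bg.ad).congr (Eventually.of_forall fun _ x _ => e2 x)⟩

section oe
variable {N : Type} [NormedAddCommGroup N] [NormedSpace ℝ N] {f : Y × ℝ → N} {k : ℕ}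

theorem OE.le (h : OE D σ d k f) : ∃ C ≥ 0, ∀ w : List (Option κ), w.length ≤ k → ∀ x : Y × ℝ,
    0 ≤ σ * x.2 → ‖D.Z.Dw w f x‖ ≤ C * exp (-d * |x.2|) :=
  let ⟨C, h0, h⟩ := h
  ⟨C, h0, fun w hw x hx => (eventually_top.1 h ⟨x.2, hx⟩).2.Dw w hw x ⟨trivial, by simp, by simp⟩⟩

theorem cb_of_oe (hd : 0 < d) (hf : Sm (IC I3) f) {a a' : Y → N} (ha : Sm I3 a) (ha' : Sm I3 a')
    (h : ∀ k, OE D (-1) d k fun x => f x - a x.1) (h' : ∀ k, OE D 1 d k fun x => f x - a' x.1) :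
    D.Z.Cb f := by
  have key : ∀ {σ : ℝ} {a : Y → N}, Sm I3 a → (∀ k, OE D σ d k fun x => f x - a x.1) → ∀ k, ∃ C,
      ∀ w : List (Option κ), w.length ≤ k → ∀ x : Y × ℝ, 0 ≤ σ * x.2 → ‖D.Z.Dw w f x‖ ≤ C :=
    fun ha h k => by
      obtain ⟨C, h⟩ := ((((h k).bb fun s => by nlinarith [abs_nonneg s.1]).add
        (BB.fst (F := D.F.toPre) (h k).op k ha)).congr (f' := fun _ => f)
        (Eventually.of_forall fun _ _ _ => (sub_add_cancel _ _).symm))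
      exact ⟨C, fun w hw x hx => (eventually_top.1 h ⟨x.2, hx⟩).2.Dw w hw x
        ⟨trivial, by simp, by simp⟩⟩
  choose C hC using key ha h
  choose C' hC' using key ha' h'
  exact ⟨fun k => max (C k) (C' k), hf, fun k w hw x => (le_total x.2 0).elim
    (fun h => le_max_of_le_left (hC k w hw x (by linarith)))
    fun h => le_max_of_le_right (hC' k w hw x (by linarith))⟩

end oe

theorem tmpStmt : Dgr80.TmpStmt I3 Y κ lam := fun D hD _ c γ γ' ζ ζ' d hd hc hγ hγ' H H' => by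
  obtain ⟨β, α, φ, τ, hβ, k1, k2, k3, k4, k5, k6, k7, k8⟩ := exists_vr hD hc
  have e := k4.symm (G := D.G) (admOn_univ.2 hc) (admOn_univ.2 k1)
  have key : ∀ {σ : ℝ} {γ : YC Y κ lam} {ζ : Circle} {l : Filter ℝ}, σ = 1 ∨ σ = -1 → D.Adm γ →
      (∀ S ∈ l, ∃ T, ∀ s, T ≤ σ * s → s ∈ S) → D.nk.ELim d c γ ζ l →
      ∃ (a : Y → Fm (Option κ) β.m.A) (b : Y → β.m.V), Sm I3 a ∧ Sm I3 b ∧
        (∀ y i, a y i ∈ β.m.gS y) ∧ D.Adm (vr β a b) ∧ D.Eqv (vr β a b) γ ∧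
        ∀ k, OE D σ d k (fun x => α x - a x.1) ∧ OE D σ d k fun x => φ x - b x.1 :=
    fun hσ hγ hl H => by
      obtain ⟨u, T, H⟩ := elim_cl hγ hc hσ hl H
      obtain ⟨g, hg, H⟩ := end_g hγ k1 k2 k3 hσ hd fun k => (H k).imp fun C h s hs =>
        cl_pre e (h s hs) (subset_univ _)
      exact end_lim hD hβ hγ k1 k7 hg H
  obtain ⟨a, b, a1, a2, a3, a4, a5, a6⟩ := key (.inr rfl) hγ (fun S hS =>
    let ⟨T, h⟩ := mem_atBot_sets.1 hS; ⟨-T, fun s hs => h s (by linarith)⟩) H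
  obtain ⟨a', b', b1, b2, b3, b4, b5, b6⟩ := key (.inl rfl) hγ' (fun S hS =>
    let ⟨T, h⟩ := mem_atTop_sets.1 hS; ⟨T, fun s hs => h s (by linarith)⟩) H'
  have cA := cb_of_oe hd k5 a1 b1 (fun k => (a6 k).1) fun k => (b6 k).1
  have cP := cb_of_oe hd k6 a2 b2 (fun k => (a6 k).2) fun k => (b6 k).2
  refine ⟨β, d, α, φ, fun s => bif s then a' else a, fun s => bif s then b' else b,
    ⟨hd, hβ, gd_vr (Dec35.bs_cyl hD hβ) cA cP k1, cA, cP, k7, k8, Bool.forall_bool.2 ⟨a1, b1⟩,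
      Bool.forall_bool.2 ⟨a2, b2⟩, Bool.forall_bool.2 ⟨a3, b3⟩, Bool.forall_bool.2 ⟨a4, b4⟩,
      Bool.forall_bool.2 ⟨gd_bs (Dec35.bs_cyl hD a4), gd_bs (Dec35.bs_cyl hD b4)⟩, ?_⟩,
    k4.cfgIso (G := D.G) hD.B hc k1, a5, b5⟩
  obtain ⟨C1, p1, h1⟩ := (a6 1).1.le
  obtain ⟨C2, p2, h2⟩ := (a6 1).2.le
  obtain ⟨C3, p3, h3⟩ := (b6 1).1.le
  obtain ⟨C4, p4, h4⟩ := (b6 1).2.le
  refine ⟨C1 + C2 + C3 + C4, Bool.forall_bool.2 ⟨fun w hw x (hx : 0 ≤ -x.2) =>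
    ⟨(h1 w hw x (by linarith)).trans ?_, (h2 w hw x (by linarith)).trans ?_⟩,
    fun w hw x (hx : 0 ≤ x.2) =>
    ⟨(h3 w hw x (by linarith)).trans ?_, (h4 w hw x (by linarith)).trans ?_⟩⟩⟩ <;> gcongr <;> linarith

end Crest.Agent.X212.Cay24
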