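import Crest.Agent.X212.Nd18.Fk

/-!
# Row 212, FACT (helper24): the leaf MW, the model of the whole face
-/

set_option autoImplicit false
set_option linter.unusedSectionVars false
noncomputable section
open scoped Manifold ContDiff Topology InnerProductSpace
open MeasureTheory Set Function Filter Classical

namespace Crest.Agent.X212.Cay24.Mw
open An M G75 Jb7 Ins26 Nd18 Rf65 Pte3 Fk18
open An.Job (Sol SolOn StrOn Str)

section job
variable {Wi : Type} {X : Mf 4} {A κ lam : Type} [Fintype A] [Fintype κ] [Fintype lam]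
  [DecidableEq lam] {M : Mark X A κ} {W : World M} {N : ML M lam} {Λ : Lns W N}
  {A' h : Type} [Fintype A'] [DecidableEq A'] [Fintype h] {r n : ℕ}
  {J : Job Wi Λ A' h r n} {c : M.Cl} {σ : Cel A'} {q : Wi →₀ ℝ} {y : J.Obc c}

/-- empty chains -/
theorem brk0 {S : Xs Wi κ lam} {q β ζ β' ζ' k j} (H : S.N.Brk S.D q β ζ β' ζ' k j) (e : j = 0) :
    β = β' ∧ ζ = ζ' ∧ k = 0 := by
  cases H
  exacts [⟨rfl, rfl, rfl⟩, absurd e (Nat.succ_ne_zero _), absurd e (Nat.succ_ne_zero _)]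

theorem H_univ (H : Sol σ q y) (t : y.Tight) (u : J.unc c = univ) : y.H = univ := by
  have := H.drop
  rw [t.1, u, Nat.le_zero, ncard_eq_zero (toFinite _), sdiff_eq_empty] at this
  exact univ_subset_iff.1 this

theorem solOn (H : Sol σ q y) {p : Prt A A' h} (e : W.un c p.P' = univ) (k : p.H ⊆ y.H) :
    SolOn p σ q y :=
  ⟨H.cell, H.inf, H.sol.toAdm, fun x hx => (hx (e.ge (mem_univ x))).elim, fun x _ => H.sol.D x,
    fun x _ => H.sol.C x, H.sol.S, fun i hi => H.cut i (k hi), fun a b ha _ => H.lim a b ha,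
    fun a ha b _ => H.crit a ha b, H.int.integrableOn⟩

/-- the class of a critical point, along an equation of cross-sections -/
theorem cls_of {Y Y' : Xs Wi κ lam} (e : Y = Y') (C' : Y'.N.CD Y'.D) {β : YC Y.Y.M κ (lam ⊕ lam)}
    (hc : Y.N.Crit Y.D β) {P : Prop}
    (hL : ∀ (C : Y.N.CD Y.D) o, Y.D.Eqv β (C.β o) → (Y.D.Fx β ↔ C.fx o) ∧ P) :
    ∃ o, Y'.D.Eqv (cv e β) (C'.β o) ∧ (Y.D.Fx β ↔ C'.fx o) ∧ P := by
  subst e
  exact (C'.cov β hc).imp fun o k => ⟨k, hL C' o k⟩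

end job

variable {κ lam : Type} [Fintype κ] [Fintype lam] [DecidableEq lam] {Lm : LM κ lam}
  {y₀ : G75.YD κ lam} {S : Scene Lm} {P : Pk y₀} {z : Z0 P S} {Z : Z1 z} {R : ℕ} {T : ℝ}

theorem hp_self (a : S.A) (b : Bool) : hp a b a = some b := if_pos rfl

theorem hp_ne (a : S.A) : hp a false ≠ hp a true := fun e => by
  simpa [hp_self] using congrFun e a

section
variable (h0 : z.OK R) (he : Z.e.1 = {z.t.a})
include h0 he

theorem nl {l : S.A} (hl : l ∈ S.ls) : l ∉ Z.e.1 := fun k =>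
  (h0.cn.ok.fz _ h0.t.fz.1).2.1 ((show l = z.t.a from he.le k) ▸ hl)

theorem pe0 : pe Z.e = ∅ := Finset.filter_eq_empty_iff.2 fun x _ k =>
  (h0.cn.ok.fz _ h0.t.fz.1).1 ((show x = z.t.a from he.le k.1) ▸ k.2)

theorem ou_eq : ou Z.e = id := funext₂ fun _ _ => if_neg fun k => nl h0 he k.2.1 k.1

theorem le0 (π : Reg S.A) : LE Z.e π = ∅ :=
  Finset.filter_eq_empty_iff.2 fun l _ k => nl h0 he l.2 k.1

theorem sd0 (b : Bool) : z.t.sd b (pe Z.e) = ∅ := by rw [pe0 h0 he]; exact Finset.filter_empty _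

variable (sm : Z.Sm)
include sm

theorem rg (b : Bool) : Z.Rg b = {hp z.t.a b} := sm.top b (sd0 h0 he b)

theorem ro (b : Bool) : Z.Ro b = {hp z.t.a b} := by
  simp [Z1.Ro, rg h0 he sm, ou_eq h0 he]

theorem imQ : ou Z.e '' ↑(Z.Rg false ∪ Z.Rg true) = {hp z.t.a false, hp z.t.a true} := by
  simp [rg h0 he sm, ou_eq h0 he]

theorem sumQ {V : Type} [AddCommMonoid V] (f : Reg S.A → V) :
    ∑ π ∈ Z.Rg false ∪ Z.Rg true, f π = f (hp z.t.a false) + f (hp z.t.a true) := by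
  rw [Finset.sum_union sm.dis, rg h0 he sm, rg h0 he sm, Finset.sum_singleton, Finset.sum_singleton]

theorem un_W : z.D.W.un Z.e Z.pW.P = univ := eq_univ_of_forall fun x => by
  obtain ⟨π, h1, h2⟩ := Cyl58.exists_pc z.D.W.toCaps x
  refine mem_un.2 ⟨π, ?_, h2⟩
  rcases sm.cov π h1 with ⟨b, k⟩ | ⟨l, k, -⟩
  · rw [ro h0 he sm] at k
    cases b
    exacts [.inl k, .inr k]
  · exact (nl h0 he l.2 k).elim

theorem H_W : Z.pW.H = univ := by
  have a := sm.H _ subset_rfl univ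
  have b := sm.nh
  have d : ∀ π, DR (S := S) univ π = ∅ := fun π => by simp [DR]
  rw [sm.nd0 (sd0 h0 he _), rg h0 he sm, Finset.sum_singleton] at b
  rw [imQ h0 he sm, sumQ h0 he sm, sumQ h0 he sm, le0 h0 he, le0 h0 he, d, d] at a
  refine eq_of_subset_of_ncard_le (subset_univ _) ?_
  rw [ncard_univ, Nat.card_eq_fintype_card, Fintype.card_coe]
  simp only [Finset.union_self, Finset.card_empty, add_zero] at a
  exact le_trans (by omega) a

variable (h1 : Z.OK T)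
include h1

theorem V_card : Z.pW.V.ncard = Z.τ.card := by
  have a := sm.V _ subset_rfl
  have b := fun b => sm.nm Z.τ (by simp [pe0 h0 he]) h1.sub b
  simp only [sd0 h0 he, rg h0 he sm, Finset.sum_singleton, Finset.card_empty] at b
  rw [imQ h0 he sm, sumQ h0 he sm, sumQ h0 he sm, le0 h0 he, le0 h0 he] at a
  have := sm.sd Z.τ h1.sub
  have b0 := b false
  have b1 := b true
  simp only [Finset.card_empty, add_zero] at a
  exact a.trans (by omega)

theorem V_W (a : S.A ⊕ Unit) (k : Z.ce a = none) (k' : ∀ x, Z.J.hd a = some x → x ∉ Z.e.1) :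
    a ∈ Z.pW.V := by
  have m : ∀ a, Z.ce a = none → (∀ x, Z.J.hd a = some x → x ∉ Z.e.1) →
      a ∈ Sum.inl '' (Z.τ : Set S.A) := by
    rintro (a | a) k k'
    · exact ⟨a, by_contra fun e => by simp [Z1.ce, cel, show a ∉ Z.τ from e] at k, rfl⟩
    · exact (k' _ rfl h1.a).elim
  have e : Z.pW.V = Sum.inl '' (Z.τ : Set S.A) :=
    eq_of_subset_of_ncard_le (fun a k => m a k.1 k.2.1) (by
      rw [V_card h0 he sm h1, ncard_image_of_injective _ Sum.inl_injective, ncard_coe_finset])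
  exact e ▸ m a k k'

theorem pg : PG Z.J Z.e Z.ce Z.pW := by
  have c : z.c Z.i ≠ 0 := fun e => h1.c (congrFun e _)
  refine ⟨(h1.F.J _ c _ _).1, ⟨_, _, _, rfl, by simp, h1.c, h1.sub⟩, ?_⟩
  refine (h1.F.J _ c _ _).2.pok _ ⟨_, _, _, rfl, by simp, h1.c, h1.sub⟩ _ _ _ _ ?_ subset_rfl
  have := fun b => (((sm.sdP he).1 b).ge rfl).1
  rintro _ (rfl | rfl)
  exacts [this _, this _]

theorem sa {q} {y : Z.Ob} (H : Sol Z.ce q y) (t : y.Tight) : SA z.t.a Z.pW Z.ce q y :=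
  have m : z.t.a ∈ cylW Z.e := ⟨h1.a, (h0.cn.ok.fz _ h0.t.fz.1).1⟩
  { toSolOn := solOn H (un_W h0 he sm) ((subset_univ _).trans (H_univ H t (sm.sdP he).2).ge)
    fre := by
      rintro _ (rfl | rfl) <;> exact .inl ⟨_, m, by simp [hp_self]⟩
    one := fun _ _ => let k := brk0 (H.brk _ m) (t.2 _ m); ⟨k.1, k.2.1⟩ }

/-- the index of the charts of the whole face -/
theorem idx {δ : ℝ} (ix : Z.IxAt δ) (mj : MJ Z.J Z.e z.t.a) {q} {y : Z.Ob} (H : Sol Z.ce q y)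
    (t : y.Tight) {d : ℤ} (ch : ChA z.t.a δ Z.ce Z.pW q y d) {o : P.C.C}
    (ho : ∀ b, Z1.Cl y (fun _ => o) b) (nf : ¬P.C.fx o) :
    d = -z.d - 2 * (z.m - z.k : ℕ) + 2 * S.ls.card - 1 := by
  have a := ix _ _ _ _ true _ Z.pW q y (fun _ => o) d (fun _ => Z1.o0 y) 0 mj (pg h0 he sm h1)
    subset_rfl (imQ h0 he sm).symm rfl (sa h0 he sm h1 H t) ch (fun b _ => ho b)
    fun π _ l k => by simp [le0 h0 he] at k
  obtain ⟨l, b1, b2⟩ := sm.bal q y H
  have d' : ∀ π, DR y.H π = ∅ := fun π => Finset.filter_eq_empty_iff.2 fun l _ k =>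
    k.1 ((H_univ H t (sm.sdP he).2).ge (mem_univ _))
  have k0 := (brk0 (H.brk _ mj.mem) (t.2 _ mj.mem)).2.2
  have l0 : l = 0 := by have := t.1; omega
  obtain ⟨s1, s2⟩ := sm.sL
  have s3 := sm.sR
  have nz : nz (yD y₀) true (P.C.β o) = -1 := if_pos ⟨rfl, nf⟩
  rw [sumQ h0 he sm] at a
  simp only [rg h0 he sm, Finset.sum_singleton, sd0 h0 he, Finset.card_empty, Z1.Kp, le0 h0 he, d',
    ou_eq h0 he, id, Finset.sum_empty, k0, l0, et, hp_self, nz, Option.elim, cond_true, cond_false,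
    Wt] at a b1 s1 s2 s3
  replace b1 := b1.trans (show kz S Z.i (z.m - z.k) (-z.d) =
    ((-z.d : ℤ) - 2 * (z.m - z.k : ℕ) + 2 * S.ls.card - d0 S Z.i) / 6 from rfl)
  simp only [reduceCtorEq, Option.some.injEq, if_true, if_false] at a
  push_cast at a b1 s1 s3
  exact_mod_cast (by push_cast; linarith :
    (d : ℝ) = ((-z.d - 2 * (z.m - z.k : ℕ) + 2 * S.ls.card - 1 : ℤ) : ℝ))

end

variable (Lm) in
/-- **LEAF MW** -/
theorem mw : MwStmt Lm := fun δ₁ d1 ja y₀ P S z R Z T h0 h1 sm dn ix => by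
  have c : z.c Z.i ≠ 0 := fun e => h1.c (congrFun e _)
  obtain ⟨hJ, hL⟩ := h1.F.J _ c z.m z.k
  have mj : MJ Z.J Z.e z.t.a := Z1.mj h0 h1 ja.ly hJ hL
  obtain ⟨δ, ⟨⟨pm, de⟩, ix, -⟩, hδ⟩ := ((((ja.pm _ _ _ _ _ _ _ _ _ mj).and
    (ja.de _ _ _ _ _ _ _ _ _ mj)).and ix).and (Ioc_mem_nhdsGT d1)).exists
  refine (pm.and de).mono fun Adm ⟨pm, de⟩ dead he hd => ?_
  have g := pg h0 he sm h1
  have u := (sm.sdP he).2
  obtain ⟨D, hD⟩ := pm _ _ g (fun q y => Sol Z.ce q y ∧ Fo Z.Ro y) fun q y a k =>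
    ⟨sa h0 he sm h1 k.1 k.2.t, dn he δ Adm q y a (dead q a) k.1 k.2.t
      (fun b => k.2.F b _ ((ro h0 he sm b).ge rfl)) (by
        obtain ⟨π, e, f⟩ := k.2.fr
        rw [ro h0 he sm] at e
        exact e ▸ f)⟩
  refine ⟨D.comap id, hD.ax.comap id (fun _ _ _ k => k) (fun α 𝒰 y y' _ ⟨q, _, k⟩ s => ?_)
    fun _ k => k, fun q y a s f rg nf => ?_⟩
  · have := s.on (σ := Z.ce) (sh := shS S) Z.pW.P Z.pW.P
    rwa [H_univ k.1 k.2.t u] at this
  obtain ⟨d, b, E, x, ψ, ca, er⟩ := hD.reg q y a ⟨s, f⟩ rg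
  have sa := sa h0 he sm h1 s f.t
  have lm := fun b C o => ja.lm _ _ _ _ _ _ _ _ _ hJ mj.mem C _ g.mem q y b o s
  have e0 : y.β z.t.a false = y.β z.t.a true := (brk0 (s.brk _ mj.mem) (f.t.2 _ mj.mem)).1
  obtain ⟨o, o1, o2, o3⟩ := cls_of (Z.F.xs_a Z.i) P.C (s.crit _ mj.mem false)
    fun C o k => ⟨(lm false C o k).1, (lm false C o k).2.1⟩
  have i := idx h0 he sm h1 ix mj s f.t ⟨b, E, x, ψ, ca⟩ (o := o)
    (fun b => by cases b; exacts [o1, by unfold Z1.Cl; rw [← e0]; exact o1])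
    fun k => nf false (o2.2 k)
  refine ⟨δ, hδ, fun a' m b' => ?_, _, b, E, x, ψ, ⟨ca.ga.b0⟩, g, un_W h0 he sm, un_W h0 he sm,
    H_W h0 he sm, V_W h0 he sm h1, sa.fre, ca.ga.ov, ca.ga.ok, ca.sm, ca.rep, ca.mt, er, d, ca.idx, ?_⟩
  · obtain rfl : a' = z.t.a := he.le m.1
    refine ⟨by cases b'; exacts [o3, e0 ▸ o3], nf b',
      de _ _ g q y a sa.toSolOn (⟨_, m⟩, b') ⟨hp z.t.a b', ?_, hp_self _ _⟩⟩
    cases b'
    exacts [.inl rfl, .inr rfl]
  · rw [V_card h0 he sm h1, hd, i, Fintype.card_coe, Fintype.card_empty,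
      min_eq_right (by omega)]
    push_cast
    ring

end Crest.Agent.X212.Cay24.Mw
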