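import Crest.Agent.X212.Cay24.Out
import Crest.Agent.X212.Rd78.Bas

/-!
# Row 212, RDEC / OUTG (helper24): exponential convergence in one gauge, moving references
-/

set_option autoImplicit false
set_option linter.unusedSectionVars false
noncomputable section
open scoped Manifold ContDiff Topology InnerProductSpace
open MeasureTheory Set Function Filter Real

namespace Crest.Agent.X212.Cay24
open An Cyf70 Neck67 Nd18 Rdc90 Rd78

variable {E3 : Type} [NormedAddCommGroup E3] [NormedSpace ℝ E3] [FiniteDimensional ℝ E3]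
  [MeasurableSpace E3] [BorelSpace E3]
  {H3 : Type} [TopologicalSpace H3] {I3 : ModelWithCorners ℝ E3 H3} [I3.Boundaryless]
  {Y : Type} [TopologicalSpace Y] [ChartedSpace H3 Y] [IsManifold I3 ∞ Y] [T2Space Y]
  [MeasurableSpace Y] [BorelSpace Y] [SecondCountableTopology Y] [CompactSpace Y]
  {κ : Type} [Fintype κ] {lam : Type} [Fintype lam]

theorem outg : OutgStmt I3 Y κ lam := fun D β hD hβ _ _ _ _ _ _ hσ hd hc H1 ⟨_, H2⟩ =>
  outm hβ hD hσ hd hc (fun k => by
    obtain ⟨C, T', h⟩ := H1 k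
    obtain ⟨B, b0, h1, h2⟩ := lb_cy hβ k
    let L : β.m.A →L[ℝ] En (Fin β.m.N) := opL
    refine ⟨B + (‖L‖ + 1) * |C|, C, T', fun s hs => ?_⟩
    obtain ⟨a, φ, u, ζ, q1, q2, q3, q4, h⟩ := h s hs
    refine ⟨(bh β a φ).W, (bh β a φ).Φ, u, ζ, adm_bh hβ q1 q2, fun o => ?_,
      (Lb.add isOpen_univ h2 (lb_fst q2.sm q4)).mono (by nlinarith [norm_nonneg L, abs_nonneg C]), h⟩
    refine (Lb.add isOpen_univ (h1 o) (Lb.clm isOpen_univ L (C := |C|) ?_)).mono
      (by nlinarith [abs_nonneg C])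
    cases o
    exacts [(Lb.const isOpen_univ 0).mono (by simp), lb_fst (q1.sm _) (q3 _)]) H2

end Crest.Agent.X212.Cay24
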