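import Crest.Agent.X212.Cay24.Dt
import Crest.Agent.X212.Rd78.Bas
import Crest.Agent.X212.Tmp64.Cfg

/-!
# Row 212, RDEC / TMP (helper24): the temporal gauge with bounds
-/

set_option autoImplicit false
set_option linter.unusedSectionVars false
noncomputable section
open scoped Manifold ContDiff Topology InnerProductSpace
open MeasureTheory Set Function Filter Real

namespace Crest.Agent.X212.Cay24
open An Sob92 Cyf70 Neck67 Cmp73 Pj41 Eqv71 Tmp64 Nd18 Bki64 Rdc90 Rd78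

variable {E3 : Type} [NormedAddCommGroup E3] [NormedSpace ℝ E3] [FiniteDimensional ℝ E3]
  [MeasurableSpace E3] [BorelSpace E3]
  {H3 : Type} [TopologicalSpace H3] {I3 : ModelWithCorners ℝ E3 H3} [I3.Boundaryless]
  {Y : Type} [TopologicalSpace Y] [ChartedSpace H3 Y] [IsManifold I3 ∞ Y] [T2Space Y]
  [MeasurableSpace Y] [BorelSpace Y] [SecondCountableTopology Y] [CompactSpace Y]
  {κ : Type} [Fintype κ] {lam : Type} [Fintype lam]

/-- integration from the slice `t₀` -/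
theorem int2 {N : Type} [NormedAddCommGroup N] [NormedSpace ℝ N] [CompleteSpace N] {F : Pre I3 Y κ}
    {f : ℝ → ℝ} {p q t₀ C : ℝ} (hf : Continuous f) (h0 : t₀ ∈ Icc p q) (hC : 0 ≤ C) :
    ∀ {k : ℕ} {g : Y × ℝ → N}, Sm (IC I3) g → (∀ y, g (y, t₀) = 0) →
      (∀ s ∈ Icc p q, Lb (cylP F) (win Y s 1) k ((cylP F).D none g) (C * f s)) →
      ∀ s ∈ Icc p q, Lb (cylP F) (win Y s 1) k g (C * (f s + |∫ t in t₀..s, f t|)) := by
  have z : ∀ {k : ℕ} {g : Y × ℝ → N}, Sm (IC I3) g → (∀ y, g (y, t₀) = 0) →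
      (∀ s ∈ Icc p q, Lb (cylP F) (win Y s 1) k ((cylP F).D none g) (C * f s)) →
      ∀ s ∈ Icc p q, Lb (cylP F) (win Y s 1) 0 g (C * (f s + |∫ t in t₀..s, f t|)) :=
    fun {k g} hg g0 h s hs ⟨y, t⟩ hx => by
      have m : ∀ s : ℝ, (y, s) ∈ win Y s 1 := fun s => ⟨trivial, by simp, by simp⟩
      have h1 := (convex_Ioo (s - 1) (s + 1)).norm_image_sub_le_of_norm_hasDerivWithin_le
        (fun τ _ => (hasDerivAt_slice F hg y τ).hasDerivWithinAt)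
        (fun τ hτ => (h s hs).le (x := (y, τ)) ⟨trivial, hτ⟩) (m s).2 hx.2
      have h2 := intervalIntegral.norm_integral_le_abs_of_norm_le (μ := volume) (a := t₀) (b := s)
        (f := fun τ => (cylP F).D none g (y, τ)) (g := fun τ => C * f τ)
        (ae_restrict_of_forall_mem measurableSet_uIoc fun τ hτ =>
          (h τ (uIcc_subset_Icc h0 hs (uIoc_subset_uIcc hτ))).le (m τ))
        ((hf.intervalIntegrable _ _).const_mul C)
      rw [intervalIntegral.integral_eq_sub_of_hasDerivAt (fun τ _ => hasDerivAt_slice F hg y τ)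
        ((sm_slice_snd ((cylP F).sm_D hg none) y).continuous.intervalIntegrable _ _), g0, sub_zero,
        intervalIntegral.integral_const_mul, abs_mul, abs_of_nonneg hC] at h2
      refine ⟨hg _, (norm_le_norm_sub_add _ (g (y, s))).trans ?_⟩
      rw [mul_add]
      refine add_le_add (h1.trans (mul_le_of_le_one_right
        ((norm_nonneg _).trans ((h s hs).le (m s))) ?_)) h2
      exact abs_le.2 ⟨by linarith [hx.2.1], by linarith [hx.2.2]⟩
  intro k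
  induction k with
  | zero => exact z
  | succ k ih =>
    refine fun {g} hg g0 h s hs => ⟨z hg g0 h s hs, fun a => ?_⟩
    cases a with
    | none => exact (h s hs).pred.mono (by gcongr; exact le_add_of_nonneg_right (abs_nonneg _))
    | some a =>
      refine ih ((cylP F).sm_D hg _) (fun y => ?_) (fun s hs => D_comm F hg a ▸ (h s hs).D _) s hs
      rw [D_some F hg, show (fun z => g (z, t₀)) = fun _ => 0 from funext g0]
      exact congrFun (dv_const _) y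

variable {D : YD I3 Y κ lam} {β : YC Y κ lam} {α : Y × ℝ → Fm (Option κ) β.m.A}
  {Φ : Y × ℝ → β.m.V}

/-- the temporal gauge -/
theorem tmp_c {r : ℕ} {c : Cfg (Y × ℝ) (Option κ) lam r} (hD : D.OK) (hc : c.Adm D.B D.G) (t₀ : ℝ) :
    ∃ (u : Y × ℝ → En (Fin c.m.N)) (A : κ → Y × ℝ → En (Fin c.m.N)),
      Iso0 (IC I3) c.m (sqM (fun _ => t₀) c.m) univ u ∧
      (∀ x, D.Z.D none u x = u x ∘L c.W none x) ∧
      (∀ a x, (D.Z.D (some a) u x + c.W (some a) (x.1, t₀) ∘L u x - u x ∘L c.W (some a) x) ∘L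
        trn (u x) = A a x) ∧
      (∀ a x, D.Z.D (some a) u x = A a x ∘L u x - c.W (some a) (x.1, t₀) ∘L u x +
        u x ∘L c.W (some a) x) ∧ (∀ a, Sm (IC I3) (A a)) ∧ (∀ a y, A a (y, t₀) = 0) ∧
      ∀ a x, D.Z.D none (A a) x = -(u x ∘L opL (c.m.Fg D.Z c.W x (none, some a)) ∘L ad (u x)) := by
  obtain ⟨u, k1, k2, k3, -, -, -, k7⟩ := (cyD D).exists_tmp hD.B hc t₀
  obtain ⟨W, hW⟩ : ∃ W : Option κ → Y × ℝ → En (Fin c.m.N), W = (Cy.tmpC D.G c t₀ u).W := ⟨_, rfl⟩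
  have sW : ∀ a, Sm (IC I3) (W a) := fun a x => hW ▸ k1.conn.cc.sm a x
  have sW₀ : ∀ a, Sm I3 fun y => c.W a (y, t₀) := fun a =>
    sm_slice_fst (fun x => hc.conn.cc.sm a x) _
  have sp : Sm I3 fun y => c.m.p (y, t₀) := sm_slice_fst hc.ok.sp _
  have h1 : ∀ a x, D.Z.D a u x = u x ∘L c.W a x - W a x ∘L u x := fun a x => by
    have : D.Z.D a u x + W a x ∘L u x - u x ∘L c.W a x = 0 := hW ▸ k2.par x trivial a
    rw [← sub_eq_zero, ← this]; abel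
  have h2 : ∀ x, u x ∘L trn (u x) = c.m.p (x.1, t₀) := fun x => by
    rw [← ad_trn]; exact (k2.iso.iso x trivial).tgt
  have h3 : ∀ x, c.m.p (x.1, t₀) ∘L u x = u x := fun x => (k2.iso.iso x trivial).left
  refine ⟨u, fun a x => (c.W (some a) (x.1, t₀) - W (some a) x) ∘L c.m.p (x.1, t₀), k2.iso,
    fun x => ?_, fun a x => ?_, fun a x => ?_, fun a x => FSm.cc ((sm_fst (sW₀ _) x).sub (sW _ x))
      (sm_fst sp x), fun a y => ?_, fun a x => ?_⟩
  · rw [h1, show W none x = 0 from hW ▸ k3.W x]; simp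
  · beta_reduce
    rw [h1, ← h2, ← ContinuousLinearMap.comp_assoc, ContinuousLinearMap.sub_comp _ (W _ x)]
    congr 1
    abel
  · rw [h1, ContinuousLinearMap.comp_assoc, h3, ContinuousLinearMap.sub_comp]; abel
  · exact (ContinuousLinearMap.sub_comp _ _ _).trans (sub_eq_zero.2 (hW ▸ (k7 a y).symm))
  · have h4 : D.Z.D none (W (some a)) x ∘L c.m.p (x.1, t₀) =
        opL (cj (u x) (c.m.Fg D.Z c.W x (none, some a))) := hW ▸ ((cyD D).dW_p k1 k3 a x).1.trans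
      (congrArg _ (k2.Fg isOpen_univ hD.B hc k1 trivial _))
    have z1 : dv (IC I3) (D.Z.e none) (fun x => c.W (some a) (x.1, t₀)) x = 0 :=
      congrFun (D_none_fst D.F.toPre (sW₀ _)) x
    have z2 : dv (IC I3) (D.Z.e none) (fun x => c.m.p (x.1, t₀)) x = 0 :=
      congrFun (D_none_fst D.F.toPre sp) x
    rw [ad_trn, ← opL_cj, ← h4, Pre.D_def, dv_cc ((sm_fst (sW₀ _) x).sub (sW _ x)) (sm_fst sp x),
      Wz78.dv_sub' (sm_fst (sW₀ _) x) (sW _ x), z1, z2]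
    simp [Pre.D_def]

theorem tmp_ex (hD : D.OK) (hβ : D.Adm β) (h0 : ∀ y, β.Φ y = 0) (S : Sv D β α Φ) (t₀ : ℝ) :
    ∃ (u : Y × ℝ → En (Fin β.m.N)) (A : Option κ → Y × ℝ → En (Fin β.m.N)),
      Iso0 (IC I3) (cy β).m (cy β).m univ u ∧
      (∀ a x, dA D.Z (zc β α Φ) (cy (bh β (sl β α t₀) 0)) u a x = A a x) ∧
      (∀ x, dP (zc β α Φ) (cy (bh β (sl β α t₀) 0)) u 1 x = u x (Φ x)) ∧ A none = 0 ∧
      (∀ a x, D.Z.D a u x = A a x ∘L u x - (β.W a x.1 + opL (up β (sl β α t₀) x a)) ∘L u x +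
        u x ∘L (β.W a x.1 + opL (α x a))) ∧
      (∀ a, Sm (IC I3) (A (some a))) ∧ (∀ a y, A (some a) (y, t₀) = 0) ∧
      ∀ a x, D.Z.D none (A (some a)) x = -(u x ∘L opL ((zc β α Φ).m.Fg D.Z (zc β α Φ).W x
        (none, some a) : β.m.A) ∘L ad (u x)) := by
  obtain ⟨u, A, k1, k2, k3, k4, k5⟩ := tmp_c hD (adm_zc hβ S) t₀
  change Y × ℝ → En (Fin β.m.N) at u
  change κ → Y × ℝ → En (Fin β.m.N) at A
  replace k2 : ∀ x, D.Z.D none u x = u x ∘L (β.W none x.1 + opL (α x none)) := k2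
  have z : ∀ x, β.W none x.1 + opL (up β (sl β α t₀) x none) = 0 := fun x =>
    (adm_bh hβ (fo_sl S t₀) (φ := 0) ⟨contMDiff_const, fun x => map_zero _⟩).tmp x.1
  refine ⟨u, fun o => o.elim 0 A, k1, fun a x => ?_, fun x => ?_, rfl, fun a x => ?_, k5⟩
  · cases a with
    | none =>
      change (D.Z.D none u x + (β.W none x.1 + opL (up β (sl β α t₀) x none)) ∘L u x -
        u x ∘L (β.W none x.1 + opL (α x none))) ∘L trn (u x) = 0
      rw [z, k2]; simp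
    | some a => exact k3 a x
  · change cs β.m.J (1 : Circle) (u x (β.Φ x.1 + Φ x)) - (β.Φ x.1 + 0) = _
    rw [h0, Circle.coe_one, cs_one, zero_add, add_zero, sub_zero]
  · cases a with
    | none => rw [z, k2]; simp
    | some a => exact k4 a x

theorem ol_fin {X N N' ι : Type} [NormedAddCommGroup N] [NormedSpace ℝ N] [NormedAddCommGroup N']
    [NormedSpace ℝ N'] [Fintype ι] {F : Pre (IC I3) (Y × ℝ) (Option κ)} {O : X → Set (Y × ℝ)}
    {k j : ℕ} {w : X → ℝ} {f : X → Y × ℝ → N} {g : ι → X → Y × ℝ → N'} (h : OL F O k w f)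
    (h' : ∀ a, OL F O j w (g a)) : ∃ C, 0 ≤ C ∧ ∀ i, IsOpen (O i) ∧ 0 ≤ w i ∧
      Lb F (O i) k (f i) (C * w i) ∧ ∀ a, Lb F (O i) j (g a i) (C * w i) := by
  obtain ⟨C, c0, h⟩ := h
  choose B b0 h' using h'
  have s0 : 0 ≤ ∑ a, B a := Finset.sum_nonneg fun a _ => b0 a
  refine ⟨C + ∑ a, B a, by positivity, fun i => ⟨(h i).1, (h i).2.1, (h i).2.2.mono ?_,
    fun a => (h' a i).2.2.mono ?_⟩⟩ <;> refine mul_le_mul_of_nonneg_right ?_ (h i).2.1
  · linarith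
  · linarith [Finset.single_le_sum (fun a _ => b0 a) (Finset.mem_univ a)]

section cmp
variable {X η : Type} [Fintype η] {F : Pre (IC I3) (Y × ℝ) (Option κ)} {O : X → Set (Y × ℝ)}
  {k : ℕ} {w : X → ℝ} {P L : X → Y × ℝ → En η}

theorem ol_cp (h : OL F O k 1 P) (h' : OL F O k w L) : OL F O k w fun i x => P i x ∘L L i x :=
  h.bilR (ContinuousLinearMap.compL ℝ _ _ _) h'

theorem ol_cp' (h : OL F O k w P) (h' : OL F O k 1 L) : OL F O k w fun i x => P i x ∘L L i x :=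
  h'.bilR (ContinuousLinearMap.compL ℝ (Eu η) (Eu η) (Eu η)).flip h

theorem ol_ad (h : OL F O k w P) : OL F O k w fun i x => ad (P i x) := h.clm adL

end cmp

section fam
variable {X : Type} (p q : X → ℝ)

/-- the windows of a family of intervals -/
abbrev Wi : Type := {z : X × ℝ // z.2 ∈ Icc (p z.1) (q z.1)}

variable {p q} {t₀ : X → ℝ} {f : X → ℝ → ℝ}

theorem tmp_bd {η : Type} [Fintype η] {F : Pre I3 Y κ} {j : ℕ} {u : X → Y × ℝ → En η}
    {A W W₀ : X → Option κ → Y × ℝ → En η} {G : X → κ → Y × ℝ → En η}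
    (hf : ∀ i, t₀ i ∈ Icc (p i) (q i) ∧ Continuous (f i))
    (h : ∀ z : Wi p q, 0 ≤ f z.1.1 z.1.2 ∧ f z.1.1 z.1.2 ≤ 1 ∧ |∫ t in t₀ z.1.1..z.1.2, f z.1.1 t| ≤ 1)
    (k1 : ∀ i, Lb (cylP F) univ 0 (u i) 1) (k4 : ∀ i, A i none = 0)
    (k5 : ∀ i a x, (cylP F).D a (u i) x = A i a x ∘L u i x - W₀ i a x ∘L u i x + u i x ∘L W i a x)
    (k6 : ∀ i a, Sm (IC I3) (A i (some a))) (k7 : ∀ i a y, A i (some a) (y, t₀ i) = 0)
    (k8 : ∀ i a x, (cylP F).D none (A i (some a)) x = -(u i x ∘L G i a x ∘L ad (u i x)))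
    (b1 : ∀ a, OL (cylP F) (fun z : Wi p q => win Y z.1.2 1) j 1 fun z => W z.1.1 a)
    (b2 : ∀ a, OL (cylP F) (fun z : Wi p q => win Y z.1.2 1) j 1 fun z => W₀ z.1.1 a)
    (b3 : ∀ a, OL (cylP F) (fun z : Wi p q => win Y z.1.2 1) j (fun z => f z.1.1 z.1.2)
      fun z => G z.1.1 a) :
    (OL (cylP F) (fun z : Wi p q => win Y z.1.2 1) j 1 fun z => u z.1.1) ∧
      ∀ a, OL (cylP F) (fun z : Wi p q => win Y z.1.2 1) j
        (fun z => f z.1.1 z.1.2 + |∫ t in t₀ z.1.1..z.1.2, f z.1.1 t|) fun z => A z.1.1 a := by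
  have w0 := fun z => add_nonneg (h z).1 (abs_nonneg (∫ t in t₀ z.1.1..z.1.2, f z.1.1 t))
  have b4 : ∀ i ≤ j, (OL (cylP F) (fun z : Wi p q => win Y z.1.2 1) i 1 fun z => u z.1.1) → ∀ a,
      OL (cylP F) (fun z : Wi p q => win Y z.1.2 1) i
        (fun z => f z.1.1 z.1.2 + |∫ t in t₀ z.1.1..z.1.2, f z.1.1 t|) fun z => A z.1.1 a :=
    fun i hi hu a => by
      cases a with
      | none => exact ⟨0, le_rfl, fun z => ⟨win_op _ _, w0 z,
          ((Lb.const (win_op _ _) 0).mono (by simp)).congr (win_op _ _) fun x _ => congrFun (k4 _) x⟩⟩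
      | some a =>
        obtain ⟨C, c0, hC⟩ := (ol_cp hu (ol_cp' ((b3 a).of_le hi) (ol_ad hu))).neg.congr
          fun z x _ => k8 z.1.1 a x
        exact ⟨C, c0, fun z => ⟨win_op _ _, w0 z, int2 (hf _).2 (hf _).1 c0 (k6 _ a) (k7 _ a)
          (fun s hs => (hC ⟨(z.1.1, s), hs⟩).2.2) _ z.2⟩⟩
  have z0 : OL (cylP F) (fun z : Wi p q => win Y z.1.2 1) 0 1 fun z => u z.1.1 :=
    OL.of fun z => ⟨win_op _ _, zero_le_one, (k1 _).sub (subset_univ _)⟩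
  have b5 : ∀ i ≤ j, OL (cylP F) (fun z : Wi p q => win Y z.1.2 1) i 1 fun z => u z.1.1 := fun i => by
    induction i with
    | zero => exact fun _ => z0
    | succ i ih =>
      intro hi
      have hi' : i ≤ j := by omega
      have hu := ih hi'
      obtain ⟨C, c0, hC⟩ := ol_fin z0 (g := fun a z => (cylP F).D a (u z.1.1)) fun a => by
        obtain ⟨C, c0, hC⟩ := b4 i hi' hu a
        have : OL (cylP F) (fun z : Wi p q => win Y z.1.2 1) i 1 fun z => A z.1.1 a :=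
          ⟨C * 2, by positivity, fun z => ⟨win_op _ _, zero_le_one, (hC z).2.2.mono (by
            rw [Pi.one_apply, mul_one]; gcongr; linarith [(h z).2.1, (h z).2.2])⟩⟩
        exact (((ol_cp this hu).sub (ol_cp ((b2 a).of_le hi') hu)).add
          (ol_cp hu ((b1 a).of_le hi'))).congr fun z x _ => k5 _ a x
      exact ⟨C, c0, fun z => ⟨(hC z).1, (hC z).2.1, (hC z).2.2⟩⟩
  exact ⟨b5 j le_rfl, b4 j le_rfl (b5 j le_rfl)⟩

variable (D β) in
/-- the hypotheses of `TmpStmt` -/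
def TH (j : ℕ) (α : Y × ℝ → Fm (Option κ) β.m.A) (Φ : Y × ℝ → β.m.V) (p q t₀ : ℝ) (f : ℝ → ℝ) :
    Prop := Sv D β α Φ ∧ t₀ ∈ Icc p q ∧ Continuous f ∧
  ∀ s ∈ Icc p q, 0 ≤ f s ∧ f s ≤ 1 ∧ |∫ t in t₀..s, f t| ≤ 1 ∧
    Lb D.Z.toPre (win Y s 1) j α 1 ∧ Lb D.Z.toPre (win Y s 1) j Φ (f s) ∧
    Lb D.Z.toPre (win Y s 1) j ((zc β α Φ).m.Fg D.Z (zc β α Φ).W) (f s)

theorem tmp_fam (hD : D.OK) (hβ : D.Adm β) (h0 : ∀ y, β.Φ y = 0) (j : ℕ)
    {α : X → Y × ℝ → Fm (Option κ) β.m.A} {Φ : X → Y × ℝ → β.m.V}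
    (H : ∀ i, TH D β j (α i) (Φ i) (p i) (q i) (t₀ i) (f i)) :
    ∃ K, 0 ≤ K ∧ ∀ i, ∃ g : Y × ℝ → En (Fin β.m.N), ∀ s ∈ Icc (p i) (q i),
      Cl D.Z (zc β (α i) (Φ i)) (cy (bh β (sl β (α i) (t₀ i)) 0)) g (fun _ => 1) (win Y s 1) j
        (K * (f i s + |∫ t in t₀ i..s, f i t|)) := by
  choose u A k1 k2 k3 k4 k5 k6 k7 k8 using fun i => tmp_ex hD hβ h0 (H i).1 (t₀ i)
  have o : ∀ z : Wi p q, IsOpen (win Y z.1.2 1) := fun z => win_op _ _
  have h := fun z : Wi p q => (H z.1.1).2.2.2 _ z.2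
  have a1 : OL (cylP D.F.toPre) _ j 1 fun z : Wi p q => α z.1.1 :=
    OL.of fun z => ⟨o z, zero_le_one, (h z).2.2.2.1⟩
  have a2 : OL (cylP D.F.toPre) (fun z : Wi p q => win Y z.1.2 1) j 1
      fun z x => α z.1.1 (x.1, t₀ z.1.1) := OL.of fun z => ⟨o z, zero_le_one, by
    simpa using (lb_fst (sm_slice_fst (H z.1.1).1.sα _) (cb_slc (O := win Y (t₀ z.1.1) 1)
      (fun y => ⟨trivial, by simp, by simp⟩) (H z.1.1).1.sα
      ((H z.1.1).2.2.2 _ (H z.1.1).2.1).2.2.2.1)).sub (subset_univ _)⟩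
  have a3 : OL (N := Fm (Option κ × Option κ) β.m.A) (cylP D.F.toPre) _ j (fun z => f z.1.1 z.1.2)
      fun z : Wi p q => (zc β (α z.1.1) (Φ z.1.1)).m.Fg D.Z (zc β (α z.1.1) (Φ z.1.1)).W :=
    OL.of fun z => ⟨o z, (h z).1, (h z).2.2.2.2.2⟩
  have a4 : OL (cylP D.F.toPre) _ j (fun z => f z.1.1 z.1.2) fun z : Wi p q => Φ z.1.1 :=
    OL.of fun z => ⟨o z, (h z).1, (h z).2.2.2.2.1⟩
  have b1 : ∀ a, OL (cylP D.F.toPre) (fun z : Wi p q => win Y z.1.2 1) j 1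
      fun z x => β.W a x.1 + opL (α z.1.1 x a) := fun a =>
    (OL.fst o j (sm_W hβ a)).add ((a1.clm (Map77.pj _ a)).clm opL)
  have b2 : ∀ a, OL (cylP D.F.toPre) (fun z : Wi p q => win Y z.1.2 1) j 1
      fun z x => β.W a x.1 + opL (up β (sl β (α z.1.1) (t₀ z.1.1)) x a) := fun a =>
    (OL.fst o j (sm_W hβ a)).add (OL.clm opL (by
      cases a
      exacts [a2.clm 0, a2.clm (Map77.pj _ (some _))]))
  have b3 := fun a : κ => (a3.clm (Map77.pj β.m.A (none, some a))).clm opL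
  obtain ⟨hu, hA⟩ := tmp_bd (F := D.F.toPre) (j := j) (fun i => ⟨(H i).2.1, (H i).2.2.1⟩)
    (fun z => ⟨(h z).1, (h z).2.1, (h z).2.2.1⟩) (u := u) (A := A)
    (W := fun i a x => β.W a x.1 + opL (α i x a))
    (W₀ := fun i a x => β.W a x.1 + opL (up β (sl β (α i) (t₀ i)) x a))
    (G := fun i a x => opL ((zc β (α i) (Φ i)).m.Fg D.Z (zc β (α i) (Φ i)).W x
      (none, some a) : β.m.A))
    (fun i x _ => ⟨(k1 i).su x trivial, norm_iso ((k1 i).iso x trivial)⟩) k4 k5 k6 k7 k8 b1 b2 b3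
  obtain ⟨K, k0, hK⟩ := ol_fin ((hu.app a4).wt fun z => le_add_of_nonneg_right (abs_nonneg _)) hA
  exact ⟨K, k0, fun i => ⟨u i, fun s hs => ⟨win_op _ _, (k1 i).mono (subset_univ _),
    fun a => ((hK ⟨(i, s), hs⟩).2.2.2 a).congr (win_op _ _) fun x _ => k2 i a x,
    (hK ⟨(i, s), hs⟩).2.2.1.congr (win_op _ _) fun x _ => k3 i x⟩⟩⟩

end fam

theorem tmp : TmpStmt I3 Y κ lam := fun D β hD hβ h0 j =>
  let ⟨K, k0, h⟩ := tmp_fam (X := {d : ((Y × ℝ → Fm (Option κ) β.m.A) × (Y × ℝ → β.m.V)) ×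
      (ℝ × ℝ) × ℝ × (ℝ → ℝ) // TH D β j d.1.1 d.1.2 d.2.1.1 d.2.1.2 d.2.2.1 d.2.2.2}) (α := fun d => d.1.1.1) (Φ := fun d => d.1.1.2)
    (p := fun d => d.1.2.1.1) (q := fun d => d.1.2.1.2) (t₀ := fun d => d.1.2.2.1)
    (f := fun d => d.1.2.2.2) hD hβ h0 j fun d => d.2
  ⟨j, K, k0, fun α Φ S p q t₀ f h1 h2 h3 => h ⟨((α, Φ), (p, q), t₀, f), S, h1, h2, h3⟩⟩

end Crest.Agent.X212.Cay24
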