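import Crest.Agent.X212.Cay24.Alg

/-!
# Row 212, DEC / CAY (helper24): one step of the gauge group
-/

set_option autoImplicit false
set_option linter.unusedSectionVars false
noncomputable section
open scoped Manifold ContDiff Topology InnerProductSpace
open MeasureTheory Set Function Filter Real

namespace Crest.Agent.X212.Cay24
open An Map77 Sob92 Dec35
open Wz78 (nab nabE)

variable {E : Type} [NormedAddCommGroup E] [NormedSpace ℝ E] [FiniteDimensional ℝ E]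
  [MeasurableSpace E] [BorelSpace E]
  {HM : Type} [TopologicalSpace HM] {I : ModelWithCorners ℝ E HM} [I.Boundaryless]
  {M : Type} [TopologicalSpace M] [ChartedSpace HM M] [IsManifold I ∞ M] [MeasurableSpace M]
  [T2Space M] [BorelSpace M] [SecondCountableTopology M] {ι : Type} [Fintype ι]
  {lam : Type} [Fintype lam] {T : Type} {S : Set T} {ψ : T → M → ℝ} {k : ℕ} {s : T → ℝ}

section fam
variable {κ : Type} [Fintype κ] [DecidableEq κ] {F : Pre I M ι} {ξ : T → M → HS κ} {p : M → En κ}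
  (o : Ok F S ψ)
include o

theorem ob_yy (hk : 7 ≤ k) (h : Ob F S ψ k ξ s) (h0 : ∀ t ∈ S, 0 ≤ s t) (h1 : ∀ t ∈ S, s t ≤ 1) :
    ∃ r > 0, Ob F {t ∈ S | s t ≤ r} ψ k (fun t x => yy (ξ t x)) fun t => s t * s t := by
  obtain ⟨c, hc⟩ := o.sup
  have hf : Ob F S ψ k (fun t x => ‖ξ t x‖ ^ 2 / 64) fun t => s t * s t :=
    (Ob.bil o ((1 / 64 : ℝ) • innerSL ℝ) (Lev.self hk) h h).congr fun t _ x => by
      rw [← real_inner_self_eq_norm_sq, div_eq_inv_mul, one_div]; rfl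
  have hy : ∀ t ∈ S, Fl F fun x => yy (ξ t x) := fun t ht => by
    have := fl_mul (-ContinuousLinearMap.mul ℝ ℝ)
      (Cb_nem (cd_yy.add (contDiff_const (c := 1))) (hc.Cb (h.fl ht))) (hf.fl ht)
    convert this using 2 with x
    simp only [neg_apply, ContinuousLinearMap.mul_apply']
    linarith [yy_mul (ξ t x)]
  set n := fun t => W2 F k (ψ t) fun x => yy (ξ t x) with hn
  have n0 : ∀ t, 0 ≤ n t := fun t => W2_nn _ _ _
  have ss : ∀ t, 0 ≤ s t * s t := fun t => mul_self_nonneg _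
  obtain ⟨K, k0, hK⟩ : Ob F S ψ k (fun t x => yy (ξ t x)) fun t => s t * s t + s t * s t * n t :=
    (Ob.sub' o (Ob.neg o (hf.mono fun t _ => le_add_of_nonneg_right (mul_nonneg (ss t) (n0 t))))
      ((Ob.bil o (ContinuousLinearMap.mul ℝ ℝ) (Lev.self hk) hf (Ob.self hy)).mono
        fun t _ => le_add_of_nonneg_left (ss t))).congr fun t _ x => by
      simp only [ContinuousLinearMap.mul_apply']
      linarith [yy_mul (ξ t x)]
  refine ⟨1 / (2 * K + 1), by positivity, 2 * K, by positivity, fun t ⟨ht, hr⟩ => ⟨hy t ht, ?_⟩⟩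
  have a : n t ≤ K * (s t * s t + s t * s t * n t) := (hK t ht).2
  rw [le_div_iff₀ (by positivity)] at hr
  have b : K * (s t * s t) ≤ 1 / 2 := by
    nlinarith [mul_nonneg k0 (mul_nonneg (h0 t ht) (sub_nonneg.2 (h1 t ht))), h0 t ht]
  change n t ≤ _
  nlinarith [mul_le_mul_of_nonneg_right b (n0 t)]

variable (hk : 7 ≤ k) (hp : F.Cb p) (h : Ob F S ψ k ξ s) (h0 : ∀ t ∈ S, 0 ≤ s t)
  (h1 : ∀ t ∈ S, s t ≤ 1) (hy : Ob F S ψ k (fun t x => yy (ξ t x)) fun t => s t * s t)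
include hk hp h h0 h1 hy

theorem ob_ee : Ob F S ψ k (fun t x => ee (p x) (ξ t x)) fun t => s t * s t :=
  (Ob.add o (Ob.mul o (ContinuousLinearMap.lsmul ℝ ℝ).flip (Cb_smul (Cb_const (2 : ℝ)) hp) hy)
    ((Ob.bil o (ContinuousLinearMap.lsmul ℝ ℝ) (Lev.self hk) hy (Ob.clm o opL h)).mono fun t ht =>
      mul_le_of_le_one_right (mul_self_nonneg _) (h1 t ht))).congr fun _ _ _ => smul_add _ _ _

theorem ob_EE : Ob F S ψ k (fun t x => EE (p x) (ξ t x)) s :=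
  Ob.add o (Ob.clm o opL h) ((ob_ee o hk hp h h0 h1 hy).mono fun t ht =>
    mul_le_of_le_one_right (h0 t ht) (h1 t ht))

omit hk hp h h0 h1 hy in
theorem ob_base {W : ι → T → M → En κ} {Φ : T → M → Eu κ} (hW : ∀ a, Ob F S ψ k (W a) s)
    (hΦ : Ob F S ψ k Φ s) : Ob F S ψ k (fun t => base (fun a => W a t) (Φ t)) s :=
  Ob.add o (Ob.clm o (i1 (Fm ι (HS κ)) (Eu κ)) (Ob.lp o fun a => Ob.clm o hsL (hW a)))
    (Ob.clm o (i2 (Fm ι (HS κ)) (Eu κ)) hΦ)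

omit hk hp h h0 h1 hy in
theorem ob_nabE {W : ι → M → En κ} {a : ι} (hW : F.Cb (W a)) {f : T → M → En κ}
    (h : Ob F S ψ (k + 1) f s) : Ob F S ψ k (fun t => nabE I F.e W a (f t)) s :=
  Ob.nab o (A := fun a y => Wz78.ad _ (W a y)) (Cb_clm _ hW) h

end fam

variable {B : Base M ι lam} {G : Geo I M ι lam} {r : ℕ} {c : Cfg M ι lam r} {ξ : T → M → c.m.A}
  {u : T → M → Cv c} {s' : T → ℝ} (b : Bs B G c) (o : Ok G.F.toPre S ψ)
include b o

theorem ob_dg (l : ℝ) (h : Ob G.F.toPre S ψ (k + 1) ξ s) :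
    Ob G.F.toPre S ψ k (fun t => dg G.F c l (ξ t)) s := by
  have h1 := Ob.lp o fun a => Ob.neg o (Ob.nab o (A := c.m.adW c.W) (Cb_clm Wz78.adcL (b.cW a)) h)
  have h2 := Ob.clm o (l • ContinuousLinearMap.id ℝ c.m.V)
    (Ob.mul o (opL (κ := Fin c.m.N)).flip b.cΦ (h.of_le k.le_succ))
  exact Ob.add o (Ob.clm o (i1 (Fm ι c.m.A) c.m.V) h1) (Ob.clm o (i2 (Fm ι c.m.A) c.m.V) h2)

theorem ob_RR (hk : 7 ≤ k) (h : Ob G.F.toPre S ψ (k + 1) ξ s) (h0 : ∀ t ∈ S, 0 ≤ s t)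
    (h1 : ∀ t ∈ S, s t ≤ 1) (hu : Ob G.F.toPre S ψ k u s') (h0' : ∀ t ∈ S, 0 ≤ s' t)
    (hy : Ob G.F.toPre S ψ (k + 1) (fun t x => yy (ξ t x)) fun t => s t * s t) :
    Ob G.F.toPre S ψ k (fun t => RR G.F c (ξ t) (u t)) fun t => (s t + s' t) * s t := by
  have hk' := hk.trans k.le_succ
  have L := Lev.self hk
  have e1 := ob_ee o hk' b.dat.p h h0 h1 hy
  have e2 := ob_EE o hk' b.dat.p h h0 h1 hy
  have e3 := (ob_EE o hk' b.dat.p (Ob.neg o h) h0 h1 (hy.congr fun _ _ _ => yy_neg _)).of_le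
    k.le_succ
  have m1 : ∀ t ∈ S, s t * s t ≤ (s t + s' t) * s t := fun t ht => by
    nlinarith [mul_nonneg (h0 t ht) (h0' t ht)]
  have m2 : ∀ t ∈ S, s t * s' t ≤ (s t + s' t) * s t := fun t ht => by
    nlinarith [mul_self_nonneg (s t)]
  let μ := ContinuousLinearMap.mul ℝ (En (Fin c.m.N))
  refine ob_base o (fun a => ?_) (Ob.add o
    ((Ob.mul o (ContinuousLinearMap.id ℝ (En (Fin c.m.N))).flip b.cΦ (e1.of_le k.le_succ)).mono m1)
    ((Ob.bil o (ContinuousLinearMap.id ℝ (En (Fin c.m.N))) L (e2.of_le k.le_succ)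
      (Ob.clm o fp hu)).mono m2))
  have A := Ob.clm o (oa a) hu
  have a1 := Ob.bil o μ L (e2.of_le k.le_succ) A
  exact Ob.sub' o (Ob.sub' o (Ob.add o (Ob.add o (a1.mono m2)
    ((Ob.bil o μ L A e3).mono fun t ht => (mul_comm _ _).trans_le (m2 t ht)))
    ((Ob.bil o μ L a1 e3).mono fun t ht => (mul_le_of_le_one_right
      (mul_nonneg (h0 t ht) (h0' t ht)) (h1 t ht)).trans (m2 t ht)))
    ((ob_nabE o (b.cW a) e1).mono m1)) ((Ob.bil o μ L (ob_nabE o (b.cW a) e2) e3).mono m1)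

omit b o in
theorem cay : CayStmt I M ι lam := by
  intro B G c b k hk D
  obtain ⟨C, hC⟩ := b.tame
  let F := G.F.toPre
  let S : Set ((M → ℝ) × (M → Cv c) × (M → c.m.A)) := {t | (∃ d, Wd F t.1 d D) ∧ Fl F t.2.1 ∧
    Fl F t.2.2 ∧ W2 F (k + 1) t.1 t.2.2 ≤ 1}
  have o : Ok F S (·.1) := ⟨exists_supF hC, D, fun t ht => ht.1⟩
  have h := Ob.self (k := k + 1) (ψ := (·.1)) (S := S) (f := (·.2.2)) fun t ht => ht.2.2.1
  have hu := Ob.self (k := k) (ψ := (·.1)) (S := S) (f := (·.2.1)) fun t ht => ht.2.1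
  obtain ⟨r, r0, hy⟩ := ob_yy o (hk.trans k.le_succ) h (fun _ _ => W2_nn _ _ _) fun t ht => ht.2.2.2
  have sub := sep_subset S fun t => W2 F (k + 1) t.1 t.2.2 ≤ r
  obtain ⟨K, k0, hK⟩ := ob_RR b (o.sub sub) hk (h.sub sub) (fun _ _ => W2_nn _ _ _)
    (fun t ht => ht.1.2.2.2) (hu.sub sub) (fun _ _ => W2_nn _ _ _) hy
  refine ⟨√K, sqrt_nonneg _, min 1 r, by positivity, fun ψ d u ξ w fu tu fξ hξ hr => ?_⟩
  have n1 : 0 ≤ nw F (k + 1) ψ ξ := sqrt_nonneg _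
  have n2 : 0 ≤ nw F k ψ u := sqrt_nonneg _
  have q : W2 F (k + 1) ψ ξ ≤ min 1 r := by
    rw [← nw_sq, sq]
    exact (mul_le_of_le_one_right n1 (hr.trans (min_le_left _ _))).trans hr
  have m : (ψ, u, ξ) ∈ S := ⟨⟨d, w⟩, fu, fξ, q.trans (min_le_left _ _)⟩
  obtain ⟨fR, hR⟩ := hK (ψ, u, ξ) ⟨m, q.trans (min_le_right _ _)⟩
  have e := uu_sub b.adm fξ.sm hξ tu
  refine ⟨ga c ξ, uu G.F c ξ u, ?_, tg_uu b.hB b.hG b.adm fξ.sm hξ tu,
    eq0_uu b.hB b.adm fξ.sm hξ tu, ?_⟩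
  · have := fl_add (fl_add fR ((ob_dg b o 1 h).fl m)) fu
    simpa only [← e, sub_add_cancel] using this
  · rw [funext e]
    refine nrm_le_of_sq (by positivity) (hR.trans ?_)
    simp only [← nw_sq]
    rw [mul_pow, mul_pow, sq_sqrt k0, mul_assoc]
    gcongr
    nlinarith [mul_nonneg n1 n2]

end Crest.Agent.X212.Cay24
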