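import Crest.Agent.X212.Gl67.Leaf

/-!
# Row 212, GL (helper24): basic facts on the sides of a gluing problem
-/

set_option autoImplicit false
set_option linter.unusedSectionVars false
noncomputable section
open scoped Manifold ContDiff Topology InnerProductSpace
open MeasureTheory Set Function Filter Real

namespace Crest.Agent.X212.Cay24
open An An.Job M Nd18 Mod61 Prm93 Gj67 Sob92
open Gl67 (Sid Cm PP ka ka_zero ka_nonneg)
open Map77 (Cf fa fp)

section gen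
variable {E : Type} [NormedAddCommGroup E] [NormedSpace ℝ E] [FiniteDimensional ℝ E]
  [MeasurableSpace E] [BorelSpace E]
  {HM : Type} [TopologicalSpace HM] {I : ModelWithCorners ℝ E HM} [I.Boundaryless]
  {M : Type} [TopologicalSpace M] [ChartedSpace HM M] [IsManifold I ∞ M]
  [MeasurableSpace M] [T2Space M] [BorelSpace M] [SecondCountableTopology M]
  {ι lam h : Type} [Fintype ι] [Fintype lam] [Fintype h]
  {T U Up R : Type} [NormedAddCommGroup T] [NormedSpace ℝ T] [NormedAddCommGroup U]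
  [NormedSpace ℝ U] [NormedAddCommGroup Up] [NormedSpace ℝ Up] [NormedAddCommGroup R]
  [NormedSpace ℝ R] {N r : ℕ} {Jc : En (Fin N)} {𝔉 : Mod61.Fam I M ι lam T}

theorem pg_congr {M' : Type} {p : M → En (Fin N)} {p' : M' → En (Fin N)}
    {ρ : ι → M → En (Fin N)} {ρ' : ι → M' → En (Fin N)} {j : M → CL (Eu lam) (En (Fin N))}
    {j' : M' → CL (Eu lam) (En (Fin N))} {x : M} {x' : M'} (hp : p x = p' x')
    (hρ : ∀ a, ρ a x = ρ' a x') (hj : j x = j' x') :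
    (Md.mk N Jc p ρ j).pg x = (Md.mk N Jc p' ρ' j').pg x' := by
  have : (Md.mk N Jc p ρ j).gS x = (Md.mk N Jc p' ρ' j').gS x' := Submodule.ext fun ξ => by
    simp only [← SetLike.mem_coe, Md.gS, Submodule.coe_set_mk, AddSubmonoid.coe_set_mk,
      AddSubsemigroup.coe_set_mk, mem_ofPred_eq, hp, hρ, hj]
  simp only [Md.pg, this]

theorem cb_st {F : Pre I M ι} {g : M → ℝ} (hg : Sm I g) (hc : ∀ a, F.Cb (F.D a g)) (t : ℝ) :
    F.Cb fun x => smoothTransition (g x - t) :=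
  let ⟨_, hC⟩ := Cb_unif hc
  ⟨_, (Gl67.cd_st t).contMDiff.comp hg, fun k =>
    Gl67.CB_comp hg (fun a => (hC a).2 k) (Gl67.cd_st t) (Gl67.bd_st k t)⟩

/-- smooth points are admissible -/
theorem sd_ad0 {s : Sid 𝔉 N Jc U Up R} (H : s.OK) (c : Cm N r h R) {w : M → Cf ι (Fin N)}
    (hw : Sm I w) (pw : ∀ x, s.bd.pC x (w x) = w x) {q : PP T U r h N} (hq : q.1 ∈ 𝔉.Q) :
    Eqv71.Ad0 (s.cfg c w q) 𝔉.B (𝔉.G q.1) := by
  have : (s.o H).B0 := ⟨rfl⟩
  have k := isConn_W H.fam (o := s.o H) hq (α := fun x => fa (w x) + s.b x q.2.1)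
    ((fa.contMDiff.comp hw).add ((Cb.sm H.cb).clm_apply contMDiff_const)) fun x a => by
      have e1 : s.P1 x (fa (w x)) = fa (w x) := (Map77.f2_ps x _).symm.trans (congrArg fa (pw x))
      have e3 : s.b x q.2.1 a ∈ s.md.gS x := by
        rw [← H.pb x q.2.1, Md.p1, Wz78.idx_apply]
        exact Submodule.sum_mem _ fun b _ => Submodule.smul_mem _ _ (Wz78.pg_mem x _)
      exact add_mem (idx_mem (o := s.o H) e1 a) e3
  rw [Ref.W, Ref.A_eq] at k
  refine ⟨H.ok, k, (Cb.sm H.cΦ).add (fp.contMDiff.comp hw), fun x => ?_⟩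
  have e2 : s.Pp x (fp (w x)) = fp (w x) := (Map77.s2_ps x _).symm.trans (congrArg fp (pw x))
  exact (map_add _ _ _).trans (congrArg₂ (· + ·) (H.pos x) (ind_fix e2))

end gen

theorem fl_deep {u R : ℝ} (hR : 1 ≤ R) (h : R < u - fl u) : R < u := by
  by_cases h1 : 1 ≤ u
  · rwa [fl_ge h1, sub_zero] at h
  · have := smoothTransition.nonneg (2 * u - 1)
    have := smoothTransition.le_one (2 * u - 1)
    by_cases h2 : u ≤ 1 / 2
    · rw [fl_le h2] at h; linarith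
    · rw [fl] at h; nlinarith

variable {Wi : Type} {X : Mf 4} {A κ lam : Type} [Fintype A] [Fintype κ] [Fintype lam]
  [DecidableEq lam] {M : Mark X A κ} {W : World M} {L : ML M lam} {Λ : Lns W L}
  {A' h : Type} [Fintype A'] [DecidableEq A'] [Fintype h] {r n : ℕ}
  {J : Job Wi Λ A' h r n} {σ : Cel A'} {a : A'}
  {U Up R : Type} [NormedAddCommGroup U] [NormedSpace ℝ U] [NormedAddCommGroup Up]
  [NormedSpace ℝ Up] [NormedAddCommGroup R] [NormedSpace ℝ R] {d : Dat J σ a U Up R}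
  {q₀ : Wi →₀ ℝ} {δ : ℝ} {V : Type} [NormedAddCommGroup V] [NormedSpace ℝ V]

variable (d) in
theorem th1 : (J.Θ d.y.s).2 d.x = 1 := (d.hb false).2.1.2 (d.hb false).2.2.2

open Classical in
variable (d) in
/-- the coordinate in the cross-section on the ends of the face -/
def pY (x : (W.Z (J.cf a)).M) : d.Y :=
  if x ∈ (d.KS false).ψ.target then ((d.KS false).ψ.symm x).1 else ((d.KS true).ψ.symm x).1

variable (d) in
/-- the cut-off of the pre-gluing on the face -/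
def st (τ : ℝ) (x : (W.Z (J.cf a)).M) : ℝ := smoothTransition (d.hS x - (d.la τ - 2))

variable (d) in
/-- the geometric facts at one neck parameter -/
structure At (τ : d.Ta) : Prop where
  la : 2 < d.la τ
  φ : An.Iso d.FS.F0.toPre (d.FX τ).F0.toPre (d.φ τ) ∧
    (d.φ τ).source = d.hS ⁻¹' Iio (d.la τ) ∧ (d.φ τ).target = d.hX τ ⁻¹' Iio (d.la τ) ∧
    ∀ z ∈ (d.φ τ).source, d.hX τ (d.φ τ z) = d.hS z ∧
      ∀ i, (d.Gh τ).a i (d.φ τ z) = d.FS.G0.a i z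
  ψ : An.Iso d.D.Z.toPre (d.FX τ).F0.toPre (d.ψ τ) ∧
    (d.ψ τ).source = d.hZ τ ⁻¹' Ioi 0 ∧ (d.ψ τ).target = d.hX τ ⁻¹' Ioi 0 ∧
    ∀ z ∈ (d.ψ τ).source, d.hX τ (d.ψ τ z) = d.hZ τ z ∧
      ∀ i, (d.Gh τ).a i (d.ψ τ z) = d.D.G.a i z
  ovl : ∀ z ∈ (d.φ τ).source, ∀ z' ∈ (d.ψ τ).source, d.φ τ z = d.ψ τ z' →
    ∃ b, z = (d.KS b).ψ (z'.1, z'.2 - pm b * (nl τ / 2)) ∧
      d.R0 < -pm b * (z'.2 - pm b * (nl τ / 2)) ∧ 1 ≤ pm b * z'.2

theorem ev_at (g : d.Geo) : ∀ᶠ τ in d.lg, At d τ := by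
  filter_upwards [g.la.eventually_gt_atTop 2, g.φ, g.ψ, g.ovl] with τ h1 h2 h3 h4
    using ⟨h1, h2, h3, h4⟩

theorem mix_hi {τ : d.Ta} (f : (W.Z (J.cf a)).M → V) (g : d.Y × ℝ → V) {z : d.Y × ℝ}
    (hz : z ∈ (d.ψ τ).source) (k : d.la τ - 1 ≤ d.hX τ (d.ψ τ z)) : d.mix τ f g (d.ψ τ z) = g z := by
  rw [Dat.mix, Dat.χ, smoothTransition.one_of_one_le (by linarith), (d.ψ τ).left_inv hz]
  simp

section ok
variable (hJ : J.OK)
include hJ

theorem KS_src {b : Bool} {z : d.Y × ℝ} : z ∈ (d.KS b).ψ.source ↔ 0 < -pm b * z.2 := by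
  have k := hJ.nk _ _ _ _ (d.hb b)
  rw [Nk.mem_src, Nk.J, k.lo, k.hi]
  cases b <;> simp [Jv, pm]

theorem KS_dj {x} (h0 : x ∈ (d.KS false).ψ.target) : x ∉ (d.KS true).ψ.target := fun h1 => by
  rw [Cht98.isNk_target (d.hb _) (hJ.nk _ _ _ _ (d.hb _)), th1] at h0 h1
  have := h0.2.resolve_left (lt_irrefl _)
  have := h1.2.resolve_left (lt_irrefl _)
  simp only [Option.getD_some, if_true, Bool.false_eq_true, if_false] at *
  linarith

theorem pY_ψ {b : Bool} {z : d.Y × ℝ} (hz : z ∈ (d.KS b).ψ.source) : pY d ((d.KS b).ψ z) = z.1 := by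
  have k := (d.KS b).ψ.map_source hz
  cases b
  · rw [pY, if_pos k, (d.KS false).ψ.left_inv hz]
  · rw [pY, if_neg fun k' => KS_dj hJ k' k, (d.KS true).ψ.left_inv hz]

theorem deep (hR : 1 ≤ d.R0) {x} (hx : 0 < d.hS x) :
    ∃ b z, d.R0 < -pm b * z.2 ∧ (d.KS b).ψ z = x := by
  have key : ∀ b, d.R0 < -pm b * (d.KS b).τ x → ∃ b z, d.R0 < -pm b * z.2 ∧ (d.KS b).ψ z = x :=
    fun b hb => by
      have k := hJ.nk _ _ _ _ (d.hb b)
      have h1 : d.R0 < -pm b * (d.KS b).tm x := by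
        refine fl_deep hR (hb.trans_eq ?_)
        rw [Nk.τ, k.lo, k.hi]
        cases b <;> simp [tf, pm]
        ring
      have h2 : x ∈ (d.KS b).ψ.target := by
        rw [(d.KS b).tgt, mem_preimage, ← Nk.J, ← (d.KS b).mem_src (z := (pY d x, _)), KS_src hJ]
        linarith
      exact ⟨b, _, by rwa [(d.KS b).snd_symm h2], (d.KS b).ψ.right_inv h2⟩
  by_cases h0 : d.R0 < (d.KS false).τ x
  · exact key false (by simpa [pm] using h0)
  by_cases h1 : d.R0 < -(d.KS true).τ x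
  · exact key true (by simpa [pm] using h1)
  rw [Dat.hS, ka_zero (by linarith), ka_zero (by linarith)] at hx
  simp at hx

end ok

section ok
variable (H : d.OK q₀ δ)
include H

theorem src_of {b : Bool} {z : d.Y × ℝ} (hz : d.R0 < -pm b * z.2) : z ∈ (d.KS b).ψ.source :=
  (KS_src H.ok).2 (by linarith [H.R1])

omit H in
theorem lit_ψ {f : (W.Z (J.cf a)).M → V} {g : d.Y → V} (l : d.Lit f fun z => g z.1) {b : Bool}
    {z : d.Y × ℝ} (hz : d.R0 < -pm b * z.2) : f ((d.KS b).ψ z) = g z.1 :=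
  l b z.1 z.2 (pm b) hz (by cases b <;> simp [pm])

theorem lit_pY {f : (W.Z (J.cf a)).M → V} {g : d.Y → V} (l : d.Lit f fun z => g z.1) {x}
    (hx : 0 < d.hS x) : f x = g (pY d x) := by
  obtain ⟨b, z, h1, rfl⟩ := deep H.ok H.R1 hx
  rw [lit_ψ l h1, pY_ψ H.ok (src_of H h1)]

theorem tmpZ (y : d.Y) : d.AZ none y = 0 := by
  have : d.AZ none y + opL (d.bZ y 0 none) = 0 := H.crit.self_of_nhds.tmp y
  simpa using this

theorem up0 : M.Up M.c0 (J.cf a) ∧ (J.cf a).1 \ M.c0.1 ⊆ J.m.1 :=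
  have e : ∀ x ∈ (J.cf a).1, x = d.x := fun _ hx => cf_sub a hx H.hd
  ⟨⟨empty_subset _, fun x hx hp => ((d.hb false).1 (e x hx ▸ hp)).elim⟩,
    fun x hx => e x hx.1 ▸ H.ok.mem a _ H.hd (d.hb false).1⟩

theorem φ_up {τ : ℝ} {z} (hz : z ∈ (d.φ τ).source) : d.φ τ z = W.up M.c0 (J.cf a) z := by
  have h1 : z ∈ (W.φ (J.cf a)).target := hz.1.1
  conv_rhs => rw [← (W.φ (J.cf a)).right_inv h1]
  exact (W.up_φ (up0 H).1 ((W.mem_src _).1 ((W.φ (J.cf a)).map_target h1))).symm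

theorem B_eq : J.B (J.cf a) = Pj41.cmB (W.up M.c0 (J.cf a)) (J.B M.c0) :=
  H.nΛ.B H.nW (up0 H).1 (up0 H).2

variable {τ : d.Ta} (G : At d τ)
include G

theorem st_pos {x} (hx : st d τ x ≠ 0) : 0 < d.hS x := by
  have := G.la
  have : ¬d.hS x - (d.la τ - 2) ≤ 0 := fun k => hx (smoothTransition.zero_of_nonpos k)
  linarith [not_le.1 this]

theorem mix_φ (f : (W.Z (J.cf a)).M → V) (g : d.Y → V) {z} (hz : z ∈ (d.φ τ).source) :
    d.mix τ f (fun z => g z.1) (d.φ τ z) = f z - st d τ z • (f z - g (pY d z)) := by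
  have e : d.χ τ (d.φ τ z) = st d τ z := by rw [Dat.χ, (G.φ.2.2.2 z hz).1, st]
  rw [Dat.mix, e, (d.φ τ).left_inv hz]
  by_cases k : st d τ z = 0
  · simp [k]
  have h1 : d.φ τ z ∈ (d.ψ τ).target := by
    rw [G.ψ.2.2.1, mem_preimage, (G.φ.2.2.2 z hz).1]; exact st_pos H G k
  obtain ⟨b, h2, h3, -⟩ := G.ovl z hz _ ((d.ψ τ).map_target h1) ((d.ψ τ).right_inv h1).symm
  have h4 : pY d z = ((d.ψ τ).symm (d.φ τ z)).1 :=
    (congrArg (pY d) h2).trans (pY_ψ H.ok (src_of H h3))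
  rw [h4]
  module

theorem mix_lit {f : (W.Z (J.cf a)).M → V} {g : d.Y → V} (l : d.Lit f fun z => g z.1) {z}
    (hz : z ∈ (d.φ τ).source) : d.mix τ f (fun z => g z.1) (d.φ τ z) = f z := by
  rw [mix_φ H G f g hz]
  by_cases k : st d τ z = 0
  · simp [k]
  · rw [← lit_pY H l (st_pos H G k)]; simp

end ok

end Crest.Agent.X212.Cay24
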