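import Crest.Agent.X212.Cay24.Ob
import Crest.Agent.X212.Wz78.Par
import Crest.Agent.X212.Abel74.Defs

/-!
# Row 212, DEC / CAY (helper24): the Cayley transform as a gauge transformation
-/

set_option autoImplicit false
set_option linter.unusedSectionVars false
noncomputable section
open scoped Manifold ContDiff Topology InnerProductSpace
open MeasureTheory Set Function Filter Real

namespace Crest.Agent.X212.Cay24
open An Map77 Sob92 Dec35
open Wz78 (nab nabE SA g_p g_p' g_skw g_J g_ρ g_j opL_hsL hsL_opL)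

section alg
variable {κ : Type} [Fintype κ] [DecidableEq κ] {p S : En κ} {ξ : HS κ}

/-- the scalar of the Cayley transform -/
def yy (ξ : HS κ) : ℝ := (1 + ‖ξ‖ ^ 2 / 64)⁻¹ - 1
/-- the quadratic part of the Cayley transform -/
def ee (p : En κ) (ξ : HS κ) : En κ := yy ξ • ((2 : ℝ) • p + opL ξ)
/-- the Cayley transform minus the identity -/
def EE (p : En κ) (ξ : HS κ) : En κ := opL ξ + ee p ξ
/-- the Cayley transform -/
def gg (p : En κ) (ξ : HS κ) : En κ := p + EE p ξ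

theorem yy_neg (ξ : HS κ) : yy (-ξ) = yy ξ := by rw [yy, norm_neg, yy]

theorem yy_mul (ξ : HS κ) : (yy ξ + 1) * (1 + ‖ξ‖ ^ 2 / 64) = 1 := by
  rw [yy, sub_add_cancel]; exact inv_mul_cancel₀ (by positivity)

theorem cd_yy : ContDiff ℝ ∞ (yy (κ := κ)) :=
  ((contDiff_const.add ((contDiff_norm_sq ℝ).div_const _)).inv fun _ => by positivity).sub
    contDiff_const

theorem gg_eq (p : En κ) (ξ : HS κ) : gg p ξ = (2 * yy ξ + 1) • p + (yy ξ + 1) • opL ξ := by
  rw [gg, EE, ee]; module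

theorem gg_mul (hp : p * p = p) (h1 : p * opL ξ = opL ξ) (h2 : opL ξ * p = opL ξ)
    (h3 : opL ξ * opL ξ = (-‖ξ‖ ^ 2 / 16) • p) : gg p ξ * gg p (-ξ) = p := by
  have := yy_mul ξ
  simp only [gg_eq, yy_neg, map_neg, add_mul, mul_add, smul_mul_assoc, mul_smul_comm, mul_neg, hp,
    h1, h2, h3]
  match_scalars
  · linear_combination (4 * (yy ξ + 1)) * this
  · ring

theorem comm_gg (h1 : Commute S p) (h2 : Commute S (opL ξ)) : Commute S (gg p ξ) :=
  gg_eq p ξ ▸ (h1.smul_right _).add_right (h2.smul_right _)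

theorem trn_gg (hp : Sym p) (h : Skw (opL ξ)) : trn (gg p ξ) = gg p (-ξ) := by
  have e : ∀ T : En κ, trn T = Eqv71.trnL T := fun _ => rfl
  rw [gg_eq, gg_eq, e, map_add, map_smul, map_smul, ← e, ← e, Wz78.Sym.trn hp, Wz78.Skw.trn h,
    yy_neg, map_neg]

end alg

variable {E : Type} [NormedAddCommGroup E] [NormedSpace ℝ E] [FiniteDimensional ℝ E]
  [MeasurableSpace E] [BorelSpace E]
  {HM : Type} [TopologicalSpace HM] {I : ModelWithCorners ℝ E HM} [I.Boundaryless]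
  {M : Type} [TopologicalSpace M] [ChartedSpace HM M] [IsManifold I ∞ M] [MeasurableSpace M]
  [T2Space M] [BorelSpace M] [SecondCountableTopology M] {ι : Type} [Fintype ι]
  {lam : Type} [Fintype lam] {r : ℕ}

theorem con_ad {V : Type} [NormedAddCommGroup V] [NormedSpace ℝ V] {P : ι → ι → M → ℝ}
    {A : ι → M → V →L[ℝ] V} (h : Wz78.Con I P A) : Wz78.Con I P fun a y => Wz78.ad V (A a y) :=
  ⟨fun a x => SA.clm _ (h.sm a x), fun a x => by simp only [← map_smul, ← map_sum, h.proj]⟩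

section defs
variable (F : Fr I M ι) (c : Cfg M ι lam r) (ξ : M → c.m.A) (u : M → Cv c)

/-- the gauge transformation -/
abbrev ga (x : M) : En (Fin c.m.N) := gg (c.m.p x) (ξ x)
/-- its inverse -/
abbrev gb (x : M) : En (Fin c.m.N) := gg (c.m.p x) (-ξ x)

/-- the new connection form -/
def TT (a : ι) (x : M) : En (Fin c.m.N) :=
  ga c ξ x * oa a (u x) * gb c ξ x - nabE I F.e c.W a (ga c ξ) x * gb c ξ x

/-- the transformed variation -/
def uu : M → Cv c := base (TT F c ξ u) fun x => ga c ξ x (c.Φ x + fp (u x)) - c.Φ x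

/-- the quadratic remainder -/
def RR : M → Cv c := base
  (fun a x => EE (c.m.p x) (ξ x) * oa a (u x) + oa a (u x) * EE (c.m.p x) (-ξ x)
    + EE (c.m.p x) (ξ x) * oa a (u x) * EE (c.m.p x) (-ξ x)
    - nabE I F.e c.W a (fun y => ee (c.m.p y) (ξ y)) x
    - nabE I F.e c.W a (fun y => EE (c.m.p y) (ξ y)) x * EE (c.m.p x) (-ξ x))
  fun x => ee (c.m.p x) (ξ x) (c.Φ x) + EE (c.m.p x) (ξ x) (fp (u x))

end defs

variable {B : Base M ι lam} {G : Geo I M ι lam} {c : Cfg M ι lam r} {ξ : M → c.m.A} {u : M → Cv c}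

theorem tg_iff : Tg B c u ↔ (∀ x a, fa (u x) a ∈ c.m.gS x) ∧
    (∀ x a, ∑ b, B.P a b x • fa (u x) b = fa (u x) a) ∧
      ∀ x, c.m.pp B x (fp (u x)) = fp (u x) := by
  constructor
  · intro h
    have h1 : ∀ x, c.m.p1 B x (fa (u x)) = fa (u x) := fun x => maps_f2 x _ (h x)
    have h2 : ∀ x a, fa (u x) a ∈ c.m.gS x := fun x a => h1 x ▸ Wz78.p1_mem _ a
    refine ⟨h2, fun x a => ?_, fun x => maps_s2 x _ (h x)⟩
    conv_rhs => rw [← h1 x]
    simp only [Md.p1, Wz78.idx_apply, Wz78.pg_of_mem (h2 x _)]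
  · refine fun ⟨h1, h2, h3⟩ x => ext2 ((f2_ps ..).trans (fm_ext fun a => ?_)) ((s2_ps ..).trans (h3 x))
    simp only [mbd, Md.p1, Wz78.idx_apply, Wz78.pg_of_mem (h1 x _), h2]

variable (hB : B.OK I) (hG : G.OK B) (hc : c.Adm B G) (hs : Sm I ξ) (hξ : ∀ x, ξ x ∈ c.m.gS x)

include hc hs in
theorem sa_ee (x : M) : SA I (fun y => ee (c.m.p y) (ξ y)) x :=
  SA.smul (sm_comp cd_yy hs x) ((SA.smul contMDiffAt_const (hc.ok.sp x)).add (SA.clm opL (hs x)))

include hc hs in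
theorem sa_EE (x : M) : SA I (fun y => EE (c.m.p y) (ξ y)) x :=
  (SA.clm opL (hs x)).add (sa_ee hc hs x)

include hc hs in
theorem sa_ga (x : M) : SA I (ga c ξ) x := (hc.ok.sp x).add (sa_EE hc hs x)

include hc hs in
theorem nab_ga (a : ι) (x : M) : nabE I G.F.e c.W a (ga c ξ) x =
    nabE I G.F.e c.W a (fun y => EE (c.m.p y) (ξ y)) x :=
  (Wz78.nabE_add a (hc.ok.sp x) (sa_EE hc hs x)).trans (by
    rw [show nabE I G.F.e c.W a c.m.p x = 0 from hc.conn.cc.par a x, zero_add])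

include hc hs in
theorem nab_EE (a : ι) (x : M) : nabE I G.F.e c.W a (fun y => EE (c.m.p y) (ξ y)) x =
    opL (nab I G.F.e (c.m.adW c.W) a ξ x) + nabE I G.F.e c.W a (fun y => ee (c.m.p y) (ξ y)) x :=
  (Wz78.nabE_add a (SA.clm opL (hs x)) (sa_ee hc hs x)).trans (by rw [Wz78.opL_nab a (hs x)])

include hc hs in
theorem nab_ee (a : ι) (x : M) : nabE I G.F.e c.W a (fun y => ee (c.m.p y) (ξ y)) x =
    G.F.D a (fun y => yy (ξ y)) x • ((2 : ℝ) • c.m.p x + opL (ξ x))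
      + yy (ξ x) • opL (nab I G.F.e (c.m.adW c.W) a ξ x) := by
  have h := SA.smul (f := fun _ => (2 : ℝ)) contMDiffAt_const (hc.ok.sp x)
  refine (Wz78.nabE_smul (T := fun y => (2 : ℝ) • c.m.p y + opL (ξ y)) a (sm_comp cd_yy hs x)
    (h.add (SA.clm opL (hs x)))).trans ?_
  rw [Wz78.nabE_add a h (SA.clm opL (hs x)), Wz78.nabE_smul a contMDiffAt_const (hc.ok.sp x),
    show nabE I G.F.e c.W a c.m.p x = 0 from hc.conn.cc.par a x, Wz78.opL_nab a (hs x)]
  simp [Pre.D_def]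

include hc in
theorem p_g {x : M} {η : c.m.A} (h : η ∈ c.m.gS x) : Commute (c.m.p x) (opL η) :=
  (g_p h).trans (g_p' hc.ok h).symm

include hc in
theorem p_gg {x : M} {η : c.m.A} (h : η ∈ c.m.gS x) :
    c.m.p x * gg (c.m.p x) η = gg (c.m.p x) η := by
  simp only [gg_eq, mul_add, mul_smul_comm, hc.ok.pidem, g_p h]

include hc in
theorem gg_p {x : M} {η : c.m.A} (h : η ∈ c.m.gS x) :
    gg (c.m.p x) η * c.m.p x = gg (c.m.p x) η :=
  (comm_gg (Commute.refl _) (p_g hc h)).symm.eq.trans (p_gg hc h)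

include hB hc in
theorem gg_gg {x : M} {η : c.m.A} (h : η ∈ c.m.gS x) :
    gg (c.m.p x) η * gg (c.m.p x) (-η) = c.m.p x :=
  gg_mul (hc.ok.pidem x) (g_p h) (g_p' hc.ok h) (Abel74.g_sq hB hc.ok h)

include hB hc in
theorem gg_gg' {x : M} {η : c.m.A} (h : η ∈ c.m.gS x) :
    gg (c.m.p x) (-η) * gg (c.m.p x) η = c.m.p x := by
  simpa only [neg_neg] using gg_gg hB hc (neg_mem h)

include hc hs hξ in
theorem nab_p (a : ι) (x : M) :
    nabE I G.F.e c.W a (ga c ξ) x * c.m.p x = nabE I G.F.e c.W a (ga c ξ) x := by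
  have := Wz78.nabE_mul (e := G.F.e) (A := c.W) a (sa_ga hc hs x) (hc.ok.sp x)
  simp only [gg_p hc (hξ _)] at this
  rw [show nabE I G.F.e c.W a c.m.p x = 0 from hc.conn.cc.par a x, mul_zero, add_zero] at this
  exact this.symm

include hc hs hξ in
theorem comm_TT (hu : Tg B c u) (a : ι) {x : M} {S : En (Fin c.m.N)} (h1 : Commute S (c.m.p x))
    (h2 : ∀ η ∈ c.m.gS x, Commute S (opL η)) : Commute S (TT G.F c ξ u a x) := by
  have h3 := comm_gg h1 (h2 _ (neg_mem (hξ x)))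
  have h4 := h2 _ (Wz78.nab_mem_g hc.ok hc.conn a (hs x) hξ)
  refine (((comm_gg h1 (h2 _ (hξ x))).mul_right (h2 _ ((tg_iff.1 hu).1 x a))).mul_right h3).sub_right
    (Commute.mul_right ?_ h3)
  rw [nab_ga hc hs, nab_EE hc hs, nab_ee hc hs]
  exact h4.add_right ((((h1.smul_right _).add_right (h2 _ (hξ x))).smul_right _).add_right
    (h4.smul_right _))

include hB hc hs hξ in
theorem TT_mem (hu : Tg B c u) (a : ι) (x : M) : hsL (TT G.F c ξ u a x) ∈ c.m.gS x := by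
  have H := hc.ok
  refine Wz78.mem_g (Eqv71.skw_of_trn ?_) ?_ (comm_TT hc hs hξ hu a (H.Jp x) fun _ => g_J)
    (fun b => comm_TT hc hs hξ hu a (((H.cl x).pr b).trans ((H.cl x).pl b).symm) fun _ h => g_ρ h b)
    fun s => comm_TT hc hs hξ hu a ?_ fun _ h => g_j h s
  · have e : ∀ T : En (Fin c.m.N), trn T = Eqv71.trnL T := fun _ => rfl
    have t1 : ∀ y, trn (ga c ξ y) = gb c ξ y := fun y => trn_gg (H.psym y) (g_skw (hξ y))
    have t2 : trn (gb c ξ x) = ga c ξ x := by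
      simpa only [neg_neg] using trn_gg (H.psym x) (g_skw (neg_mem (hξ x)))
    have t3 : nabE I G.F.e c.W a (gb c ξ) x = trn (nabE I G.F.e c.W a (ga c ξ) x) := by
      rw [← funext t1]
      refine Wz78.nab_map (A := fun a y => Wz78.ad _ (c.W a y)) (A' := fun a y => Wz78.ad _ (c.W a y))
        Eqv71.trnL a ?_ (sa_ga hc hs x)
      change c.W a x * trn (ga c ξ x) - trn (ga c ξ x) * c.W a x =
        Eqv71.trnL (c.W a x * ga c ξ x - ga c ξ x * c.W a x)
      rw [map_sub, ← e, ← e, Wz78.trn_mul, Wz78.trn_mul, Wz78.Skw.trn (hc.conn.sk a x)]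
      noncomm_ring
    have t4 := Wz78.nabE_mul (e := G.F.e) (A := c.W) a (sa_ga hc hs x) (sa_ga hc hs.neg x)
    simp only [gg_gg hB hc (hξ _)] at t4
    rw [show nabE I G.F.e c.W a c.m.p x = 0 from hc.conn.cc.par a x] at t4
    rw [TT, e, map_sub, ← e, ← e, Wz78.trn_mul, Wz78.trn_mul, Wz78.trn_mul, t1, t2, ← t3,
      oa_apply, Wz78.Skw.trn (g_skw ((tg_iff.1 hu).1 x a)), eq_neg_of_add_eq_zero_left t4.symm]
    noncomm_ring
  · rw [(comm_TT hc hs hξ hu a (Commute.refl _) fun _ => p_g hc).eq, TT, sub_mul, mul_assoc,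
      mul_assoc _ (gb c ξ x), gg_p hc (neg_mem (hξ x))]
  · have := congrArg trn (H.pj x s)
    rw [Wz78.trn_mul, Wz78.Sym.trn (H.jsym x s), Wz78.Sym.trn (H.psym x)] at this
    exact this.trans (H.pj x s).symm

include hc hξ in
theorem ga_pp (x : M) : ga c ξ x * c.m.pp B x = c.m.pp B x * ga c ξ x :=
  (comm_gg ((Wz78.pp_p hc.ok x).trans (Wz78.p_pp hc.ok x).symm)
    (Wz78.g_pp hc.ok (hξ x)).symm).symm

include hB hG hc hs hξ in
theorem tg_uu (hu : Tg B c u) : Tg B c (uu G.F c ξ u) := by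
  obtain ⟨h1, h2, h3⟩ := tg_iff.1 hu
  refine tg_iff.2 ⟨fun x a => ?_, fun x a => ?_, fun x => ?_⟩
  · rw [uu, fa_base]; exact TT_mem hB hc hs hξ hu a x
  · have k1 := congrArg opL (h2 x a)
    have k2 : ∑ b, B.P a b x • nabE I G.F.e c.W b (ga c ξ) x = nabE I G.F.e c.W a (ga c ξ) x :=
      (Wz78.gfrm hG).projN (con_ad hc.conn.cc.toCon) a _ x
    simp only [map_sum, map_smul] at k1
    simp only [uu, fa_base, ← map_smul, ← map_sum, TT, smul_sub, Finset.sum_sub_distrib, oa_apply]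
    congr 2
    · conv_rhs => rw [← k1]
      simp only [Finset.mul_sum, Finset.sum_mul, mul_smul_comm, smul_mul_assoc]
    · conv_rhs => rw [← k2]
      simp only [Finset.sum_mul, smul_mul_assoc]
  · rw [uu, fp_base, map_sub, hc.pos, ← mul_apply_eq_comp, ← ga_pp hc hξ,
      mul_apply_eq_comp, map_add, hc.pos, h3]

include hB hc hs hξ in
theorem eq0_uu (hu : Tg B c u) : Tmp64.Eq0 G.F (cf c u) (cf c (uu G.F c ξ u)) univ (ga c ξ) := by
  have H := hc.ok
  have t1 : ∀ y, Pj41.ad (ga c ξ y) = gb c ξ y := fun y =>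
    (Pj41.ad_trn _).trans (trn_gg (H.psym y) (g_skw (hξ y)))
  refine ⟨⟨fun x _ => sa_ga hc hs x, fun x _ => ⟨?_, ?_, gg_p hc (hξ x)⟩,
    fun x _ => comm_gg (H.Jp x) (g_J (hξ x)),
    fun x _ b => comm_gg (((H.cl x).pr b).trans ((H.cl x).pl b).symm) (g_ρ (hξ x) b),
    fun x _ s => comm_gg ?_ (g_j (hξ x) s)⟩, fun x _ a => ?_, fun x _ => ?_, rfl⟩
  · exact (congrArg (· ∘L ga c ξ x) (t1 x)).trans (gg_gg' hB hc (hξ x))
  · exact (congrArg (ga c ξ x ∘L ·) (t1 x)).trans (gg_gg hB hc (hξ x))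
  · have := congrArg trn (H.pj x s)
    rw [Wz78.trn_mul, Wz78.Sym.trn (H.jsym x s), Wz78.Sym.trn (H.psym x)] at this
    exact this.trans (H.pj x s).symm
  · change G.F.D a (ga c ξ) x + (c.W a x + oa a (uu G.F c ξ u x)) * ga c ξ x
      - ga c ξ x * (c.W a x + oa a (u x)) = 0
    have k : TT G.F c ξ u a x * ga c ξ x = ga c ξ x * oa a (u x) - nabE I G.F.e c.W a (ga c ξ) x := by
      rw [TT, sub_mul, mul_assoc _ (gb c ξ x), mul_assoc _ (gb c ξ x), gg_gg' hB hc (hξ x),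
        nab_p hc hs hξ, mul_assoc, oa_apply, g_p' H ((tg_iff.1 hu).1 x a)]
    rw [uu, oa_base, add_mul, k, nabE, Pre.D_def]
    noncomm_ring
  · change c.Φ x + fp (uu G.F c ξ u x) = ga c ξ x (c.Φ x + fp (u x))
    rw [uu, fp_base, add_sub_cancel]

include hc hs hξ in
theorem uu_sub (hu : Tg B c u) (x : M) :
    uu G.F c ξ u x - u x - dg G.F c 1 ξ x = RR G.F c ξ u x := by
  obtain ⟨h1, -, h3⟩ := tg_iff.1 hu
  refine ext2 (fm_ext fun a => Wz78.opL_inj ?_) ?_
  · have k := nab_p hc hs hξ a x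
    have k1 := g_p (h1 x a)
    have k2 := g_p' hc.ok (h1 x a)
    simp only [uu, RR, dg, map_sub, map_add, PiLp.sub_apply, fa_base, f2_i1, f2_i2, add_zero,
      opL_hsL, map_neg, TT, oa_apply]
    rw [show gb c ξ x = _ + _ from rfl, mul_add (nabE I G.F.e c.W a (ga c ξ) x), k, nab_ga hc hs,
      show ga c ξ x = _ + _ from rfl]
    simp only [add_mul, mul_add, k1, k2, mul_assoc]
    conv_lhs => rw [nab_EE hc hs]
    conv_rhs => rw [nab_EE hc hs]
    abel
  · have k : ∀ v, c.m.pp B x v = v → c.m.p x v = v := fun v h => by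
      rw [← h, ← mul_apply_eq_comp, Wz78.p_pp hc.ok]
    simp only [uu, RR, dg, map_sub, map_add, fp_base, s2_i1, s2_i2, zero_add, one_smul, ga, gg,
      add_apply, k _ (hc.pos x), k _ (h3 x)]
    rw [EE, add_apply]
    abel

end Crest.Agent.X212.Cay24
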