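import Crest.Agent.X212.Bki64.Rig

/-!
# Row 212, DEC / OUT (helper24): families which decay in `C^k`, integration along an end
-/

set_option autoImplicit false
set_option linter.unusedSectionVars false
noncomputable section
open scoped Manifold ContDiff Topology InnerProductSpace
open MeasureTheory Set Function Filter Real

namespace Crest.Agent.X212.Cay24
open An Sob92 Cyf70 Neck67 Bki64

section gen
variable {E : Type} [NormedAddCommGroup E] [NormedSpace ℝ E] [FiniteDimensional ℝ E]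
  [MeasurableSpace E] [BorelSpace E]
  {HM : Type} [TopologicalSpace HM] {I : ModelWithCorners ℝ E HM}
  {M : Type} [TopologicalSpace M] [ChartedSpace HM M] [IsManifold I ∞ M]
  [MeasurableSpace M] {ι : Type} [Fintype ι]
  {N N' N'' : Type} [NormedAddCommGroup N] [NormedSpace ℝ N] [NormedAddCommGroup N']
  [NormedSpace ℝ N'] [NormedAddCommGroup N''] [NormedSpace ℝ N''] {α : Type}

/-- `O(exp e)` in `C^k` -/
def OB (F : Pre I M ι) (l : Filter α) (S : α → Set M) (k : ℕ) (e : α → ℝ) (f : α → M → N) : Prop :=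
  ∃ C ≥ 0, ∀ᶠ n in l, IsOpen (S n) ∧ Lb F (S n) k (f n) (C * exp (e n))

variable {F : Pre I M ι} {l : Filter α} {S : α → Set M} {k j : ℕ} {e : α → ℝ} {f f' : α → M → N}
  {g : α → M → N'}

namespace OB

theorem op (h : OB F l S k e f) : ∀ᶠ n in l, IsOpen (S n) := h.choose_spec.2.mono fun _ h => h.1

theorem of_le (h : OB F l S k e f) (hj : j ≤ k) : OB F l S j e f :=
  let ⟨C, h0, h⟩ := h; ⟨C, h0, h.mono fun _ h => ⟨h.1, h.2.of_le hj⟩⟩

theorem congr (h : OB F l S k e f) (q : ∀ᶠ n in l, ∀ x ∈ S n, f' n x = f n x) : OB F l S k e f' :=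
  let ⟨C, h0, h⟩ := h; ⟨C, h0, (h.and q).mono fun _ h => ⟨h.1.1, h.1.2.congr h.1.1 h.2⟩⟩

theorem zero (hS : ∀ᶠ n in l, IsOpen (S n)) : OB F l S k e fun _ _ => (0 : N) :=
  ⟨0, le_rfl, hS.mono fun _ h => ⟨h, (Lb.const h 0).mono (by simp)⟩⟩

theorem D (h : OB F l S (k + 1) e f) (a : ι) : OB F l S k e fun n => F.D a (f n) :=
  let ⟨C, h0, h⟩ := h; ⟨C, h0, h.mono fun _ h => ⟨h.1, h.2.D a⟩⟩

theorem bb (h : OB F l S k e f) (he : ∀ n, e n ≤ 0) : BB F l S k f :=
  let ⟨C, h0, h⟩ := h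
  ⟨C, h.mono fun n h => ⟨h.1, h.2.mono (mul_le_of_le_one_right h0 (exp_le_one_iff.2 (he n)))⟩⟩

theorem add (h : OB F l S k e f) (h' : OB F l S k e f') :
    OB F l S k e fun n x => f n x + f' n x :=
  let ⟨C, h0, h⟩ := h
  let ⟨C', h0', h'⟩ := h'
  ⟨C + C', add_nonneg h0 h0', (h.and h').mono fun _ h =>
    ⟨h.1.1, (Lb.add h.1.1 h.1.2 h.2.2).mono (add_mul _ _ _).ge⟩⟩

theorem bil (B : N →L[ℝ] N' →L[ℝ] N'') (h : OB F l S k e f) (h' : BB F l S k g) :
    OB F l S k e fun n x => B (f n x) (g n x) :=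
  let ⟨C, h0, h⟩ := h
  let ⟨C', h0', h'⟩ := h'.pos
  ⟨2 ^ k * ‖B‖ * C * C', by positivity, (h.and h').mono fun _ h =>
    ⟨h.1.1, (Lb.bil h.1.1 B (by positivity) h0'.le h.1.2 h.2.2).mono (le_of_eq (by ring))⟩⟩

theorem clm (L : N →L[ℝ] N') (h : OB F l S k e f) : OB F l S k e fun n x => L (f n x) :=
  h.bil (ContinuousLinearMap.id ℝ (N →L[ℝ] N')).flip (BB.const h.op L)

theorem sub (h : OB F l S k e f) (h' : OB F l S k e f') :
    OB F l S k e fun n x => f n x - f' n x :=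
  (h.add (h'.clm (-ContinuousLinearMap.id ℝ N))).congr
    (Eventually.of_forall fun _ _ _ => sub_eq_add_neg _ _)

variable {L : α → M → N →L[ℝ] N'} {P : α → M → N' →L[ℝ] N''}

theorem comp (h : OB F l S k e P) (h' : BB F l S k L) : OB F l S k e fun n x => P n x ∘L L n x :=
  h.bil (ContinuousLinearMap.compL ℝ N N' N'') h'

theorem comp' (h : OB F l S k e L) (h' : BB F l S k P) : OB F l S k e fun n x => P n x ∘L L n x :=
  h.bil (ContinuousLinearMap.compL ℝ N N' N'').flip h'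

theorem app (h : OB F l S k e L) (h' : BB F l S k f) : OB F l S k e fun n x => L n x (f n x) :=
  h.bil (ContinuousLinearMap.id ℝ (N →L[ℝ] N')) h'

theorem app' (h : OB F l S k e f) (h' : BB F l S k L) : OB F l S k e fun n x => L n x (f n x) :=
  h.bil (ContinuousLinearMap.id ℝ (N →L[ℝ] N')).flip h'

end OB

theorem sm_Dw (w : List ι) : ∀ {f : M → N}, Sm I f → Sm I (F.Dw w f) := by
  induction w with
  | nil => exact fun h => h
  | cons a w ih => exact fun h => ih (F.sm_D h a)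

end gen

variable {E : Type} [NormedAddCommGroup E] [NormedSpace ℝ E] [FiniteDimensional ℝ E]
  [MeasurableSpace E] [BorelSpace E]
  {H : Type} [TopologicalSpace H] {I : ModelWithCorners ℝ E H} [I.Boundaryless]
  {Y : Type} [TopologicalSpace Y] [ChartedSpace H Y] [IsManifold I ∞ Y] [T2Space Y]
  [MeasurableSpace Y] [BorelSpace Y] [SecondCountableTopology Y] [CompactSpace Y]
  {κ : Type} [Fintype κ] {N : Type} [NormedAddCommGroup N] [NormedSpace ℝ N] {F : Pre I Y κ}
  {f : Y × ℝ → N} {σ d : ℝ} {k : ℕ}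

theorem Dw_none (w : List (Option κ)) : ∀ {f : Y × ℝ → N}, Sm (IC I) f →
    (cylP F).D none ((cylP F).Dw w f) = (cylP F).Dw w ((cylP F).D none f) := by
  induction w with
  | nil => exact fun _ => rfl
  | cons a w ih =>
    intro f h
    rw [Pre.Dw, Pre.Dw, ih ((cylP F).sm_D h a)]
    cases a
    exacts [rfl, by rw [D_comm F h]]

/-- the windows along the end `σ` -/
abbrev wn (Y : Type) (σ r : ℝ) : Set (Y × ℝ) := win Y (σ * r) 1

/-- exponential decay along the end `σ` -/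
abbrev Dc (F : Pre I Y κ) (σ d : ℝ) (k : ℕ) (f : ℝ → Y × ℝ → N) : Prop :=
  OB (cylP F) atTop (wn Y σ) k (fun r => -d * |r|) f

theorem lb_bd (hf : Sm (IC I) f) (R : ℝ) (k : ℕ) : ∃ C ≥ 0, Lb (cylP F) (win Y 0 R) k f C :=
  let ⟨C, h0, h⟩ := (BB.fixed (l := pure ()) (S := fun _ => win Y 0 R) (F := cylP F)
    (isCompact_univ.prod (isCompact_Icc (a := 0 - R) (b := 0 + R))) (subset_univ _)
    ⟨win_op _ _, prod_mono_right Ioo_subset_Icc_self⟩ k fun x _ => hf x).pos
  ⟨C, h0.le, h.2⟩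

variable (hσ : σ = 1 ∨ σ = -1) (hd : 0 < d) (hf : Sm (IC I) f)
include hσ

theorem abs_σ (r : ℝ) : |σ * r| = |r| := by rcases hσ with rfl | rfl <;> simp

theorem σ_σ (r : ℝ) : σ * (σ * r) = r := by rcases hσ with rfl | rfl <;> simp

theorem wn_lt {r : ℝ} {x : Y × ℝ} (hx : x ∈ wn Y σ r) : r - 1 < σ * x.2 := by
  have := hx.2
  rcases hσ with rfl | rfl <;> linarith [this.1, this.2]

include hd hf

/-- decay from some point on is decay on every half cylinder -/
theorem Dc.ext (h : Dc F σ d k fun _ => f) (T : ℝ) :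
    ∃ C, ∀ s, T ≤ σ * s → Lb (cylP F) (win Y s 1) k f (C * exp (-d * |s|)) := by
  obtain ⟨C, h0, h⟩ := h
  obtain ⟨T', h⟩ := eventually_atTop.1 h
  obtain ⟨C', h0', h'⟩ := lb_bd (F := F) hf (|T| + |T'| + 1) k
  refine ⟨C + C' * exp (d * (|T| + |T'|)), fun s hs => ?_⟩
  rcases le_total T' (σ * s) with h1 | h1
  · have := (h _ h1).2
    simp only [wn, σ_σ hσ, abs_σ hσ] at this
    exact this.mono (by gcongr; exact le_add_of_nonneg_right (by positivity))
  · have h2 : |s| ≤ |T| + |T'| := by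
      rw [← abs_σ hσ, abs_le]
      constructor <;> linarith [neg_abs_le T, le_abs_self T', abs_nonneg T, abs_nonneg T']
    refine (h'.sub (win_sub (by rw [sub_zero]; linarith))).mono ?_
    rw [add_mul, mul_assoc, ← exp_add]
    refine le_add_of_nonneg_of_le (by positivity) (le_mul_of_one_le_right h0' (one_le_exp ?_))
    nlinarith

theorem Dc.int (h : Dc F σ d k fun _ => (cylP F).D none f) : ∃ C ≥ 0, ∃ T ≥ 0,
    ∀ w : List (Option κ), w.length ≤ k → ∀ y r r', T ≤ r → r ≤ r' →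
      ‖(cylP F).Dw w f (y, σ * r') - (cylP F).Dw w f (y, σ * r)‖ ≤ C * exp (-d * r) := by
  obtain ⟨C, h0, h⟩ := h
  obtain ⟨T, h⟩ := eventually_atTop.1 (h.and (eventually_ge_atTop 0))
  refine ⟨C / d, by positivity, T, (h T le_rfl).2, fun w hw y r r' h1 h2 => ?_⟩
  have k1 : ∀ t, HasDerivAt (fun t => (cylP F).Dw w f (y, σ * t) - (cylP F).Dw w f (y, σ * r))
      (σ • (cylP F).Dw w ((cylP F).D none f) (y, σ * t)) t := fun t => by
    rw [← Dw_none w hf]
    exact (((hasDerivAt_slice F (sm_Dw w hf) y (σ * t)).scomp t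
      ((hasDerivAt_id' t).const_mul σ)).sub_const _).congr_deriv (by rw [mul_one])
  have k2 : ∀ t, HasDerivAt (fun t => C / d * exp (-d * r) - C / d * exp (-d * t))
      (C * exp (-d * t)) t := fun t =>
    (((((hasDerivAt_id' t).const_mul (-d)).exp).const_mul (C / d)).const_sub _).congr_deriv
      (by field_simp)
  have := image_norm_le_of_norm_deriv_right_le_deriv_boundary (a := r) (b := r')
    (fun t _ => (k1 t).continuousAt.continuousWithinAt) (fun t _ => (k1 t).hasDerivWithinAt)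
    (by simp) k2 (fun t ht => by
      obtain ⟨⟨-, h3⟩, h4⟩ := h t (h1.trans ht.1)
      have := h3.Dw w hw (y, σ * t) ⟨trivial, by simp, by simp⟩
      simp only [abs_of_nonneg h4] at this
      rwa [norm_smul, norm_eq_abs, show |σ| = 1 by simpa using abs_σ hσ 1, one_mul])
    ⟨h2, le_rfl⟩
  exact this.trans (sub_le_self _ (by positivity))

theorem Dc.bb (h : Dc F σ d k fun _ => (cylP F).D none f) :
    BB (cylP F) atTop (wn Y σ) k fun _ => f := by
  obtain ⟨C, h0, T, t0, h⟩ := Dc.int hσ hd hf h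
  obtain ⟨C', -, h'⟩ := lb_bd (F := F) hf (T + 1) k
  refine ⟨C + C', (eventually_ge_atTop (T + 1)).mono fun r hr => ⟨win_op _ _,
    Lb.of_Dw (fun x _ => hf x) fun w hw x hx => ?_⟩⟩
  have h1 := h w hw x.1 T (σ * x.2) le_rfl (by linarith [wn_lt hσ hx])
  have h2 := h'.Dw w hw (x.1, σ * T) ⟨trivial, by
    have := abs_le.1 ((abs_σ hσ T).trans (abs_of_nonneg t0)).le
    constructor <;> linarith [this.1, this.2]⟩
  rw [σ_σ hσ] at h1
  refine (norm_le_norm_sub_add _ _).trans (add_le_add (h1.trans ?_) h2)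
  exact mul_le_of_le_one_right h0 (exp_le_one_iff.2 (by nlinarith))

theorem Dc.of_dt (h : Dc F σ d k fun _ => (cylP F).D none f) {l : Filter ℝ} [l.NeBot]
    (hl : l ≤ atTop) {L : ℝ} (hL : 0 < L) (h' : ZZ (cylP F) l (fun r => win Y (σ * r) L) k fun _ => f) :
    Dc F σ d k fun _ => f := by
  obtain ⟨C, h0, T, t0, h⟩ := Dc.int hσ hd hf h
  refine ⟨C * exp d, by positivity, (eventually_ge_atTop (T + 1)).mono fun r hr => ⟨win_op _ _,
    Lb.of_Dw (fun x _ => hf x) fun w hw x hx => le_of_forall_pos_le_add fun ε hε => ?_⟩⟩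
  obtain ⟨r', ⟨-, h1⟩, h2⟩ := ((h' ε hε).and ((eventually_ge_atTop (σ * x.2)).filter_mono hl)).exists
  have h3 := wn_lt hσ hx
  have h4 := h w hw x.1 (σ * x.2) r' (by linarith) h2
  rw [σ_σ hσ, norm_sub_rev] at h4
  refine (norm_le_norm_sub_add _ _).trans (add_le_add (h4.trans ?_)
    (h1.Dw w hw (x.1, σ * r') ⟨trivial, by simpa, by simpa⟩))
  simp only [abs_of_nonneg (show 0 ≤ r by linarith)]
  rw [mul_assoc, ← exp_add]
  gcongr
  nlinarith

end Crest.Agent.X212.Cay24
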