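import Crest.Agent.X212.Dec35.Hyp
import Crest.Agent.X212.Kah60.Cut
import Crest.Agent.X212.Wz78.Par
import Crest.Agent.X212.Abel74.Defs

/-!
# Row 212, DEC / FIX (helper24): at a fixed point of the circle the phase is a gauge transformation
-/

set_option autoImplicit false
set_option linter.unusedSectionVars false
noncomputable section
open scoped Manifold ContDiff Topology InnerProductSpace
open MeasureTheory Set Function Filter

namespace Crest.Agent.X212.Cay24
open An Sob92 Cyf70 Neck67 Pj41 Eqv71 Tmp64 Nd18 Bki64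
open Wz78 (nab nabE SA g_p g_p' g_skw g_J g_ρ g_j)

section gen
variable {E : Type} [NormedAddCommGroup E] [NormedSpace ℝ E] [FiniteDimensional ℝ E]
  [MeasurableSpace E] [BorelSpace E]
  {HM : Type} [TopologicalSpace HM] {I : ModelWithCorners ℝ E HM}
  {M : Type} [TopologicalSpace M] [ChartedSpace HM M] [IsManifold I ∞ M]
  [MeasurableSpace M] {ι : Type} [Fintype ι] {lam : Type} [Fintype lam] {r : ℕ}
  {B : Base M ι lam} {G : Geo I M ι lam} {α : Type} {l : Filter α} {S : α → Set M} {k : ℕ}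
  {c : Cfg M ι lam r} {ξ : M → c.m.A} {z : α → M → Circle}

/-- the rotations generated by a parallel unit section of `g` -/
theorem cz_rot (hB : B.OK I) (hc : c.Adm B G) (f1 : Fx B G l S k c) (hξ : ParS G.F c univ ξ)
    (h16 : ∀ x, ‖ξ x‖ ^ 2 = 16) (hΦ : ∀ x, opL (ξ x) (c.Φ x) = c.m.J (c.Φ x))
    (hz : BB G.F.toPre l S (k + 1) fun n x => (z n x : ℂ))
    (hD : ∀ a, ZZ G.F.toPre l S k fun n => G.F.D a fun x => (z n x : ℂ)) :
    CZ G.F l S k (fun _ => c) c (fun n x => (z n x : ℂ).re • c.m.p x + (z n x : ℂ).im • opL (ξ x))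
      fun n x => (z n x)⁻¹ := by
  have H := hc.ok
  have hs : Sm I ξ := contMDiffOn_univ.1 hξ.sm
  have hm := fun x => hξ.mem x trivial
  have sq := fun x => Abel74.sq_of_norm hB H (hm x) (h16 x)
  have bξ : BB G.F.toPre l S (k + 1) fun _ => ξ :=
    (BB.zero_of hz.op (C := 4) (Eventually.of_forall fun _ x _ => ⟨hs x, by
      nlinarith [h16 x, norm_nonneg (ξ x)]⟩)).boot fun j hj hb a =>
      ((((f1.W a).of_le hj).clm Wz78.adcL).app hb).neg.congr (Eventually.of_forall fun _ x _ =>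
        eq_neg_of_add_eq_zero_left (hξ.par a x trivial))
  have bX := (bξ.clm opL).of_le k.le_succ
  have bp := f1.p.of_le k.le_succ
  have hb := (((hz.of_le k.le_succ).clm Complex.reCLM).smul bp).add
    (((hz.of_le k.le_succ).clm Complex.imCLM).smul bX)
  have cm : ∀ n x {T : En (Fin c.m.N)}, Commute T (c.m.p x) → Commute T (opL (ξ x)) →
      Commute T ((z n x : ℂ).re • c.m.p x + (z n x : ℂ).im • opL (ξ x)) :=
    fun _ _ _ h1 h2 => (h1.smul_right _).add_right (h2.smul_right _)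
  have ta : ∀ n x, ad ((z n x : ℂ).re • c.m.p x + (z n x : ℂ).im • opL (ξ x)) =
      (z n x : ℂ).re • c.m.p x - (z n x : ℂ).im • opL (ξ x) := fun n x => by
    have e : ∀ T : En (Fin c.m.N), trn T = trnL T := fun _ => rfl
    rw [ad_trn, e, map_add, map_smul, map_smul, ← e, ← e, Wz78.Sym.trn (H.psym x),
      Wz78.Skw.trn (g_skw (hm x)), smul_neg, sub_eq_add_neg]
  have n1 : ∀ n x, (z n x : ℂ).re * (z n x : ℂ).re + (z n x : ℂ).im * (z n x : ℂ).im = 1 :=
    fun n x => (z n x).normSq_coe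
  refine CZ.mk (hb.sm.mono fun n h => ⟨h, fun x _ => ⟨?_, ?_, ?_⟩,
    fun x _ => cm n x (H.Jp x) (g_J (hm x)),
    fun x _ b => cm n x (((H.cl x).pr b).trans ((H.cl x).pl b).symm) (g_ρ (hm x) b),
    fun x _ s => cm n x ?_ (g_j (hm x) s)⟩) (fun a => ?_) ?_
  iterate 2
    rw [ta, ← ContinuousLinearMap.mul_def]
    simp only [add_mul, mul_add, sub_mul, mul_sub, smul_mul_assoc, mul_smul_comm, H.pidem, sq,
      g_p (hm x), g_p' H (hm x)]
    match_scalars
    · linear_combination n1 n x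
    · ring
  · rw [← ContinuousLinearMap.mul_def]
    simp only [add_mul, smul_mul_assoc, H.pidem, g_p' H (hm x)]
  · have := congrArg trn (H.pj x s)
    rw [Wz78.trn_mul, Wz78.Sym.trn (H.jsym x s), Wz78.Sym.trn (H.psym x)] at this
    exact this.trans (H.pj x s).symm
  · refine ((((((hD a).clm Complex.reCLM).smul bp).add
      (((hD a).clm Complex.imCLM).smul bX))).comp hb.ad).congr (hz.sm.mono fun n h x hx => ?_)
    have h1 := SA.clm Complex.reCLM (h x hx)
    have h2 := SA.clm Complex.imCLM (h x hx)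
    have h3 := SA.clm opL (hs x)
    have := Wz78.nabE_add (e := G.F.e) (A := c.W) a (h1.smul (H.sp x)) (h2.smul h3)
    rw [Wz78.nabE_smul a h1 (H.sp x), Wz78.nabE_smul a h2 h3, Wz78.opL_nab a (hs x),
      hξ.par a x trivial, show nabE I G.F.e c.W a c.m.p x = 0 from hc.conn.cc.par a x,
      dv_clm _ (SA.md (h x hx)), dv_clm _ (SA.md (h x hx)), map_zero, smul_zero, smul_zero,
      add_zero, add_zero] at this
    rw [dA, ← ad_trn, Bki64.cov, add_sub_assoc]
    exact congrArg (· ∘L _) this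
  · refine (ZZ.zero hz.op).congr (f1.adm.mono fun n h x hx => ?_)
    rw [dP, add_apply, smul_apply, smul_apply, h.pΦ hx, hΦ, sub_eq_zero]
    refine (cs_mul H.Jsq _ (z n x) _).trans ?_
    rw [← Circle.coe_mul, inv_mul_cancel, Circle.coe_one, cs_one]

end gen

variable {E3 : Type} [NormedAddCommGroup E3] [NormedSpace ℝ E3] [FiniteDimensional ℝ E3]
  [MeasurableSpace E3] [BorelSpace E3]
  {H3 : Type} [TopologicalSpace H3] {I3 : ModelWithCorners ℝ E3 H3} [I3.Boundaryless]
  {Y : Type} [TopologicalSpace Y] [ChartedSpace H3 Y] [IsManifold I3 ∞ Y] [T2Space Y]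
  [MeasurableSpace Y] [BorelSpace Y] [SecondCountableTopology Y] [CompactSpace Y]
  {κ : Type} [Fintype κ] {lam : Type} [Fintype lam]

/-- slowly varying phases -/
theorem zz_phase {α : Type} {l : Filter α} {S : α → Set (Y × ℝ)} {k : ℕ} {F : Pre I3 Y κ}
    {θ : α → ℝ → ℝ} (hθ : ∀ n, ContDiff ℝ ∞ (θ n))
    (h : ZZ (cylP F) l S k fun n x => deriv (θ n) x.2) :
    BB (cylP F) l S (k + 1) (fun n x => (Circle.exp (θ n x.2) : ℂ)) ∧
      ∀ a, ZZ (cylP F) l S k fun n => (cylP F).D a fun x => (Circle.exp (θ n x.2) : ℂ) := by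
  have sm : ∀ n, ContDiff ℝ ∞ fun t => (Circle.exp (θ n t) : ℂ) := fun n =>
    ((Complex.ofRealCLM.contDiff.comp (hθ n)).mul contDiff_const).cexp
  have key : ∀ j ≤ k, BB (cylP F) l S j (fun n x => (Circle.exp (θ n x.2) : ℂ)) → ∀ a,
      ZZ (cylP F) l S j fun n => (cylP F).D a fun x => (Circle.exp (θ n x.2) : ℂ) := by
    intro j hj hb a
    cases a with
    | some a => simp only [D_some_snd F (sm _)]; exact ZZ.zero h.op
    | none =>
      simp only [D_none_snd F (sm _)]
      refine ((h.of_le hj).smul (hb.clm (ContinuousLinearMap.mul ℝ ℂ Complex.I))).congr'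
        fun n x => ?_
      refine (((((hθ n).differentiable (by simp)) x.2).hasDerivAt.ofReal_comp.mul_const
        Complex.I).cexp.deriv).trans ?_
      simp [mul_comm, mul_left_comm]
  have hb := (BB.zero_of h.op (C := 1) (Eventually.of_forall fun n x _ =>
    ⟨sm_snd (sm n) x, (Circle.norm_coe _).le⟩)).boot fun j hj hb a => (key j hj hb a).bb
  exact ⟨hb, key k le_rfl (hb.of_le k.le_succ)⟩

theorem fix : Dec35.FixStmt I3 Y κ lam := by
  intro D β hD hβ hY ⟨ξ, hξ, hΦ⟩ k ε hε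
  obtain ⟨η, h0, h1⟩ := exists_eta (γ := (r : ℕ) × (c : Cfg (Y × ℝ) (Option κ) lam r) ×
      (Y × ℝ → CL c.m.V β.m.V) × (ℝ → ℝ) × Set ℝ)
    (P := fun ⟨_, c, _, _, S⟩ => ∃ u', ClsT D c β u' 0 S k ε)
    (H := fun ⟨_, c, u, θ, S⟩ η => ClsT D c β u θ S k η) fun d hd => by
      have k1 : CZ D.Z (hyperfilter ℕ) (fun n => univ ×ˢ (d n).2.2.2.2) k (fun n => (d n).2.1) (cy β)
          (fun n => (d n).2.2.1) fun n x => Circle.exp ((d n).2.2.2.1 x.2) := fun _ hε =>
        (ev_eta 0 hε).mono fun n hn => (hd n).cl.mono (hd n).cl.op Subset.rfl le_rfl hn.2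
      have f1 := fx_cy (k := k) hβ k1.op
      have z0 : ZZ D.Z.toPre (hyperfilter ℕ) (fun n => univ ×ˢ (d n).2.2.2.2) k
          fun n x => deriv (d n).2.2.2.1 x.2 := fun _ hε =>
        (ev_eta 0 hε).mono fun n hn => ⟨(hd n).cl.op, lb_snd (hd n).cl.op hε.le
          (contDiff_infty_iff_deriv.1 (hd n).sm).2 fun j hj x _ => by
            rw [← iteratedDeriv_succ']
            exact ((hd n).bd _ (by omega) (by omega) _).trans hn.2⟩
      obtain ⟨z1, z2⟩ := zz_phase (fun n => (hd n).sm) z0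
      have : ∃ h : ℕ → Y × ℝ → CL β.m.V β.m.V, CZ D.Z (hyperfilter ℕ)
          (fun n => univ ×ˢ (d n).2.2.2.2) k (fun _ => cy β) (cy β) h
          fun n x => (Circle.exp ((d n).2.2.2.1 x.2))⁻¹ := by
        by_cases h0 : ∀ x, (cy β).Φ x = 0
        · exact ⟨fun _ => (cy β).m.p, fun _ hε => (k1.op.and f1.adm).mono fun n h => Cl.of_eq h.1
            (Eq0.refl h.2).iso (fun a x hx => (Eq0.refl h.2).par x hx a)
            (fun x _ => by simp [dP, h0, cs]) hε.le⟩
        obtain ⟨y, hy⟩ := not_forall.1 h0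
        have hs : Sm (IC I3) ξ := contMDiffOn_univ.1 hξ.sm
        refine ⟨_, cz_rot (G := D.G) hD.B hβ.adm f1 hξ (fun x => ?_) (fun x => hΦ x trivial) z1 z2⟩
        have e1 : ⟪ξ x, ξ x⟫_ℝ = ⟪ξ y, ξ y⟫_ℝ := Kah60.const_on (h := fun x => ⟪ξ x, ξ x⟫_ℝ)
          D.Z.toPre isOpen_univ isPreconnected_univ (fun w _ => ⟨(SA.inner (hs w) (hs w)).md,
            fun a => by
              rw [Pre.D_def, Wz78.dv_inner a (Wz78.adW_skw hβ.adm.conn a w) (hs w) (hs w)]
              erw [hξ.par a w trivial]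
              simp⟩) trivial trivial
        have e2 := congrArg (· ((cy β).Φ y)) (Abel74.g_sq hD.B hβ.adm.ok (hξ.mem y trivial))
        have e3 := congrArg (· ((cy β).Φ y)) (g_J (hξ.mem y trivial))
        have e4 := congrArg (· ((cy β).Φ y)) hβ.adm.ok.Jsq
        simp only [mul_apply_eq_comp, hΦ y trivial, smul_apply, neg_apply,
          (admOn_univ.2 hβ.adm).pΦ (mem_univ y)] at e2 e3 e4
        rw [← e3, e4, ← neg_one_smul ℝ] at e2
        have := smul_left_injective ℝ hy e2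
        simp only [real_inner_self_eq_norm_sq] at e1
        linarith
      obtain ⟨h, k2⟩ := this
      obtain ⟨n, hn⟩ := ((k1.comp (G := D.G) k2 f1 f1 (((z1.of_le k.le_succ).clm
        (Complex.conjCLE : ℂ →L[ℝ] ℂ)).congr (Eventually.of_forall fun _ _ _ =>
          Circle.coe_inv_eq_conj _))) ε hε).exists
      exact ⟨n, _, hn.congr (fun _ _ => rfl) fun _ _ => by simp, contDiff_const,
        fun j _ _ t => by simpa using hε.le⟩
  exact ⟨η, h0, fun r c u θ S h => h1 ⟨r, c, u, θ, S⟩ h⟩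

end Crest.Agent.X212.Cay24
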