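import Crest.Agent.X212.Cay24.GlB
import Crest.Agent.X212.Cay24.GlK

/-!
# Row 212, GL-LEV (helper24): the level of the pre-glued module
-/

set_option autoImplicit false
set_option linter.unusedSectionVars false
noncomputable section
open scoped Manifold ContDiff Topology InnerProductSpace
open MeasureTheory Set Function Filter Real

namespace Crest.Agent.X212.Cay24
open An An.Job M Nd18 Mod61 Prm93 Gj67 Sob92 Wz78
open Num57 (cwd)
open Cyf70 (IC)
open Top36 (bdd)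

variable {Wi : Type} {X : Mf 4} {A κ lam : Type} [Fintype A] [Fintype κ] [Fintype lam]
  [DecidableEq lam] {M : Mark X A κ} {W : World M} {L : ML M lam} {Λ : Lns W L}
  {A' h : Type} [Fintype A'] [DecidableEq A'] [Fintype h] {r n : ℕ}
  {J : Job Wi Λ A' h r n} {σ : Cel A'} {a : A'}
  {U Up R : Type} [NormedAddCommGroup U] [NormedSpace ℝ U] [NormedAddCommGroup Up]
  [NormedSpace ℝ Up] [NormedAddCommGroup R] [NormedSpace ℝ R] {d : Dat J σ a U Up R}
  {q₀ : Wi →₀ ℝ} {δ : ℝ}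

theorem ov_congr {Z : Mf 4} {ι : Type} [Fintype ι] (o : Z.M → R208.F.Ext Z.E)
    {e e' : ι → Met55.VF Z.I Z.M} {x : Z.M} (h : ∀ i, e i x = e' i x) (a b c f : ι) :
    ov o e a b c f x = ov o e' a b c f x := by
  have : Int54.fv e x = Int54.fv e' x := funext h
  simp only [ov, Int54.oc, Int54.cf, Int54.volF, Int54.nf, Pi.smul_apply', this]

variable (d) in
/-- the connection of the face made literal on the ends -/
def Am (τ : ℝ) := d.y.x.m.adW d.y.x.W +
  fun i x => adcL (-st d τ x • (d.y.x.W i x - d.AZ i (pY d x)))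

variable (d) in
/-- its density -/
def cS (τ : ℝ) := cwd (J.G (J.cf a) d.y.s).F (J.B (J.cf a)).o d.y.x.m.pg (Am d τ)

variable (d) in
/-- the density of the pre-glued connection -/
def cX (τ : d.Ta) :=
  cwd (d.Gh τ).F (J.B M.c0).o (d.Xs τ).md.pg ((d.Xs τ).md.adW (d.Xs τ).A0)

variable (H : d.OK q₀ δ)
include H

theorem cZ (z : d.Y × ℝ) : cwd d.D.Z d.D.B.o (d.Z 0).md.pg ((d.Z 0).md.adW (d.Z 0).A0) z = 0 :=
  Num57.cwd_cyl (Num57.vol_of_base (H.okZ 0).fam.B z)
    (fun i => (con_adW (H.okZ 0).conn).sm i z)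
    (funext fun y => (congrArg adc (tmpZ H y.1)).trans (map_zero adcL)) (fun _ _ => rfl) _

theorem pg_ψ {b : Bool} {z : d.Y × ℝ} (hz : d.R0 < -pm b * z.2) :
    (d.Z 0).md.pg z = d.y.x.m.pg ((d.KS b).ψ z) :=
  pg_congr (lit_ψ H.lp hz).symm (fun i => (lit_ψ (H.lρ i) hz).symm) (lit_ψ H.lj hz).symm

theorem lev_y : d.y.x.kap (J.B (J.cf a)) (J.G (J.cf a) d.y.s) = J.k := by
  have k := H.sol.lev
  have b : ∀ x ∈ cylW (J.cf a), d.y.k x = 0 := fun x hx => by
    have := H.sol.brk x hx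
    rw [H.tight.2 x hx] at this
    generalize d.y.k x = t at this
    generalize d.y.β x true = β at this
    generalize d.y.ζ x true = ζ at this
    cases this
    rfl
  rwa [H.tight.1, Finset.sum_eq_zero fun x _ => indicator_apply_eq_zero.2 (b x), Nat.cast_zero,
    add_zero, add_zero] at k

theorem int_S {τ : d.Ta} (G : At d τ) :
    ∫ x, cS d τ x ∂(J.G (J.cf a) d.y.s).F.μ = 128 * π ^ 2 * J.k := by
  have hB : (J.B (J.cf a)).OK _ := Λ.B_ok _ _
  have hG : (J.G (J.cf a) d.y.s).OK (J.B (J.cf a)) := Λ.G_ok _ (d.hb false).2.2.1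
  have hm := H.sol.sol.ok
  have hC := H.sol.sol.conn
  have sg := Std94.sm_pg hB hm
  have oD : ∀ b, IsOpen {z : d.Y × ℝ | d.R0 < -pm b * z.2} := fun b =>
    isOpen_lt continuous_const (by fun_prop)
  obtain ⟨δ', h1, h2, -⟩ := H.dec
  have h0 : 0 < δ' := by linarith [H.δ0]
  let g : Bool → (W.Z (J.cf a)).M → ℝ := fun b =>
    (d.KS b).ψ.target.indicator fun x => exp (-δ' * |(d.KS b).tm x|)
  have g0 : ∀ b x, 0 ≤ g b x := fun b x => indicator_nonneg (fun _ _ => (exp_pos _).le) x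
  rw [← lev_y H, Cfg.kap, kap_cwd hB hG hm hC]
  refine cw_dec (Num57.OK.of_base (W.Z _).dim hB hG) H.okS.fam.tame.choose_spec
    (fun i k l m => bdd (H.okS.fam.co i k l m)) (hG.P ▸ con_adW hC)
    (fun i => Cb_clm adcL (H.okS.cA i)) sg
    ⟨1, fun x => ContinuousLinearMap.opNorm_le_bound _ zero_le_one fun ξ => by
      simpa using norm_pg x ξ⟩ (pg_par hm hC sg) (O := {x | 0 < d.hS x})
    (isOpen_lt continuous_const d.sm_hS.continuous) (g := fun x => ∑ b, g b x)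
    (Cb_neg (cb_st d.sm_hS H.okS.ch _)) ?_ (fun x => Finset.sum_nonneg fun b _ => g0 b x)
    ⟨∑ _b : Bool, 1, fun x => Finset.sum_le_sum fun b _ => indicator_apply_le'
      (fun _ => exp_le_one_iff.2 (by nlinarith [abs_nonneg ((d.KS b).tm x)])) fun _ => zero_le_one⟩
    (integrable_finsetSum _ fun b _ => ?_) adcL (fun i x hx => ?_) (fun i x hx => ?_)
    (fun i x hx => ?_) fun i w => ?_
  · have e : support (fun x => -smoothTransition (d.hS x - (d.la τ - 2))) ⊆
        {x | d.la τ - 2 ≤ d.hS x} := fun x hx => le_of_not_gt fun k => mem_support.1 hx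
      (neg_eq_zero.2 (smoothTransition.zero_of_nonpos (sub_nonpos.2 k.le)))
    exact (closure_minimal e (isClosed_le continuous_const d.sm_hS.continuous)).trans
      fun x hx => (sub_pos.2 G.la).trans_le hx
  · refine (integrable_indicator_iff (d.KS b).ψ.open_target.measurableSet).2
      ((Nka63.integrableOn_comp_iff (d.KS b).iso).1 (IntegrableOn.congr_fun
        ((integrable_const (μ := d.D.F.μ) (1 : ℝ)).mul_prod (int_exp h0)).integrableOn
        (fun z hz => ?_) (d.KS b).ψ.open_source.measurableSet))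
    simp [(d.KS b).tm_ψ z hz]
  · obtain ⟨b, z, k, rfl⟩ := deep H.ok H.R1 hx
    have k1 := (d.KS b).ψ.map_source (src_of H k)
    refine (hC.cc.sm i _).sub (((d.KS b).rel'.sm k1 (Cb.sm ((H.okZ 0).cA i) _)).congr_of_eventuallyEq
      (((d.KS b).ψ.open_target.eventually_mem k1).mono fun y hy => ?_))
    exact congrArg (d.AZ i) ((congrArg (pY d) ((d.KS b).ψ.right_inv hy).symm).trans
      (pY_ψ H.ok ((d.KS b).ψ.map_target hy)))
  · obtain ⟨b, z, k, rfl⟩ := deep H.ok H.R1 hx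
    have e1 : ∑ l, d.D.B.P i l z • d.AZ l z.1 = d.AZ i z.1 := (H.okZ 0).conn.cc.proj i z
    simp only [smul_sub, Finset.sum_sub_distrib, hG.P, hC.cc.proj, pY_ψ H.ok (src_of H k)]
    simp only [(d.KS b).P _ _ _ (src_of H k), e1]
  · obtain ⟨b, z, k, rfl⟩ := deep H.ok H.R1 hx
    have e1 := pg_par hm hC sg i ((d.KS b).ψ z)
    have e2 : d.D.Z.D i (d.Z 0).md.pg z + (adcL (d.AZ i z.1) * (d.Z 0).md.pg z -
        (d.Z 0).md.pg z * adcL (d.AZ i z.1)) = 0 := pg_par (H.okZ 0).ok (H.okZ 0).conn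
      (Std94.sm_pg (H.okZ 0).fam.B (H.okZ 0).ok) i z
    rw [(d.KS b).rel.D (src_of H k) i (((oD b).eventually_mem k).mono fun y => pg_ψ H),
      pg_ψ H k] at e2
    have e3 := sub_eq_zero.2 (e1.trans e2.symm)
    rw [pY_ψ H.ok (src_of H k), map_sub, ← sub_eq_zero, ← e3]
    simp only [nabE, Pre.D_def, Md.adW, ← adcL_apply, sub_mul, mul_sub]
    abel
  · obtain ⟨C, hC⟩ := h2 i w
    refine ⟨|C|, fun x hx => ?_⟩
    obtain ⟨b, z, k, rfl⟩ := deep H.ok H.R1 hx
    rw [← (d.KS b).rel.Dw (src_of H k) w (u := fun z => d.y.x.W i ((d.KS b).ψ z) - d.AZ i z.1)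
      (((oD b).eventually_mem k).mono fun y hy => by rw [pY_ψ H.ok (src_of H hy)])]
    refine (hC b z k).trans (mul_le_mul (le_abs_self C) (le_trans ?_ (Finset.single_le_sum
      (fun b _ => g0 b _) (Finset.mem_univ b))) (exp_pos _).le (abs_nonneg C))
    simp only [g, indicator_of_mem ((d.KS b).ψ.map_source (src_of H k)),
      (d.KS b).tm_ψ z (src_of H k), le_refl]

variable {τ : d.Ta} (G : At d τ)
include G

theorem cS_hi {x} (hx : d.la τ - 1 < d.hS x) : cS d τ x = 0 := by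
  obtain ⟨b, z, k, rfl⟩ := deep H.ok H.R1 (show 0 < d.hS x by linarith [G.la])
  have k1 := src_of H k
  refine (cwd_rel (d.KS b).rel k1 (fun i j l m => ((d.KS b).o i j l m z k1).symm) (pg_ψ H k)
    fun i => ?_).symm.trans (cZ H z)
  filter_upwards [(d.KS b).ψ.open_source.mem_nhds k1, (d.sm_hS.continuous.continuousAt.comp
    ((d.KS b).ψ.continuousAt k1)).eventually_const_lt hx] with y h1 h2
  have e : st d τ ((d.KS b).ψ y) = 1 :=
    smoothTransition.one_of_one_le (by linarith [show d.la τ - 1 < d.hS ((d.KS b).ψ y) from h2])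
  show adcL (d.AZ i y.1) = adcL (d.y.x.W i _) + adcL _
  rw [e, pY_ψ H.ok h1, ← map_add]
  simp

theorem cX_hi {x} (hx : d.la τ - 1 < d.hX τ x) : cX d τ x = 0 := by
  have h0 : x ∈ (d.ψ τ).target := by
    rw [G.ψ.2.2.1]; show 0 < d.hX τ x; linarith [G.la]
  obtain ⟨z, k, rfl⟩ : ∃ z ∈ (d.ψ τ).source, d.ψ τ z = x :=
    ⟨_, (d.ψ τ).map_target h0, (d.ψ τ).right_inv h0⟩
  refine (cwd_rel (Pj41.fRel_of_iso G.ψ.1) k (fun i j l m => ((d.KX τ).o i j l m _ k.1.2).symm)
    (pg_congr (mix_hi _ _ k hx.le).symm (fun i => (mix_hi _ _ k hx.le).symm)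
      (mix_hi _ _ k hx.le).symm) fun i => ?_).symm.trans (cZ H z)
  filter_upwards [(d.ψ τ).open_source.mem_nhds k, ((d.sm_hX τ).continuous.continuousAt.comp
    ((d.ψ τ).continuousAt k)).eventually_const_lt hx] with y h1 h2
  exact congrArg adc (mix_hi _ _ h1 h2.le).symm

theorem cX_φ {z} (hz : z ∈ (d.φ τ).source) : cX d τ (d.φ τ z) = cS d τ z := by
  refine (cwd_rel (Pj41.fRel_of_iso G.φ.1) hz (fun i j l m => ?_)
    (pg_congr (mix_lit H G H.lp hz).symm (fun i => (mix_lit H G (H.lρ i) hz).symm)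
      (mix_lit H G H.lj hz).symm) fun i => ?_).symm
  · rw [B_eq H, φ_up H hz]
  · filter_upwards [(d.φ τ).open_source.mem_nhds hz] with y hy
    refine Eq.trans ?_ (congrArg adcL (mix_φ H G (d.y.x.W i) (d.AZ i) hy).symm)
    show adcL (d.y.x.W i _) + adcL _ = _
    rw [← map_add, neg_smul, ← sub_eq_add_neg]

theorem int_X : ∫ x, cX d τ x ∂(d.Gh τ).F.μ = 128 * π ^ 2 * J.k := by
  rw [← setIntegral_eq_integral_of_forall_compl_eq_zero (s := (d.φ τ).target) fun x hx =>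
      cX_hi H G (by rw [G.φ.2.2.1] at hx; linarith [not_lt.1 (show ¬d.hX τ x < d.la τ from hx)]),
    ← int_S H G,
    ← setIntegral_eq_integral_of_forall_compl_eq_zero (s := (d.φ τ).source) fun x hx =>
      cS_hi H G (by rw [G.φ.2.1] at hx; linarith [not_lt.1 (show ¬d.hS x < d.la τ from hx)])]
  exact (Nka63.setIntegral_comp G.φ.1 _).symm.trans
    (setIntegral_congr_fun (d.φ τ).open_source.measurableSet fun z => cX_φ H G)

omit G in
theorem ov_Gh (τ : d.Ta) : (J.B M.c0).o = ov (W.o M.c0) (d.Gh τ).F.e := by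
  show ov (W.o M.c0) (W.L J.m M.c0).F0.e = _
  by_cases k : ∀ z, Met55.FAt (d.eh τ) z
  swap
  · rw [show (d.Gh τ).F = (W.L J.m M.c0).F0 from dif_neg k]
  rw [show (d.Gh τ).F = Met55.rFr _ k from dif_pos k]
  funext i j l m z
  rw [Met55.rFr_e]
  by_cases hz : |Cht98.hZ W.toCaps M.c0 d.x z| < 3 / 4
  · rw [ov_congr _ (e := d.eh τ) (e' := J.fr M.c0 (d.s τ 0)) fun i => if_pos hz]
    exact ((W.L J.m M.c0).ob _ z (Mark.mem_Ω _ τ.2.2.2.1 z) i j l m).symm
  · rw [ov_congr _ (e := d.eh τ) (e' := J.fr M.c0 d.y.s) fun i => if_neg hz]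
    refine ((W.L J.m M.c0).ob _ z (fun x _ => ?_) i j l m).symm
    refine (((H.sol.par H.ok H.mem).1 x).2.lt_or_eq).imp_right ?_
    rintro e ⟨p, h1, rfl⟩
    obtain rfl : x = d.x := cf_sub a (H.sol.inf.le e) H.hd
    obtain ⟨y, rfl⟩ := (M.bn _).mem_core.1 h1
    exact hz ((congrArg abs (Cht98.hZ_nj W.toCaps (Cht98.act_ok τ.2).mem
      (q := (y, 0)) (by simp [Mark.c0, Sys.cores]) (by simp))).trans_lt (by norm_num))

omit G in
/-- **GL-LEV** -/
theorem lev (g : d.Geo) (b : d.Base) : d.Lev := by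
  obtain ⟨C, b⟩ := b
  filter_upwards [ev_at g, b] with τ G ⟨k, _⟩ w hw p hp
  have : CompactSpace (W.Z M.c0).M := Cyl58.caps_compact W.toCaps fun _ h => h.elim
  have hB : (J.B M.c0).OK _ := Λ.B_ok _ _
  have h1 := kap_ov hB k.fam.G0 k.ok k.conn (W.Z _).dim (W.ori _) (ov_Gh H τ)
  have h2 := kap_ov hB (k.fam.G _ hp) k.ok
    (sd_ad0 k d.cm hw.1 hw.2.2 (q := (d.Xs τ).emb p) hp).conn (W.Z _).dim (W.ori _)
    ((W.L J.m M.c0).ov_F (Mark.mem_Ω _ hp)).symm
  exact mul_left_cancel₀ (by positivity) (h2.trans (h1.symm.trans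
    ((kap_cwd hB k.fam.G0 k.ok k.conn).trans (int_X H G))))

end Crest.Agent.X212.Cay24
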