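import Crest.Agent.X212.Gla92.Lz2
import Crest.Agent.X212.Cay24.Lz
import Crest.Agent.X212.Cay24.GlS
import Crest.Agent.X212.Lpe67.Main

/-! # Row 212, GL-LOCZ (helper24): reduction to families -/

set_option autoImplicit false
set_option linter.unusedSectionVars false
noncomputable section
open scoped Manifold ContDiff Topology NNReal
open MeasureTheory Set Function Filter Real Metric

namespace Crest.Agent.X212.Cay24.Lz
open An An.Job M Nd18 Gj67 Gb50 Sob92 Lz92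
open Gl67 (g0 PP)
open Map77 (Cf)

theorem fu_rad {E : Type} [NormedAddCommGroup E] [NormedSpace ℝ E] [FiniteDimensional ℝ E]
    [MeasurableSpace E] [BorelSpace E] {HM : Type} [TopologicalSpace HM]
    {I : ModelWithCorners ℝ E HM} {M : Type} [TopologicalSpace M] [ChartedSpace HM M]
    [IsManifold I ∞ M] [MeasurableSpace M] {ι lam T : Type} [Fintype ι] [Fintype lam]
    [NormedAddCommGroup T] [NormedSpace ℝ T] {𝔉 : Mod61.Fam I M ι lam T} {r r' : ℝ} {C : ℕ → ℝ}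
    (h : FU 𝔉 r C) (e : r' ≤ r) : FU 𝔉 r' C :=
  have s := closedBall_subset_closedBall (x := (0 : T)) e
  ⟨s.trans h.sub, h.t0, fun t ht => h.tG t (s ht), h.o, h.l,
    fun a b k n t ht => h.S a b k n t (s ht), fun a b k n t ht => h.Si a b k n t (s ht),
    fun a b c k n t ht => h.cf a b c k n t (s ht), fun a k n t ht => h.la a k n t (s ht),
    fun a b c k n t ht => h.c a b c k n t (s ht), fun a k n t ht => h.dv a k n t (s ht),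
    fun a k n t ht => h.a a k n t (s ht),
    h.μ.imp fun _ k => ⟨k.1, fun i n t ht => k.2.1 i n t (s ht), k.2.2⟩⟩

variable {Wi : Type} {X : M.Mf 4} {A κ lam : Type} [Fintype A] [Fintype κ] [Fintype lam]
  [DecidableEq lam] {M : Mark X A κ} {W : World M} {L : ML M lam} {Λ : Lns W L}
  {A' h : Type} [Fintype A'] [DecidableEq A'] [Fintype h] {r n : ℕ}
  {J : Job Wi Λ A' h r n} {σ : Cel A'} {a : A'}
  {U Up R : Type} [NormedAddCommGroup U] [NormedSpace ℝ U] [NormedAddCommGroup Up]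
  [NormedSpace ℝ Up] [NormedAddCommGroup R] [NormedSpace ℝ R]
  {d : Dat J σ a U Up R} {q₀ : Wi →₀ ℝ} {δ : ℝ} {k : ℕ}

variable (d) in
/-- good neck parameters -/
structure Gt (ρ : ℝ) (C : ℕ → ℝ) (τ : d.Ta) : Prop where
  lg : Lg d τ
  ta : At d τ
  okX : (d.Xs τ).OK
  fu : FU (d.FX τ) ρ C
  su : SU (d.Xs τ) C
  ν : ∀ t, J.ν d.x (d.s τ t) = 1

theorem ev_gt (H : d.OK q₀ δ) : ∃ ρ : ℝ≥0, 0 < ρ ∧ ∃ C, (∀ᶠ τ in d.lg, Gt d ρ C τ) ∧
    (∀ τ ∈ Icc (0 : ℝ) 1, ∀ t : Tc σ a, ‖t‖ ≤ ρ → d.s τ t ∈ cl σ) ∧ d.D.Z.Tame C ∧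
    ∀ i, d.D.Z.CBs (d.D.Z.D i Prod.snd) C := by
  obtain ⟨r₁, p1, C₁, -, fX⟩ := (geo H).fam
  obtain ⟨C₂, hb⟩ := base H
  obtain ⟨r₂, p2, hc⟩ := s_cl H
  obtain ⟨C₃, h3⟩ := (H.okZ 0).fam.tame
  obtain ⟨C₄, h4⟩ := cbs_Dτ d.D
  obtain ⟨s₀, k1, k2⟩ := H.ok.lin
  refine ⟨⟨min r₁ r₂, by positivity⟩, lt_min p1 p2, fun k => max (max (C₁ k) (C₂ k)) (max (C₃ k) (C₄ k)),
    ?_, fun τ hτ t ht => hc τ hτ t (ht.trans (min_le_right _ _)),
    Cht98.Tame_mono h3 fun _ => le_max_of_le_right (le_max_left _ _), fun i => Cht98.CBs_mono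
      (Nka63.nk_τ (D := d.D) ▸ h4 d.D.nk i) fun _ => le_max_of_le_right (le_max_right _ _)⟩
  filter_upwards [ev_lg H, ev_at (geo H), fX, hb, (tendsto_comap (f := Subtype.val)).eventually
    (Ici_mem_nhds k1)] with τ a1 a2 a3 a4 a5
  exact ⟨a1, a2, a4.1, fu_rad (Lpe67.fu_mono a3.2.1 fun _ => le_max_of_le_left (le_max_left _ _))
    (min_le_left _ _), Lpe67.su_mono a4.2.1 fun _ => le_max_of_le_left (le_max_right _ _), fun t =>
      (k2 a _ H.hd _ (le_of_le_of_eq a5 (ee_a _ _ _).symm)).2 (d.hb true).1⟩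

variable (d δ k) in
/-- the estimate -/
def Pz (η : ℝ≥0) (t : ℝ) (τ : d.Ta) (q : Wi →₀ ℝ) (w w' : (W.Z M.c0).M → Cf (Option κ) (Fin d.N))
    (p : PP (Tc σ a) U r h d.N) : Prop :=
  (d.sZ τ q).Q (g0 δ) (Ici t) k ((d.sZ τ q).E (pull (d.ψ τ) w') p - (d.sX τ q).E w p ∘ d.ψ τ) ≤ η

theorem pz_of {F : Fz d q₀ δ k} (h : F.FinZ) {η : ℝ≥0} (hη : 0 < η) :
    ∃ t, ∀ᶠ e in F.l, Pz d δ k η t (F.τ e) (F.q e) (F.w e) (F.w' e) (F.p e) := h η hη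

/-- **LEAF RED** -/
theorem locZ_of (H : d.OK q₀ δ) (hk : 7 ≤ k) (fin : ∀ F : Fz d q₀ δ k, F.FinZ) : d.LocZ q₀ δ k :=
  fun α l τ q hτ ⟨S, s1, s2⟩ => by
  obtain ⟨ρ, p0, C, gt, hc, tz, cs⟩ := ev_gt H
  have θ1 : δ < min (2 * δ) ((J.xs d.x).N.δ / 4) :=
    lt_min (by linarith [H.δ0]) (by linarith [H.δ1.2 d.x])
  have θ2 : 4 * min (2 * δ) ((J.xs d.x).N.δ / 4) ≤ (J.xs d.x).N.δ := by
    linarith [min_le_right (2 * δ) ((J.xs d.x).N.δ / 4)]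
  refine ⟨ρ, p0, fun b η hη => ?_⟩
  let 𝒟 := {z : α × ((W.Z M.c0).M → Cf (Option κ) (Fin d.N)) ×
      ((W.Z M.c0).M → Cf (Option κ) (Fin d.N)) × PP (Tc σ a) U r h d.N // Gt d ρ C (τ z.1) ∧
    z.2.1 ∈ Sec (W.Z M.c0).I (d.Xs (τ z.1)).bd.pC ∧ z.2.2.1 ∈ Sec (W.Z M.c0).I (d.Xs (τ z.1)).bd.pC ∧
    tsupport z.2.2.1 ⊆ d.hX (τ z.1) ⁻¹' Ici 1 ∧ (∀ x, b < d.hX (τ z.1) x → z.2.2.1 x = z.2.1 x) ∧
    ‖z.2.2.2‖ ≤ ρ ∧ (d.sX (τ z.1) (q z.1)).Q (g0 δ) univ (k + 1) z.2.1 ≤ ρ ∧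
    (d.sX (τ z.1) (q z.1)).Q (g0 δ) univ (k + 1) z.2.2.1 ≤ ρ}
  obtain ⟨t, ht⟩ := Lcz33.ev_ultra (l := comap (fun e : 𝒟 => e.1.1) l)
    (P := fun t e => Pz d δ k η t (τ e.1.1) (q e.1.1) e.1.2.1 e.1.2.2.1 e.1.2.2.2)
    (fun _ _ e _ k => (Gl67.Sd.Q_mono (Ici_subset_Ici.2 e)).trans k) fun 𝒰 hU => by
    have n1 : ∀ e : 𝒟, ‖e.1.2.2.2.1‖ ≤ ρ := fun e => (norm_fst_le _).trans e.2.2.2.2.2.2.1
    have tU := tendsto_comap.mono_left hU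
    obtain ⟨t₀, k0, k1⟩ := (isCompact_closedBall (0 : Tc σ a) ρ).ultrafilter_le_nhds'
      (𝒰.map fun e : 𝒟 => e.1.2.2.2.1) (Filter.mem_map.2 (univ_mem' fun e =>
        mem_closedBall_zero_iff.2 (n1 e)))
    exact pz_of (fin
      { 𝒟 := 𝒟
        l := 𝒰
        τ e := τ e.1.1
        q e := q e.1.1
        w e := e.1.2.1
        w' e := e.1.2.2.1
        p e := e.1.2.2.2
        b := b
        ρ := ρ
        t₀ := t₀
        C := C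
        θ := min (2 * δ) ((J.xs d.x).N.δ / 4)
        ok := H
        hk := hk
        tτ := hτ.comp tU
        tp := k1
        cv := ⟨S, fun _ => s1 _, fun w => (s2 w).comp tU⟩
        lg e := e.2.1.lg
        ta e := e.2.1.ta
        okX e := e.2.1.okX
        fu e := e.2.1.fu
        su e := e.2.1.su
        np e := e.2.2.2.2.2.2.1
        cl e := hc _ ⟨one_half_pos.le.trans e.2.1.lg.half, e.2.1.lg.lt.le⟩ _ (n1 e)
        cl0 := hc 1 ⟨zero_le_one, le_rfl⟩ _ (mem_closedBall_zero_iff.1 k0)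
        ν e := e.2.1.ν _
        tz := tz
        cs := cs
        δθ := θ1
        θδ := min_le_left _ _
        θN := θ2
        sw e := e.2.2.1
        sw' e := e.2.2.2.1
        ts e := e.2.2.2.2.1
        eq e := e.2.2.2.2.2.1
        Q e := e.2.2.2.2.2.2.2.1
        Q' e := e.2.2.2.2.2.2.2.2 }) hη
  refine ⟨t, ?_⟩
  filter_upwards [eventually_comap.1 ht, hτ.eventually gt] with i a1 a2 w b1 w' b2 b3 b4 p b5 b6 b7
  exact (a1 ⟨(i, w, w', p), a2, b1, b2, b3, b4, b5, b6, b7⟩ rfl : Pz d δ k η t (τ i) (q i) w w' p)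

/-- **LEAF LOC-Z** -/
theorem locZ (H : d.OK q₀ δ) (hk : 7 ≤ k) : d.LocZ q₀ δ k :=
  locZ_of H hk fun F => fin F (F.hkZ (pk F))

end Crest.Agent.X212.Cay24.Lz
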