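import Crest.Agent.X212.Dec35.Defs
import Crest.Agent.X212.Sob92.NemF

/-!
# Row 212, DEC / CAY (helper24): uniform weighted bounds for families of functions
-/

set_option autoImplicit false
set_option linter.unusedSectionVars false
noncomputable section
open scoped Manifold ContDiff Topology InnerProductSpace
open MeasureTheory Set Function Filter Real

namespace Crest.Agent.X212.Cay24
open An Sob92 Dec35

variable {E : Type} [NormedAddCommGroup E] [NormedSpace ℝ E] [FiniteDimensional ℝ E]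
  [MeasurableSpace E] [BorelSpace E]
  {HM : Type} [TopologicalSpace HM] {I : ModelWithCorners ℝ E HM} [I.Boundaryless]
  {M : Type} [TopologicalSpace M] [ChartedSpace HM M] [IsManifold I ∞ M] [MeasurableSpace M]
  [T2Space M] [BorelSpace M] [SecondCountableTopology M] {ι : Type} [Fintype ι]
  {N N' N'' : Type} [NormedAddCommGroup N] [NormedSpace ℝ N] [NormedAddCommGroup N']
  [NormedSpace ℝ N'] [NormedAddCommGroup N''] [NormedSpace ℝ N'']

section fl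
variable {F : Pre I M ι} {u v : M → N} {S : ℝ}

theorem md (hu : Sm I u) (x : M) : MDifferentiableAt I 𝓘(ℝ, N) u x :=
  hu.mdifferentiableAt (by simp)

theorem N2_nn (k : ℕ) (u : M → N) : 0 ≤ N2 F k u := n2_nonneg k u

theorem fl_add (hu : Fl F u) (hv : Fl F v) : Fl F fun x => u x + v x :=
  ⟨hu.sm.add hv.sm, fun k => ML.add F.sm hu.sm hv.sm (hu.fl k) (hv.fl k)⟩

theorem fl_mul (B : N →L[ℝ] N' →L[ℝ] N'') {f : M → N} {u : M → N'} (hf : F.Cb f) (hu : Fl F u) :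
    Fl F fun x => B (f x) (u x) :=
  let ⟨_, h⟩ := hf
  ⟨smooth_bil B h.1 hu.sm, fun k => (N2_mul B h.1 hu.sm (h.2 k) (hu.fl k)).1⟩

theorem fl_D (hu : Fl F u) (a : ι) : Fl F (F.D a u) :=
  ⟨F.sm_D hu.sm a, fun k => (hu.fl (k + 1)).2 a⟩

theorem N2_add (k : ℕ) (hu : Fl F u) (hv : Fl F v) :
    N2 F k (fun x => u x + v x) ≤ 2 * N2 F k u + 2 * N2 F k v :=
  n2_add_le F.sm k hu.sm hv.sm (hu.fl k) (hv.fl k)

theorem N2_smul {k : ℕ} {f : M → ℝ} {C : ℝ} (hf : Sm I f) (hC : F.CB k f C) (hu : Fl F u) :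
    N2 F k (fun x => f x • u x) ≤ (cK ι k * C) ^ 2 * N2 F k u := by
  refine (N2_mul (ContinuousLinearMap.lsmul ℝ ℝ) hf hu.sm hC (hu.fl k)).2.trans
    (mul_le_mul_of_nonneg_right ?_ (N2_nn k u))
  rw [mul_right_comm, mul_pow]
  exact mul_le_of_le_one_right (sq_nonneg _)
    (pow_le_one₀ (ContinuousLinearMap.opNorm_nonneg _) ContinuousLinearMap.opNorm_lsmul_le)

/-- the Sobolev inequality for functions with all derivatives in `L²` -/
def SupF (F : Pre I M ι) (S : ℝ) : Prop := 0 ≤ S ∧ ∀ (N : Type) [NormedAddCommGroup N]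
  [NormedSpace ℝ N] (u : M → N), Fl F u → ∀ x, ‖u x‖ ^ 2 ≤ S * N2 F 4 u

theorem exists_supF {F : Fr I M ι} {C : ℕ → ℝ} (h : F.Tame C) : ∃ S, SupF F.toPre S := by
  refine ⟨|C 0| * (cK ι 4 * C 4) ^ 2, by positivity, fun N _ _ u hu x => ?_⟩
  obtain ⟨χ, h1, h2, -, h3⟩ := h.exh {x} isCompact_singleton
  have := (Sup.of_tame h).sq_le (h1.1.smul hu.sm)
    (hcs_bil_left (ContinuousLinearMap.lsmul ℝ ℝ) u h2) x
  rw [Pi.smul_apply', h3 x rfl, one_smul] at this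
  rw [mul_assoc]
  exact this.trans (mul_le_mul_of_nonneg_left (N2_smul h1.1 (h1.2 4) hu) (abs_nonneg _))

theorem SupF.cb (hS : SupF F S) (i : ℕ) : ∀ {u : M → N}, Fl F u →
    cb I F.e i u √(S * N2 F (i + 3) u) := by
  have := hS.1
  induction i with
  | zero => exact fun _ => trivial
  | succ i ih =>
    intro u hu
    refine ⟨fun x => Real.le_sqrt_of_sq_le ((hS.2 _ u hu x).trans ?_), fun a =>
      (ih (fl_D hu a)).mono (Real.sqrt_le_sqrt ?_)⟩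
    · gcongr; exact n2_mono (by omega) u
    · gcongr; exact n2_dv_le (i + 3) u a

theorem SupF.Cb (hS : SupF F S) (hu : Fl F u) : F.Cb u :=
  ⟨_, hu.sm, fun k => CB_iff.2 (hS.cb (k + 1) hu)⟩

theorem SupF.bil (hS : SupF F S) (B : N →L[ℝ] N' →L[ℝ] N'') {k j l : ℕ} (h : Lev k j l)
    {v : M → N'} (hu : Fl F u) (hv : Fl F v) :
    N2 F l (fun x => B (u x) (v x)) ≤ 2 * S * (cK ι l * ‖B‖) ^ 2 * N2 F k u * N2 F j v := by
  obtain ⟨hk, hj, hl⟩ := h
  have := hS.1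
  obtain ⟨i, i', hi, h1, h2⟩ : ∃ i i', i + i' = l + 1 ∧ i ≤ k - 3 ∧ i' ≤ j - 3 :=
    ⟨min (k - 3) (l + 1), l + 1 - min (k - 3) (l + 1), by omega, by omega, by omega⟩
  have c1 : Sob92.cb I F.e i u √(S * N2 F k u) := by
    rcases i with _ | i
    · trivial
    · exact (hS.cb _ hu).mono (Real.sqrt_le_sqrt (by gcongr; exact n2_mono (by omega) u))
  have c2 : Sob92.cb I F.e i' v √(S * N2 F j v) := by
    rcases i' with _ | i'
    · trivial
    · exact (hS.cb _ hv).mono (Real.sqrt_le_sqrt (by gcongr; exact n2_mono (by omega) v))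
  have p1 := N2_nn (F := F) k u
  have p2 := N2_nn (F := F) j v
  have := (n2_bil (μ := F.μ) F.sm B l i i' hi hu.sm hv.sm c1 c2 (fun _ => hu.fl l)
    fun _ => hv.fl l).2
  rw [Real.sq_sqrt (by positivity), Real.sq_sqrt (by positivity)] at this
  have q1 := n2_mono (I := I) (e := F.e) (μ := F.μ) hk u
  have q2 := n2_mono (I := I) (e := F.e) (μ := F.μ) hj v
  refine this.trans ?_
  calc _ ≤ (2 * Fintype.card ι + 3) ^ l * ‖B‖ ^ 2 *
        (S * N2 F k u * N2 F j v + S * N2 F j v * N2 F k u) := by gcongr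
    _ = _ := by rw [mul_pow, cK_sq]; ring

theorem sm_exp {ψ : M → ℝ} (h : Sm I ψ) (σ : ℝ) : Sm I fun x => exp (σ * ψ x) :=
  sm_comp (g := fun t => exp (σ * t)) (by fun_prop) h

theorem D_exp {ψ : M → ℝ} (h : Sm I ψ) (σ : ℝ) (a : ι) (x : M) :
    F.D a (fun x => exp (σ * ψ x)) x = σ * (F.D a ψ x * exp (σ * ψ x)) := by
  refine (dv_comp (md h x) (((hasDerivAt_id' (ψ x)).const_mul σ).exp.hasFDerivAt)).trans ?_
  simp [Pre.D_def]
  ring

theorem CB_exp (σ A : ℝ) (D : ℕ → ℝ) (k : ℕ) : ∃ K, ∀ ψ : M → ℝ, Sm I ψ → (∀ x, σ * ψ x ≤ A) →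
    (∀ a, F.CBs (F.D a ψ) D) → F.CB k (fun x => exp (σ * ψ x)) K := by
  have h0 : ∀ ψ : M → ℝ, (∀ x, σ * ψ x ≤ A) → ∀ x, ‖exp (σ * ψ x)‖ ≤ exp A := fun ψ h x => by
    rw [Real.norm_of_nonneg (exp_pos _).le]; exact exp_le_exp.2 (h x)
  induction k with
  | zero => exact ⟨_, fun ψ _ h _ => CB_zero.2 (h0 ψ h)⟩
  | succ k ih =>
    obtain ⟨K, hK⟩ := ih
    refine ⟨max (exp A) (2 ^ (k + 1) * ‖σ • ContinuousLinearMap.mul ℝ ℝ‖ * |D k| * |K|),
      fun ψ h1 h2 h3 => CB_succ.2 ⟨fun x => (h0 ψ h2 x).trans (le_max_left _ _), fun a => ?_⟩⟩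
    rw [funext (D_exp h1 σ a)]
    exact CB_mono (CB_bil (σ • ContinuousLinearMap.mul ℝ ℝ) (h3 a).1 (sm_exp h1 σ) ((h3 a).2 k)
      (hK ψ h1 h2 h3)) (le_max_right _ _)

variable {ψ : M → ℝ} {d : ℝ} {D : ℕ → ℝ}

theorem fl_exp (h : Wd F ψ d D) (hu : Fl F u) : Fl F fun x => exp (ψ x) • u x := by
  obtain ⟨A, hA⟩ := h.bd
  choose K hK using CB_exp (F := F) 1 A D
  have : F.Cb fun x => exp (1 * ψ x) :=
    ⟨K, sm_exp h.sm 1, fun k => hK k ψ h.sm (by simpa using hA) h.der⟩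
  simp only [one_mul] at this
  exact fl_mul (ContinuousLinearMap.lsmul ℝ ℝ) this hu

/-- the square of the weighted norm -/
def W2 (F : Pre I M ι) (k : ℕ) (ψ : M → ℝ) (u : M → N) : ℝ := N2 F k fun x => exp (ψ x) • u x

theorem W2_nn (k : ℕ) (ψ : M → ℝ) (u : M → N) : 0 ≤ W2 F k ψ u := N2_nn _ _

theorem nw_sq {V : Type} [NormedAddCommGroup V] [InnerProductSpace ℝ V] (k : ℕ) (ψ : M → ℝ)
    (u : M → V) : nw F k ψ u ^ 2 = W2 F k ψ u := nrm_sq _ _

theorem N2_le_W2 (F : Pre I M ι) (D : ℕ → ℝ) (k : ℕ) : ∃ K ≥ 0, ∀ (ψ : M → ℝ) (d : ℝ) (u : M → N),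
    Wd F ψ d D → Fl F u → N2 F k u ≤ K * W2 F k ψ u := by
  obtain ⟨K, hK⟩ := CB_exp (F := F) (-1) 0 D k
  refine ⟨_, sq_nonneg (cK ι k * K), fun ψ d u h hu => ?_⟩
  have := N2_smul (sm_exp h.sm (-1)) (hK ψ h.sm (fun x => by linarith [h.nn x]) h.der) (fl_exp h hu)
  simp only [smul_smul, ← exp_add, neg_mul, one_mul, neg_add_cancel, exp_zero] at this
  simp only [one_smul] at this
  exact this

end fl

variable {T : Type}

/-- the weights of a family -/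
structure Ok (F : Pre I M ι) (S : Set T) (ψ : T → M → ℝ) : Prop where
  sup : ∃ c, SupF F c
  wd : ∃ D, ∀ t ∈ S, ∃ d, Wd F (ψ t) d D

/-- the square of the weighted norm of `f t` is `O(s t)` -/
def Ob (F : Pre I M ι) (S : Set T) (ψ : T → M → ℝ) (k : ℕ) (f : T → M → N) (s : T → ℝ) : Prop :=
  ∃ K ≥ 0, ∀ t ∈ S, Fl F (f t) ∧ W2 F k (ψ t) (f t) ≤ K * s t

variable {F : Pre I M ι} {S S' : Set T} {ψ : T → M → ℝ} {k j l : ℕ} {f g : T → M → N}
  {s s' : T → ℝ}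

theorem Ok.sub (h : Ok F S ψ) (hS : S' ⊆ S) : Ok F S' ψ :=
  ⟨h.sup, h.wd.imp fun _ h t ht => h t (hS ht)⟩

namespace Ob

theorem self (h : ∀ t ∈ S, Fl F (f t)) : Ob F S ψ k f fun t => W2 F k (ψ t) (f t) :=
  ⟨1, zero_le_one, fun t ht => ⟨h t ht, (one_mul _).ge⟩⟩

theorem fl (h : Ob F S ψ k f s) {t : T} (ht : t ∈ S) : Fl F (f t) := (h.choose_spec.2 t ht).1

theorem sub (h : Ob F S ψ k f s) (hS : S' ⊆ S) : Ob F S' ψ k f s :=
  let ⟨K, h0, h⟩ := h; ⟨K, h0, fun t ht => h t (hS ht)⟩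

theorem mono (h : Ob F S ψ k f s) (hs : ∀ t ∈ S, s t ≤ s' t) : Ob F S ψ k f s' :=
  let ⟨K, h0, h⟩ := h
  ⟨K, h0, fun t ht => ⟨(h t ht).1, (h t ht).2.trans (mul_le_mul_of_nonneg_left (hs t ht) h0)⟩⟩

theorem of_le (h : Ob F S ψ k f s) (hj : j ≤ k) : Ob F S ψ j f s :=
  let ⟨K, h0, h⟩ := h
  ⟨K, h0, fun t ht => ⟨(h t ht).1, (n2_mono hj _).trans (h t ht).2⟩⟩

theorem congr (h : Ob F S ψ k f s) (e : ∀ t ∈ S, ∀ x, g t x = f t x) : Ob F S ψ k g s :=
  let ⟨K, h0, h⟩ := h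
  ⟨K, h0, fun t ht => funext (e t ht) ▸ h t ht⟩

variable (o : Ok F S ψ)
include o

theorem add (h : Ob F S ψ k f s) (h' : Ob F S ψ k g s) :
    Ob F S ψ k (fun t x => f t x + g t x) s := by
  obtain ⟨D, hD⟩ := o.wd
  obtain ⟨K, h0, h⟩ := h
  obtain ⟨K', h0', h'⟩ := h'
  refine ⟨2 * K + 2 * K', by positivity, fun t ht => ⟨fl_add (h t ht).1 (h' t ht).1, ?_⟩⟩
  obtain ⟨d, w⟩ := hD t ht
  have := N2_add k (fl_exp w (h t ht).1) (fl_exp w (h' t ht).1)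
  have a := (h t ht).2
  have b := (h' t ht).2
  simp only [W2, smul_add] at a b ⊢
  linarith

theorem mul (B : N' →L[ℝ] N →L[ℝ] N'') {c : M → N'} (hc : F.Cb c) (h : Ob F S ψ k f s) :
    Ob F S ψ k (fun t x => B (c x) (f t x)) s := by
  obtain ⟨D, hD⟩ := o.wd
  obtain ⟨K, h0, h⟩ := h
  obtain ⟨C, c1, c2⟩ := id hc
  refine ⟨(cK ι k * ‖B‖ * C k) ^ 2 * K, by positivity, fun t ht => ⟨fl_mul B hc (h t ht).1, ?_⟩⟩
  obtain ⟨d, w⟩ := hD t ht
  have e := fl_exp w (h t ht).1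
  have := (N2_mul B c1 e.sm (c2 k) (e.fl k)).2
  simp only [map_smul] at this
  rw [mul_assoc]
  exact this.trans (mul_le_mul_of_nonneg_left (h t ht).2 (sq_nonneg _))

theorem clm (L : N →L[ℝ] N') (h : Ob F S ψ k f s) : Ob F S ψ k (fun t x => L (f t x)) s :=
  mul o (ContinuousLinearMap.id ℝ (N →L[ℝ] N')) (Cb_const L) h

theorem neg (h : Ob F S ψ k f s) : Ob F S ψ k (fun t x => -f t x) s :=
  clm o (-ContinuousLinearMap.id ℝ N) h

theorem sub' (h : Ob F S ψ k f s) (h' : Ob F S ψ k g s) :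
    Ob F S ψ k (fun t x => f t x - g t x) s :=
  (add o h (neg o h')).congr fun _ _ _ => sub_eq_add_neg _ _

theorem bil (B : N →L[ℝ] N' →L[ℝ] N'') (hl : Lev k j l) {g : T → M → N'} (h : Ob F S ψ k f s)
    (h' : Ob F S ψ j g s') : Ob F S ψ l (fun t x => B (f t x) (g t x)) fun t => s t * s' t := by
  obtain ⟨c, hc⟩ := o.sup
  obtain ⟨D, hD⟩ := o.wd
  obtain ⟨K, h0, h⟩ := h
  obtain ⟨K', h0', h'⟩ := h'
  obtain ⟨L, l0, hL⟩ := N2_le_W2 (N := N') F D j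
  have := hc.1
  refine ⟨2 * c * (cK ι l * ‖B‖) ^ 2 * K * (L * K'), by positivity,
    fun t ht => ⟨fl_mul B (hc.Cb (h t ht).1) (h' t ht).1, ?_⟩⟩
  obtain ⟨d, w⟩ := hD t ht
  have a := hc.bil B hl (fl_exp w (h t ht).1) (h' t ht).1
  simp only [map_smul, smul_apply] at a
  have b := (hL _ d _ w (h' t ht).1).trans (mul_le_mul_of_nonneg_left (h' t ht).2 l0)
  have b' := (h t ht).2
  have p := (W2_nn _ _ _).trans b'
  have p' := N2_nn (F := F) j (g t)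
  calc _ ≤ _ := a
    _ ≤ 2 * c * (cK ι l * ‖B‖) ^ 2 * (K * s t) * (L * (K' * s' t)) := by gcongr; exact b'
    _ = _ := by ring

theorem D (h : Ob F S ψ (k + 1) f s) (a : ι) : Ob F S ψ k (fun t => F.D a (f t)) s := by
  obtain ⟨D, hD⟩ := o.wd
  obtain ⟨K, h0, h⟩ := h
  let B : ℝ →L[ℝ] N →L[ℝ] N := -ContinuousLinearMap.lsmul ℝ ℝ
  refine ⟨(2 + 2 * (cK ι k * ‖B‖ * D k) ^ 2) * K, by positivity,
    fun t ht => ⟨fl_D (h t ht).1 a, ?_⟩⟩
  obtain ⟨d, w⟩ := hD t ht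
  have e := fl_exp w (h t ht).1
  have a1 := N2_add k (fl_D e a) (fl_mul B ⟨_, w.der a⟩ e)
  have a2 := (N2_mul B (w.der a).1 e.sm ((w.der a).2 k) (e.fl k)).2
  have a3 : N2 F k (F.D a fun x => exp (ψ t x) • f t x) ≤ K * s t :=
    (n2_dv_le k _ a).trans (h t ht).2
  have a4 := mul_le_mul_of_nonneg_left ((n2_le_succ k _).trans (h t ht).2)
    (sq_nonneg (cK ι k * ‖B‖ * D k))
  have e1 : (fun x => exp (ψ t x) • F.D a (f t) x) = fun x =>
      F.D a (fun x => exp (ψ t x) • f t x) x + B (F.D a (ψ t) x) (exp (ψ t x) • f t x) := by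
    funext x
    have b1 := sm_exp w.sm 1
    have b2 := D_exp (F := F) w.sm 1 a x
    simp only [one_mul, Pre.D_def] at b1 b2
    simp only [Pre.D_def, dv_smul (md b1 x) (md (h t ht).1.sm x), b2, B, mul_smul,
      neg_apply, ContinuousLinearMap.lsmul_apply]
    abel
  rw [W2, e1]
  linarith

theorem nab {A : ι → M → N →L[ℝ] N} {a : ι} (hA : F.Cb (A a)) (h : Ob F S ψ (k + 1) f s) :
    Ob F S ψ k (fun t => Wz78.nab I F.e A a (f t)) s :=
  add o (D o h a) (mul o (ContinuousLinearMap.id ℝ (N →L[ℝ] N)) hA (h.of_le k.le_succ))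

theorem lp {V α : Type} [NormedAddCommGroup V] [InnerProductSpace ℝ V] [Fintype α]
    {v : α → T → M → V} (h : ∀ a, Ob F S ψ k (v a) s) :
    Ob F S ψ k (fun t x => (WithLp.toLp 2 fun a => v a t x : Fm α V)) s := by
  classical
  have key : ∀ J : Finset α, Ob F S ψ k (fun t x => ∑ a ∈ J, Map77.ij V a (v a t x)) s := by
    intro J
    induction J using Finset.induction_on with
    | empty =>
      refine ⟨0, le_rfl, fun t _ => ⟨⟨by simpa using contMDiff_const, fun k => ?_⟩, ?_⟩⟩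
      · exact FL_of_hcs k (by simpa using contMDiff_const) (by simp only [Finset.sum_empty]; exact HasCompactSupport.zero)
      · have := n2_clm_le (μ := F.μ) F.sm (0 : ℝ →L[ℝ] Fm α V) k (u := fun _ => 0) contMDiff_const
          (FL_of_hcs k contMDiff_const HasCompactSupport.zero)
        simpa [W2] using this
    | insert a J ha ih =>
      exact (add o (clm o (Map77.ij V a) (h a)) ih).congr fun _ _ _ => Finset.sum_insert ha
  exact (key Finset.univ).congr fun t _ x => Map77.fm_ext fun a => (Map77.sum_ij _ a).symm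

end Ob

end Crest.Agent.X212.Cay24
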