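import Crest.Agent.X212.Cay24.Dt
import Crest.Agent.X212.Dec35.Hyp

/-!
# Row 212, DEC / OUT (helper24): exponential convergence in one gauge
-/

set_option autoImplicit false
set_option linter.unusedSectionVars false
noncomputable section
open scoped Manifold ContDiff Topology InnerProductSpace
open MeasureTheory Set Function Filter Real

namespace Crest.Agent.X212.Cay24
open An Sob92 Cyf70 Neck67 Cmp73 Pj41 Eqv71 Tmp64 Nd18 Bki64

theorem cl_pre {E HM M ι lam : Type} [NormedAddCommGroup E] [NormedSpace ℝ E]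
    [FiniteDimensional ℝ E] [MeasurableSpace E] [BorelSpace E] [TopologicalSpace HM]
    {I : ModelWithCorners ℝ E HM} [TopologicalSpace M] [ChartedSpace HM M] [IsManifold I ∞ M]
    [MeasurableSpace M] [Fintype ι] [Fintype lam] {r r' k : ℕ} {F : Fr I M ι} {c c' : Cfg M ι lam r}
    {c'' : Cfg M ι lam r'} {τ : M → CL c.m.V c'.m.V} {h : M → CL c'.m.V c''.m.V} {ζ : M → Circle}
    {O O' : Set M} {η : ℝ} (e : Eq0 F c c' O τ) (H : Cl F c' c'' h ζ O' k η) (hO : O' ⊆ O) :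
    Cl F c c'' (fun x => h x ∘L τ x) ζ O' k η :=
  ⟨H.op, (e.iso.mono hO).trans H.iso, fun a => (H.A a).congr H.op fun x hx => by
    rw [dA_comp (e.iso.mono hO) H.iso hx, show dA F c c' τ a x = 0 from
      (congrArg (· ∘L trn (τ x)) (e.par x (hO hx) a)).trans (ContinuousLinearMap.zero_comp _)]
    simp, H.P.congr H.op fun x hx => by rw [dP, dP, e.Φ x (hO hx)]; rfl⟩

variable {E3 : Type} [NormedAddCommGroup E3] [NormedSpace ℝ E3] [FiniteDimensional ℝ E3]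
  [MeasurableSpace E3] [BorelSpace E3]
  {H3 : Type} [TopologicalSpace H3] {I3 : ModelWithCorners ℝ E3 H3} [I3.Boundaryless]
  {Y : Type} [TopologicalSpace Y] [ChartedSpace H3 Y] [IsManifold I3 ∞ Y] [T2Space Y]
  [MeasurableSpace Y] [BorelSpace Y] [SecondCountableTopology Y] [CompactSpace Y]
  {κ : Type} [Fintype κ] {lam : Type} [Fintype lam] {D : YD I3 Y κ lam} {β : YC Y κ lam} {r : ℕ}
  {c : Cfg (Y × ℝ) (Option κ) lam r} {O : Set (Y × ℝ)} {x : Y × ℝ}

/-- a configuration on a half cylinder is equivalent to a global one in temporal gauge -/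
theorem exists_tmp' (hD : D.OK) {σ T : ℝ} (hσ : σ = 1 ∨ σ = -1)
    (hc : AdmOn c D.B D.G (univ ×ˢ {s | T < σ * s})) :
    ∃ (c' : Cfg (Y × ℝ) (Option κ) lam r) (τ : Y × ℝ → CL c.m.V c'.m.V), c'.Adm D.B D.G ∧ Tmp c' ∧
      Tmp64.Red c' ∧ Eq0 D.Z c c' (univ ×ˢ {s | T + 1 < σ * s}) τ := by
  let θ : ℝ → ℝ := fun t => t + (1 - smoothTransition (σ * t - T)) * (σ * (T + 1) - t)
  have h1 : ContDiff ℝ ∞ θ := contDiff_id.add ((contDiff_const.sub (smoothTransition.contDiff.comp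
    (by fun_prop))).mul (by fun_prop))
  have h2 : ∀ t, T < σ * θ t := fun t => by
    have e : σ * θ t = σ * t + (1 - smoothTransition (σ * t - T)) * (T + 1 - σ * t) := by
      rw [← σ_σ hσ (T + 1)]; simp only [θ]; ring
    rw [e]
    rcases le_or_gt (σ * t - T) 0 with h | h
    · rw [smoothTransition.zero_of_nonpos h]; linarith
    · rcases (smoothTransition.le_one (σ * t - T)).eq_or_lt with h' | h'
      · rw [h']; linarith
      · nlinarith [mul_nonneg (smoothTransition.nonneg (σ * t - T)) h.le]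
  have h3 : ∀ t, T + 1 < σ * t → θ t = t := fun t h => by
    simp only [θ, smoothTransition.one_of_one_le (show 1 ≤ σ * t - T by linarith)]; ring
  have h4 : ∀ x ∈ (univ ×ˢ {s | T + 1 < σ * s} : Set (Y × ℝ)), Tmp64.sq θ x = x := fun x hx =>
    Prod.ext rfl (h3 _ hx.2)
  have h5 : ∀ x ∈ (univ ×ˢ {s | T + 1 < σ * s} : Set (Y × ℝ)), ∀ a : Option κ, sw θ a x.2 = 1 :=
    fun x hx a => by
      cases a
      · exact (EventuallyEq.deriv_eq (Eventually.mono ((isOpen_lt continuous_const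
          (by fun_prop)).mem_nhds hx.2) h3)).trans (deriv_id x.2)
      · rfl
  have e0 := Eq0.refl (hc.mono (O' := univ ×ˢ {s | T + 1 < σ * s})
    (prod_mono_right fun s (h : T + 1 < σ * s) => (lt_add_one T).trans h))
  obtain ⟨u, k1, k2, k3, k4, -⟩ := (cyD D).exists_tmp hD.B ((cyD D).adm_sq_of_band h1 h2 hc) 0
  refine ⟨_, _, k1, k3, k4, Eq0.trans (c' := sqC θ c) (u := c.m.p) ⟨⟨e0.iso.su, fun x hx => ?_,
    e0.iso.J, fun x hx b => ?_, fun x hx s => ?_⟩, fun x hx a => ?_, fun x hx => ?_, rfl⟩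
    (k2.mono (subset_univ _))⟩
  all_goals simp only [sqC, sqM, h4 x hx, h5 x hx, one_smul]
  exacts [e0.iso.iso x hx, e0.iso.ρ x hx b, e0.iso.j x hx s, e0.par x hx a, e0.Φ x hx]

/-- a configuration on the module of `β` -/
abbrev mv (β : YC Y κ lam) (W : β.m.Cn) (Φ : Y → β.m.V) : YC Y κ lam := ⟨β.m, W, Φ, β.z⟩

/-- `c` is close to a bounded configuration on the module of `β` -/
def Mv (D : YD I3 Y κ lam) (β : YC Y κ lam) (c : Cfg (Y × ℝ) (Option κ) lam r) (O : Set (Y × ℝ))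
    (k : ℕ) (B η : ℝ) : Prop := ∃ W Φ, ∃ u : Y × ℝ → CL c.m.V (cy β).m.V, ∃ ζ, D.Adm (mv β W Φ) ∧
  (∀ a, Lb D.Z.toPre univ k (fun x => W a x.1) B) ∧ Lb D.Z.toPre univ k (fun x => Φ x.1) B ∧
    Cl D.Z c (cy (mv β W Φ)) u (fun _ => ζ) O k η

/-- the mixed curvature in terms of the difference of the connections -/
def rW {η η' : Type} [Fintype η] [Fintype η'] (F : Pre (IC I3) (Y × ℝ) (Option κ)) (a : κ)
    (A A' W : Y × ℝ → En η') (h : Y × ℝ → CL (Eu η) (Eu η')) (x : Y × ℝ) : En η :=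
  ad (h x) ∘L (F.D (some a) A x - F.D none A' x + A x ∘L A' x - A' x ∘L A x + W x ∘L A x -
    A x ∘L W x) ∘L h x

theorem OB.rW {η η' α : Type} [Fintype η] [Fintype η'] {F : Pre (IC I3) (Y × ℝ) (Option κ)} (a : κ)
    {l : Filter α} {S : α → Set (Y × ℝ)} {k : ℕ} {e : α → ℝ} (he : ∀ n, e n ≤ 0)
    {A A' W : α → Y × ℝ → En η'} {h : α → Y × ℝ → CL (Eu η) (Eu η')} (h1 : OB F l S (k + 1) e A)
    (h2 : OB F l S (k + 1) e A') (w : BB F l S k W) (hb : BB F l S k h) :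
    OB F l S k e fun n => rW F a (A n) (A' n) (W n) (h n) :=
  let a1 := h1.of_le k.le_succ
  let a2 := h2.of_le k.le_succ
  (((((((h1.D _).sub (h2.D _)).add (a1.comp (a2.bb he))).sub (a2.comp (a1.bb he))).add
    (a1.comp' w)).sub (a1.comp w)).comp hb).comp' hb.ad

variable (hβ : D.Adm β) (hc : c.Adm D.B D.G) (ht : Tmp c)
include hβ hc ht

section pt
variable {h : Y × ℝ → CL c.m.V (cy β).m.V} (hO : IsOpen O) (hi : Iso0 (IC I3) c.m (cy β).m O h)
  (hx : x ∈ O)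
include hO hi hx

theorem dA_h (a : Option κ) : dA D.Z c (cy β) h a x ∘L h x = Bki64.cov D.Z c (cy β) h a x :=
  dA_u (G := D.G) hi hO ((admOn_univ.2 hc).mono (subset_univ _)) hx a

theorem dt_h : D.Z.D none h x = dA D.Z c (cy β) h none x ∘L h x := by
  rw [dA_h hβ hc ht hO hi hx, Bki64.cov, ht.W, show (cy β).W none x = 0 from hβ.tmp _]
  simp

theorem D_h (a : Option κ) : D.Z.D a h x =
    dA D.Z c (cy β) h a x ∘L h x - (cy β).W a x ∘L h x + h x ∘L c.W a x := by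
  rw [dA_h hβ hc ht hO hi hx]
  exact D_eq_cov _

theorem dt_W (hr : Tmp64.Red c) (a : κ) : D.Z.D none (c.W (some a)) x = rW D.Z.toPre a
    (dA D.Z c (cy β) h none) (dA D.Z c (cy β) h (some a)) ((cy β).W (some a)) h x := by
  have s0 := hi.su x hx
  have s1 : FSm (IC I3) (c.W (some a)) x := hc.conn.cc.sm _ x
  have s2 : FSm (IC I3) ((cy β).W (some a)) x := hβ.adm.conn.cc.sm _ x
  have s3 := fun b => fsm_dA (F := D.Z) s0 (hc.conn.cc.sm b x) (hβ.adm.conn.cc.sm b x)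
  have ea := fun y hy => D_h (x := y) hβ hc ht hO hi hy (some a)
  have k : dv (IC I3) (D.Z.e none) (D.Z.D (some a) h) x =
      dv (IC I3) (D.Z.e (some a)) (D.Z.D none h) x := dv_comm D.F.sm (s0.of_le two_le) a
  have w0 : D.Z.D none ((cy β).W (some a)) x = 0 := congrFun (D_none_fst D.F.toPre
    (f := β.W (some a)) fun _ => sm_slice (t := 0) (hβ.adm.conn.cc.sm _ _)) x
  rw [dv_congr (Eventually.mono (hO.mem_nhds hx) ea), dv_congr (Eventually.mono (hO.mem_nhds hx)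
    fun _ hy => dt_h hβ hc ht hO hi hy), Wz78.dv_add' (((s3 _).cc s0).sub (s2.cc s0)) (s0.cc s1),
    Wz78.dv_sub' ((s3 _).cc s0) (s2.cc s0), dv_cc (s3 _) s0, dv_cc s2 s0, dv_cc s0 s1,
    dv_cc (s3 _) s0] at k
  simp only [← Pre.D_def, w0, dt_h hβ hc ht hO hi hx, ea x hx] at k
  have e : c.m.p x ∘L D.Z.D none (c.W (some a)) x = D.Z.D none (c.W (some a)) x := by
    rw [show D.Z.D none (c.W (some a)) x = _ from (cyD D).dW hc ht hr a x]
    exact Wz78.g_p (Wz78.pg_mem _ _)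
  rw [← e, ← (hi.iso x hx).src, ContinuousLinearMap.comp_assoc, rW]
  congr 1
  rw [← sub_eq_zero, ← sub_eq_zero.2 k]
  simp only [ContinuousLinearMap.comp_sub, ContinuousLinearMap.sub_comp,
    ContinuousLinearMap.comp_add, ContinuousLinearMap.add_comp, ContinuousLinearMap.comp_assoc,
    ContinuousLinearMap.zero_comp]
  abel

theorem dt_Φ (ζ : Circle) : D.Z.D none c.Φ x = ad (dA D.Z c (cy β) h none x ∘L h x)
    (csB (cy β).m.J (ζ⁻¹ : Circle) (dP c (cy β) h ζ x + (cy β).Φ x)) +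
      ad (h x) (csB (cy β).m.J (ζ⁻¹ : Circle) (D.Z.D none (dP c (cy β) h ζ) x)) := by
  have s0 := hi.su x hx
  have s1 : FSm (IC I3) (dP c (cy β) h ζ) x := ((contMDiffAt_const
    (c := csB (cy β).m.J ζ)).clm_apply (s0.clm_apply (hc.sm x))).sub (hβ.adm.sm x)
  have s2 : FSm (IC I3) (fun y => dP c (cy β) h ζ y + (cy β).Φ y) x := s1.add (hβ.adm.sm x)
  have e : ∀ y ∈ O, c.Φ y = ad (h y) (csB (cy β).m.J (ζ⁻¹ : Circle)
      (dP c (cy β) h ζ y + (cy β).Φ y)) := fun y hy => by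
    rw [dP, sub_add_cancel, csB_apply, cs_mul hβ.adm.ok.Jsq, ← Circle.coe_mul, inv_mul_cancel, Circle.coe_one, cs_one, ← ContinuousLinearMap.comp_apply,
      (hi.iso y hy).src, (admOn_univ.2 hc).pΦ (mem_univ y)]
  have w0 : dv (IC I3) (D.Z.e none) (cy β).Φ x = 0 := congrFun (D_none_fst D.F.toPre
    (f := β.Φ) fun _ => sm_slice (t := 0) (hβ.adm.sm _)) x
  rw [Pre.D_def, dv_congr (Eventually.mono (hO.mem_nhds hx) e), dv_app s0.ad.md
    (Wz78.SA.clm _ s2).md, dv_ad s0, dv_clm _ (FSm.md s2), Wz78.dv_add' s1 (hβ.adm.sm x), w0,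
    add_zero, ← dt_h hβ hc ht hO hi hx]
  rfl

end pt

omit hβ in
/-- the time derivative of a configuration in temporal gauge is gauge invariant -/
theorem ob_dt (hr : Tmp64.Red c) {α : Type} {l : Filter α} {S : α → Set (Y × ℝ)} {k : ℕ} {e : α → ℝ}
    (he : ∀ n, e n ≤ 0) {W : α → β.m.Cn} {Φ : α → Y → β.m.V}
    {h : α → Y × ℝ → CL c.m.V (cy β).m.V} {ζ : α → Circle} {C : ℝ} (h0 : 0 ≤ C)
    (H : ∀ᶠ n in l, D.Adm (mv β (W n) (Φ n)) ∧
      Cl D.Z c (cy (mv β (W n) (Φ n))) (h n) (fun _ => ζ n) (S n) (k + 1) (C * exp (e n)))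
    (w : ∀ a, BB D.Z.toPre l S k fun n x => W n a x.1) (f : BB D.Z.toPre l S k fun n x => Φ n x.1)
    (hb : BB D.Z.toPre l S k h) :
    (∀ a, OB D.Z.toPre l S k e fun _ => D.Z.D none (c.W a)) ∧
      OB D.Z.toPre l S k e fun _ => D.Z.D none c.Φ := by
  have A : ∀ a, OB (N := CL (cy β).m.V (cy β).m.V) D.Z.toPre l S (k + 1) e
      fun n => dA D.Z c (cy (mv β (W n) (Φ n))) (h n) a := fun a =>
    ⟨C, h0, H.mono fun _ h => ⟨h.2.op, h.2.A a⟩⟩
  have A' := fun a => (A a).of_le k.le_succ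
  have P : OB (N := (cy β).m.V) D.Z.toPre l S (k + 1) e
      fun n => dP c (cy (mv β (W n) (Φ n))) (h n) (ζ n) :=
    ⟨C, h0, H.mono fun _ h => ⟨h.2.op, h.2.P⟩⟩
  have z := (bb_circ (F := D.Z.toPre) (k := k) hb.op fun n => (ζ n)⁻¹).clm (csB (cy β).m.J)
  refine ⟨fun a => ?_, ((((((A' none).comp hb).clm adL).app (z.app (((P.of_le k.le_succ).bb he).add
    f))).add (((P.D none).app' z).app' hb.ad))).congr (H.mono fun n h x hx =>
      dt_Φ h.1 hc ht h.2.op h.2.iso hx _)⟩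
  cases a with
  | none =>
    refine (OB.zero hb.op).congr (Eventually.of_forall fun _ x _ => ?_)
    rw [show c.W none = fun _ => 0 from funext ht.W]
    exact congrFun (dv_const _) x
  | some a =>
    exact (OB.rW a he (A none) (A (some a)) (w (some a)) hb).congr (H.mono fun n h x hx =>
      dt_W h.1 hc ht h.2.op h.2.iso hx hr a)

/-- the limit of an almost `t`-invariant isomorphism -/
theorem lim_iso {𝒰 : Ultrafilter ℝ} {s : ℝ → ℝ} {h : Y × ℝ → CL c.m.V (cy β).m.V}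
    (hi : ∀ᶠ n in 𝒰, Iso0 (IC I3) c.m (cy β).m (win Y (s n) 1) h)
    (hb : ∀ k, BB D.Z.toPre 𝒰 (fun n => win Y (s n) 1) k fun _ => h)
    (hz : ∀ k, ZZ D.Z.toPre 𝒰 (fun n => win Y (s n) 1) k fun _ => D.Z.D none h) :
    ∃ g : Y → CL c.m.V (cy β).m.V, Iso0 (IC I3) c.m (cy β).m univ (fun x => g x.1) ∧
      ∀ k, ZZ D.Z.toPre 𝒰 (fun n => win Y (s n) (1 / 2)) k fun _ x => h x - g x.1 := by
  have ho := win_op (Y := Y) 0 1
  have w := fun n => win_tr (Y := Y) (zero_add (s n)).symm 1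
  have m : ∀ n, ∀ x ∈ win Y 0 1, Tmp64.sq (· + s n) x ∈ win Y (s n) 1 := fun n x hx => by
    rwa [← w n] at hx
  obtain ⟨g, hg⟩ := MBOn.exists_cv (I := IC I3) (𝒰 := 𝒰) (Ω := win Y 0 1)
    (f := fun n x => h (Tmp64.sq (· + s n) x)) fun k x hx => by
      have := BB.tr (F := D.F.toPre) (hb k) s
      simp only [w] at this
      exact this.mb hx
  have fx : ∀ {N : Type} [NormedAddCommGroup N] [NormedSpace ℝ N] {φ : Y × ℝ → N}, Sm (IC I3) φ →
      Cv (IC I3) (𝒰 : Filter ℝ) (win Y 0 1) (fun _ => φ) φ := fun h => Cv.fixed' h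
  have ga := hg.clm adL
  have sg : ∀ x ∈ win Y 0 1, FSm (IC I3) g x := fun x hx => hg.smoothAt ho hx
  have h0 : ∀ y : Y, (y, (0 : ℝ)) ∈ win Y 0 1 := fun y => ⟨trivial, by simp, by simp⟩
  have ti : ∀ x ∈ win Y 0 1, g x = g (x.1, 0) := fun x hx => by
    refine isOpen_Ioo.is_const_of_deriv_eq_zero (f := fun s => g (x.1, s)) isPreconnected_Ioo
      (fun s hs => (diff_slice_snd (sg (x.1, s) ⟨trivial, hs⟩).md).differentiableWithinAt)
      (fun t hs => (D_none_at D.F.toPre (sg (x.1, t) ⟨trivial, hs⟩).md).symm.trans ?_) hx.2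
      (h0 x.1).2
    refine (hg.D ho D.Z.toPre none).unique (ZZ.cv (F := D.Z.toPre) fun k => ?_) ⟨trivial, hs⟩
    have := ZZ.tr (F := D.F.toPre) (hz k) s
    simp only [w] at this
    exact this.congr (hi.mono fun n h x hx => (D_sq D.F.toPre (sm_add _) (h.su _ (m n x hx))
      none).trans (by rw [sw, deriv_add', one_smul]; rfl))
  have sm : Sm I3 fun y => g (y, 0) := fun y => sm_slice (sg _ (h0 y))
  refine ⟨fun y => g (y, 0), ⟨fun x _ => sm_fst sm x, fun x _ => ⟨?_, ?_, ?_⟩, fun x _ => ?_,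
    fun x _ b => ?_, fun x _ v => ?_⟩, fun k ε hε => ?_⟩
  · exact (ga.clm_comp hg).eq_of (Cv.const _) (h0 _)
      (hi.mono fun n h => (h.iso _ (m n _ (h0 _))).src.trans (ht.p _ _ _))
  · exact (hg.clm_comp ga).eq_of (Cv.const _) (h0 _) (hi.mono fun n h => (h.iso _ (m n _ (h0 _))).tgt)
  · exact (hg.clm_comp (Cv.const _)).eq_of hg (h0 _)
      (hi.mono fun n h => ht.p x.1 _ x.2 ▸ (h.iso _ (m n _ (h0 _))).idem)
  · exact ((Cv.const _).clm_comp hg).eq_of (hg.clm_comp (Cv.const _)) (h0 _)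
      (hi.mono fun n h => h.J _ (m n _ (h0 _)))
  · exact ((Cv.const _).clm_comp hg).eq_of (hg.clm_comp (Cv.const _)) (h0 _)
      (hi.mono fun n h => ht.ρ b x.1 _ x.2 ▸ h.ρ _ (m n _ (h0 _)) b)
  · exact ((Cv.const _).clm_comp hg).eq_of (hg.clm_comp (Cv.const _)) (h0 _)
      (hi.mono fun n h => ht.j x.1 _ x.2 ▸ h.j _ (m n _ (h0 _)) v)
  · have h4 := ZZ.of_cv (F := D.Z.toPre) ho
      (isCompact_univ.prod (isCompact_Icc (a := 0 - 1 / 2) (b := 0 + 1 / 2)))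
      (prod_mono_right (Icc_subset_Ioo (by norm_num) (by norm_num))) (win_op 0 (1 / 2))
      (prod_mono_right Ioo_subset_Icc_self) k ((hg.sub (fx (sm_fst sm))).congr' ho
        (Eventually.of_forall fun _ _ _ => rfl) fun x hx => (sub_eq_zero.2 (ti x hx)).symm)
    refine (ZZ.tr (F := D.F.toPre) h4 (fun n => -s n) ε hε).mono fun n hn => ?_
    simp only [win_tr (add_neg_cancel (s n)).symm, Tmp64.sq, neg_add_cancel_right] at hn
    exact hn

theorem out_tmp (hr : Tmp64.Red c) {σ d : ℝ} {ζ : Circle} (hσ : σ = 1 ∨ σ = -1) (hd : 0 < d)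
    (H1 : ∀ k, ∃ B C, ∀ᶠ s in atTop, Mv D β c (wn Y σ s) k B (C * exp (-d * |s|)))
    {h : Y × ℝ → CL c.m.V (cy β).m.V}
    (H2 : ∀ k, CZ D.Z atTop (wn Y σ) k (fun _ => c) (cy β) (fun _ => h) fun _ _ => ζ) (T : ℝ) :
    ∃ g : Y → CL c.m.V (cy β).m.V, Iso0 (IC I3) c.m (cy β).m univ (fun x => g x.1) ∧
      ∀ k, ∃ C, ∀ s, T ≤ σ * s → Cl D.Z c (cy β) (fun x => g x.1) (fun _ => ζ) (win Y s 1) k
        (C * exp (-d * |s|)) := by
  have op := (H2 0).op
  have he : ∀ s : ℝ, -d * |s| ≤ 0 := fun s => by nlinarith [abs_nonneg s]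
  have sW : ∀ a, Sm (IC I3) (c.W a) := fun a x => hc.conn.cc.sm a x
  choose B C H1 using H1
  choose! W Φ u ζ' hu using fun k s (h : Mv D β c (wn Y σ s) k (B k) (C k * exp (-d * |s|))) => h
  have hw : ∀ k j, j ≤ k → (∀ a, BB D.Z.toPre atTop (wn Y σ) j fun n x => W k n a x.1) ∧
      BB D.Z.toPre atTop (wn Y σ) j fun n x => Φ k n x.1 := fun k j hj =>
    ⟨fun a => ⟨_, (H1 k).mono fun s hs => ⟨win_op _ _,
      (((hu k s hs).2.1 a).of_le hj).sub (subset_univ _)⟩⟩,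
      _, (H1 k).mono fun s hs => ⟨win_op _ _, ((hu k s hs).2.2.1.of_le hj).sub (subset_univ _)⟩⟩
  replace hu : ∀ k, ∀ᶠ s in atTop, D.Adm (mv β (W k s) (Φ k s)) ∧ Cl D.Z c (cy (mv β (W k s) (Φ k s)))
      (u k s) (fun _ => ζ' k s) (wn Y σ s) k (|C k| * exp (-d * |s|)) := fun k =>
    (H1 k).mono fun s hs => ⟨(hu k s hs).1, (hu k s hs).2.2.2.mono (win_op _ _) Subset.rfl le_rfl
      (by gcongr; exact le_abs_self _)⟩
  have fx : ∀ {k}, ((∀ a, Dc D.F.toPre σ d k fun _ => D.Z.D none (c.W a)) ∧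
      Dc D.F.toPre σ d k fun _ => D.Z.D none c.Φ) → Fx D.B D.G atTop (wn Y σ) k c := fun h =>
    ⟨Eventually.of_forall fun _ => (admOn_univ.2 hc).mono (subset_univ _),
      fun a => (h.1 a).bb hσ hd (sW a), h.2.bb hσ hd hc.sm⟩
  have b0 : ∀ k, BB D.Z.toPre atTop (wn Y σ) 0 (u k) := fun k =>
    bb_iso (c'' := cy β) op ((hu k).mono fun _ h => h.2.iso)
  have key : ∀ k, (∀ a, Dc D.F.toPre σ d k fun _ => D.Z.D none (c.W a)) ∧
      Dc D.F.toPre σ d k fun _ => D.Z.D none c.Φ := fun k => by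
    induction k with
    | zero =>
      exact ob_dt hc ht hr he (abs_nonneg _) (hu 1) (hw 1 0 zero_le_one).1
        (hw 1 0 zero_le_one).2 (b0 1)
    | succ k ih =>
      refine ob_dt hc ht hr he (abs_nonneg _) (hu (k + 2)) (hw _ _ (by omega)).1
        (hw _ _ (by omega)).2 ((b0 _).boot fun j hj hb a => ?_)
      have A : OB (N := CL (cy β).m.V (cy β).m.V) D.Z.toPre atTop (wn Y σ) j (fun s => -d * |s|)
          fun n => dA D.Z c (cy (mv β (W (k + 2) n) (Φ (k + 2) n))) (u (k + 2) n) a :=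
        ⟨_, abs_nonneg _, (hu _).mono fun _ h => ⟨h.2.op, (h.2.A a).of_le (by omega)⟩⟩
      exact ((((A.bb he).comp hb).sub (((hw (k + 2) j (by omega)).1 a).comp hb)).add
        (hb.comp (((fx ih).W a).of_le hj))).congr ((hu (k + 2)).mono fun n h x hx =>
          D_h h.1 hc ht h.2.op h.2.iso hx a)
  let 𝒰 := Ultrafilter.of (atTop : Filter ℝ)
  have hU : (𝒰 : Filter ℝ) ≤ atTop := Ultrafilter.of_le _
  have hb := fun k => ((H2 k).bb (G := D.G) (fx (key k)) (fx_cy hβ op)).of_le k.le_succ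
  have hcov : ∀ k a, ZZ D.Z.toPre atTop (wn Y σ) k fun _ => Bki64.cov D.Z c (cy β) h a :=
    fun k => (H2 k).cov (G := D.G) (fx (key k)) le_rfl (hb k)
  have sub : ∀ᶠ s in (𝒰 : Filter ℝ), IsOpen (win Y (σ * s) (1 / 2)) ∧
      win Y (σ * s) (1 / 2) ⊆ wn Y σ s :=
    Eventually.of_forall fun s => ⟨win_op _ _, win_sub (by norm_num)⟩
  obtain ⟨g, hg, hz⟩ := lim_iso hβ hc ht (𝒰 := 𝒰) (s := (σ * ·)) ((H2 0).iso.filter_mono hU)
    (fun k => (hb k).mono hU le_rfl (Eventually.of_forall fun _ => ⟨win_op _ _, Subset.rfl⟩))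
    fun k => ((((H2 k).A none).comp (hb k)).congr ((H2 0).iso.mono fun s hs x hx =>
      dt_h hβ hc ht (win_op _ _) hs hx)).mono hU le_rfl
      (Eventually.of_forall fun _ => ⟨win_op _ _, Subset.rfl⟩)
  have sg : Sm (IC I3) fun x : Y × ℝ => g x.1 := fun x => hg.su x trivial
  have sg' : Sm I3 g := fun y => sm_slice (t := 0) (sg (y, 0))
  have sA : ∀ a, Sm (IC I3) (dA D.Z c (cy β) (fun x => g x.1) a) := fun a x =>
    fsm_dA (sg x) (sW a x) (hβ.adm.conn.cc.sm a x)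
  have sP : Sm (IC I3) (dP c (cy β) (fun x => g x.1) ζ) := fun x => ((contMDiffAt_const
    (c := csB (cy β).m.J ζ)).clm_apply ((sg x).clm_apply (hc.sm x))).sub (hβ.adm.sm x)
  have g0 : ∀ x, dv (IC I3) (D.Z.e none) (fun x => g x.1) x = 0 :=
    congrFun (D_none_fst D.F.toPre sg')
  refine ⟨g, hg, fun k => ?_⟩
  have bg := BB.fst (F := D.F.toPre) op k sg'
  have f1 := fx (key k)
  have f2 := fx_cy (k := k) hβ op
  have hA : ∀ a, Dc D.F.toPre σ d k fun _ => dA D.Z c (cy β) (fun x => g x.1) a := fun a => by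
    refine Dc.of_dt hσ hd (sA a) ?_ hU one_half_pos ?_
    · refine ((OB.zero op).sub ((((key k).1 a).comp' bg).comp bg.ad)).congr
        (Eventually.of_forall fun _ x _ => ?_)
      have s1 : FSm (IC I3) ((cy β).W a) x := hβ.adm.conn.cc.sm a x
      have s2 : FSm (IC I3) (D.Z.D a fun x => g x.1) x := D.Z.sm_D sg a x
      have g1 : dv (IC I3) (D.Z.e none) (D.Z.D a fun x => g x.1) x = 0 :=
        (congrFun (Dw_none (F := D.F.toPre) [a] sg) x).trans (by
          rw [D_none_fst D.F.toPre sg']; exact congrFun dv_zero x)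
      have w0 : dv (IC I3) (D.Z.e none) ((cy β).W a) x = 0 := congrFun (D_none_fst D.F.toPre
        (f := β.W a) fun _ => sm_slice (t := 0) (hβ.adm.conn.cc.sm _ _)) x
      rw [show dA D.Z c (cy β) (fun x => g x.1) a = fun x => (D.Z.D a (fun x => g x.1) x +
        (cy β).W a x ∘L g x.1 - g x.1 ∘L c.W a x) ∘L ad (g x.1) from funext fun x => by
          rw [ad_trn]; rfl, Pre.D_def]
      erw [dv_cc ((s2.add (s1.cc (sg x))).sub (FSm.cc (sg x) (sW a x))) (FSm.ad (sg x)),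
        Wz78.dv_sub' (s2.add (s1.cc (sg x))) (FSm.cc (sg x) (sW a x)), Wz78.dv_add' s2 (s1.cc (sg x)),
        dv_cc s1 (sg x), dv_cc (sg x) (sW a x), dv_ad (sg x), g0, g1, w0]
      simp [ad_zero]
      rfl
    · have z := (hz (k + 1)).of_le k.le_succ
      refine (((((hcov k a).mono hU le_rfl sub).sub ((((hz (k + 1)).D a).add
        (((f2.W a).mono hU le_rfl sub).compZ z)).sub (z.comp ((f1.W a).mono hU le_rfl sub)))).comp
        (bg.mono hU le_rfl sub).ad)).congr ((((H2 0).iso.filter_mono hU).and sub).mono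
          fun s hs x hx => ?_)
      have e : D.Z.D a (fun x => h x - g x.1) x = D.Z.D a h x - D.Z.D a (fun x => g x.1) x :=
        dv_sub (hs.1.su x (hs.2.2 hx)).md (FSm.md (sg x))
      rw [dA, ad_trn, e, Bki64.cov, Bki64.cov]
      congr 1
      simp only [ContinuousLinearMap.comp_sub, ContinuousLinearMap.sub_comp]
      abel
  have hP : Dc D.F.toPre σ d k fun _ => dP c (cy β) (fun x => g x.1) ζ := by
    refine Dc.of_dt hσ hd sP ?_ hU one_half_pos ?_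
    · refine (((key k).2.app' bg).clm (csB (cy β).m.J ζ)).congr (Eventually.of_forall fun _ x _ => ?_)
      have w0 : dv (IC I3) (D.Z.e none) (cy β).Φ x = 0 := congrFun (D_none_fst D.F.toPre
        (f := β.Φ) fun _ => sm_slice (t := 0) (hβ.adm.sm _)) x
      have s1 := Wz78.SA.app (sg x) (hc.sm x)
      refine (Wz78.dv_sub' (e := D.Z.e none) (Wz78.SA.clm (csB (cy β).m.J ζ) s1)
        (hβ.adm.sm x)).trans ?_
      rw [w0, dv_clm _ s1.md, dv_app (FSm.md (sg x)) (FSm.md (hc.sm x)), g0, zero_apply, zero_add,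
        sub_zero]
      rfl
    · refine ((((H2 k).P.mono hU le_rfl sub).sub (((hz k).app (f1.Φ.mono hU le_rfl sub)).clm
        (csB (cy β).m.J ζ)))).congr' fun s x => ?_
      simp only [dP, sub_apply, map_sub, csB_apply]
      abel
  choose CA hA using fun a => (hA a).ext hσ hd (sA a) T
  obtain ⟨CP, hP⟩ := hP.ext hσ hd sP T
  have le : ∀ a, |CA a| ≤ ∑ a, |CA a| := fun a =>
    Finset.single_le_sum (f := fun a => |CA a|) (fun _ _ => abs_nonneg _) (Finset.mem_univ a)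
  refine ⟨|CP| + ∑ a, |CA a|, fun s hs => ⟨win_op _ _, hg.mono (subset_univ _),
    fun a => (hA a s hs).mono ?_, (hP s hs).mono ?_⟩⟩ <;> gcongr
  · linarith [le_abs_self (CA a), le a, abs_nonneg CP]
  · linarith [le_abs_self CP, le none, abs_nonneg (CA none)]

omit hc ht in
theorem outm (hD : D.OK) {σ d T : ℝ} {ζ : Circle} (hσ : σ = 1 ∨ σ = -1) (hd : 0 < d)
    (hc : AdmOn c D.B D.G (univ ×ˢ {s | T < σ * s}))
    (H1 : ∀ k, ∃ B C T', ∀ s, T' ≤ σ * s → Mv D β c (win Y s 1) k B (C * exp (-d * |s|)))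
    {u : Y × ℝ → CL c.m.V (cy β).m.V}
    (H2 : ∀ k, ∀ η > 0, ∃ T', Cl D.Z c (cy β) u (fun _ => ζ) (univ ×ˢ {s | T' < σ * s}) k η) :
    ∃ u, ∀ k, ∃ C, ∀ s, T + 2 ≤ σ * s →
      Cl D.Z c (cy β) u (fun _ => ζ) (win Y s 1) k (C * exp (-d * |s|)) := by
  obtain ⟨c', τ, k1, k2, k3, e⟩ := exists_tmp' hD hσ hc
  have e' := e.symm (G := D.G) (hc.mono (prod_mono_right fun s (h : T + 1 < σ * s) =>
    (lt_add_one T).trans h)) ((admOn_univ.2 k1).mono (subset_univ _))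
  have sub : ∀ {T s : ℝ}, T + 1 ≤ s → wn Y σ s ⊆ univ ×ˢ {s | T < σ * s} := fun h x hx =>
    ⟨trivial, (le_sub_iff_add_le.2 h).trans_lt (wn_lt hσ hx)⟩
  obtain ⟨g, -, hg⟩ := out_tmp hβ k1 k2 k3 (ζ := ζ) (h := fun x => u x ∘L ad (τ x)) hσ hd (fun k => by
    obtain ⟨B, C, T', h⟩ := H1 k
    refine ⟨B, C, ((eventually_ge_atTop T').and (eventually_ge_atTop (T + 1 + 1))).mono
      fun s hs => ?_⟩
    obtain ⟨W, Φ, v, ζ', h1, h2, h3, hv⟩ := h (σ * s) (by rw [σ_σ hσ]; exact hs.1)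
    rw [abs_σ hσ] at hv
    exact ⟨W, Φ, _, ζ', h1, h2, h3, cl_pre e' hv (sub hs.2)⟩) (fun k ε hε => by
    obtain ⟨T', h⟩ := H2 k ε hε
    exact ((eventually_ge_atTop (T' + 1)).and (eventually_ge_atTop (T + 1 + 1))).mono fun s hs =>
      cl_pre e' (h.mono (win_op _ _) (sub hs.1) le_rfl le_rfl) (sub hs.2)) (T + 2)
  refine ⟨fun x => g x.1 ∘L τ x, fun k => (hg k).imp fun C h s hs => cl_pre e (h s hs) ?_⟩
  simpa only [wn, σ_σ hσ] using sub (T := T + 1) (s := σ * s) (by linarith)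

omit hc ht in
/-- the coefficients of `β` are bounded -/
theorem lb_cy (k : ℕ) : ∃ B ≥ 0, (∀ a, Lb D.Z.toPre univ k (fun x => β.W a x.1) B) ∧
    Lb D.Z.toPre univ k (fun x => β.Φ x.1) B := by
  have f := fx_cy (l := pure ()) (S := fun _ => univ) (k := k) hβ (eventually_pure.2 isOpen_univ)
  choose B hB using f.W
  obtain ⟨B', hB'⟩ := f.Φ
  have le : ∀ a, |B a| ≤ ∑ a, |B a| := fun a =>
    Finset.single_le_sum (f := fun a => |B a|) (fun _ _ => abs_nonneg _) (Finset.mem_univ a)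
  refine ⟨|B'| + ∑ a, |B a|, by positivity, fun a => (hB a).2.mono ?_, hB'.2.mono ?_⟩
  · linarith [le_abs_self (B a), le a, abs_nonneg B']
  · linarith [le_abs_self B', le none, abs_nonneg (B none)]

omit hβ hc ht in
theorem out : Dec35.OutStmt I3 Y κ lam := fun _ β hD hβ _ _ _ _ _ _ hσ hd hc H1 ⟨_, H2⟩ =>
  outm hβ hD hσ hd hc (fun k =>
    let ⟨C, T', h⟩ := H1 k
    let ⟨B, _, h1, h2⟩ := lb_cy hβ k
    ⟨B, C, T', fun s hs => let ⟨u, ζ, h⟩ := h s hs; ⟨β.W, β.Φ, u, ζ, hβ, h1, h2, h⟩⟩) H2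

end Crest.Agent.X212.Cay24
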